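import Vale.Agent.P166.Parisi.Final

/-!
The path function as an average of maxima, and the linear energy.
-/

namespace Vale.Agent.P146.Gap

open MeasureTheory Finset
open Vale.Agent.P157.Parisi (lvl IsPath isingEntropy)
open Vale.Agent.P166.Parisi (chiPath qTail energy value rTrans chiPath_mem_Ioc chiPath_continuous
  intervalIntegrable_rTrans energy_ge isingEntropy_nonneg)

variable {K : ℕ} {q : ℕ → ℝ} {μ : Measure ℝ} {β : ℝ}

/-- The energy of the semicircle law below criticality. -/
noncomputable def linEnergy (β : ℝ) (K : ℕ) (q : ℕ → ℝ) : ℝ :=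
  β ^ 2 / 4 * (1 - (∑ l ∈ range (K + 1), q l ^ 2) / ((K : ℝ) + 1))

lemma chiPath_eq_max (hq : IsPath q) (s : ℝ) :
    chiPath K q s = 1 - (∑ m ∈ range (K + 1), max s (q m)) / ((K : ℝ) + 1) := by
  classical
  have hsplit : ∀ l ≤ K + 1, ∀ f : ℕ → ℝ, ∑ m ∈ range (K + 1), f m =
      ∑ m ∈ range l, f m + ∑ m ∈ Ico l (K + 1), f m :=
    fun l hl f => (sum_range_add_sum_Ico f hl).symm
  have hline : ∀ l, 1 - lvl K l * s - qTail K q l =
      1 - ((∑ _m ∈ range l, s) + ∑ m ∈ Ico l (K + 1), q m) / ((K : ℝ) + 1) := fun l => by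
    rw [lvl, qTail, sum_const, card_range, nsmul_eq_mul]
    ring
  refine le_antisymm ?_ (le_inf' _ _ fun l hl => ?_)
  · have hex : ∃ l, K + 1 ≤ l ∨ s < q l := ⟨K + 1, Or.inl le_rfl⟩
    have hl : Nat.find hex ≤ K + 1 := Nat.find_le (Or.inl le_rfl)
    refine (inf'_le _ (mem_range.2 (Nat.lt_succ_of_le hl))).trans_eq ?_
    rw [hline, hsplit _ hl]
    congr 3
    · refine sum_congr rfl fun m hm => ?_
      have := Nat.find_min hex (mem_range.1 hm)
      push Not at this
      rw [max_eq_left this.2]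
    · refine sum_congr rfl fun m hm => ?_
      rw [mem_Ico] at hm
      rcases Nat.find_spec hex with h | h
      · omega
      · rw [max_eq_right (h.le.trans (hq.1 hm.1))]
  · rw [hline, hsplit l (by rw [mem_range] at hl; omega)]
    refine sub_le_sub_left (div_le_div_of_nonneg_right ?_ (by positivity)) _
    exact add_le_add (sum_le_sum fun m _ => le_max_left _ _) (sum_le_sum fun m _ => le_max_right _ _)

lemma chiPath_zero (hq : IsPath q) : chiPath K q 0 = 1 - qTail K q 0 := by
  rw [chiPath_eq_max hq, qTail, ← range_eq_Ico]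
  exact congrArg (fun x => 1 - x / ((K : ℝ) + 1))
    (sum_congr rfl fun m _ => max_eq_right (hq.2.trans (hq.1 (Nat.zero_le m))))

lemma chiPath_anti (hq : IsPath q) {s t : ℝ} (hst : s ≤ t) : chiPath K q t ≤ chiPath K q s := by
  rw [chiPath_eq_max hq, chiPath_eq_max hq]
  exact sub_le_sub_left (div_le_div_of_nonneg_right
    (sum_le_sum fun m _ => max_le_max_right _ hst) (by positivity)) _

lemma chiPath_lip (hq : IsPath q) {s t : ℝ} (hst : s ≤ t) :
    chiPath K q s - (t - s) ≤ chiPath K q t := by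
  rw [chiPath_eq_max hq, chiPath_eq_max hq]
  have h : ∑ m ∈ range (K + 1), max t (q m) ≤
      ∑ m ∈ range (K + 1), max s (q m) + ((K : ℝ) + 1) * (t - s) := by
    rw [show ((K : ℝ) + 1) * (t - s) = ∑ _m ∈ range (K + 1), (t - s) by simp; ring, ← sum_add_distrib]
    refine sum_le_sum fun m _ => max_le ?_ ?_
    · linarith [le_max_left s (q m)]
    · linarith [le_max_right s (q m)]
  have := div_le_div_of_nonneg_right h (show (0 : ℝ) ≤ (K : ℝ) + 1 by positivity)
  rw [add_div, mul_div_cancel_left₀ _ (by positivity : ((K : ℝ) + 1) ≠ 0)] at this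
  linarith

lemma integral_max (a : ℝ) (h0 : 0 ≤ a) (h1 : a ≤ 1) :
    ∫ s in (0 : ℝ)..1, max s a = (1 + a ^ 2) / 2 := by
  have hi : ∀ u v : ℝ, IntervalIntegrable (fun s => max s a) volume u v := fun u v =>
    (by fun_prop : Continuous fun s => max s a).intervalIntegrable u v
  rw [← intervalIntegral.integral_add_adjacent_intervals (hi 0 a) (hi a 1),
    intervalIntegral.integral_congr (g := fun _ => a) (fun s hs => by
      rw [Set.uIcc_of_le h0] at hs; exact max_eq_right hs.2),
    intervalIntegral.integral_congr (a := a) (g := fun s => s) (fun s hs => by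
      rw [Set.uIcc_of_le h1] at hs; exact max_eq_left hs.1)]
  simp
  ring

lemma integral_chiPath (hq : IsPath q) (h1 : q K ≤ 1) :
    ∫ s in (0 : ℝ)..1, chiPath K q s = (1 - (∑ m ∈ range (K + 1), q m ^ 2) / ((K : ℝ) + 1)) / 2 := by
  simp only [chiPath_eq_max hq]
  rw [intervalIntegral.integral_sub intervalIntegrable_const
    (((continuous_finsetSum _ fun m _ => by fun_prop).div_const _).intervalIntegrable _ _),
    intervalIntegral.integral_div, intervalIntegral.integral_finsetSum fun m _ =>
      (by fun_prop : Continuous fun s => max s (q m)).intervalIntegrable _ _,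
    sum_congr rfl fun m hm => integral_max (q m) (hq.2.trans (hq.1 (Nat.zero_le m)))
      ((hq.1 (by rw [mem_range] at hm; omega)).trans h1)]
  simp only [add_div, sum_add_distrib, sum_const, card_range, nsmul_eq_mul]
  push_cast
  rw [intervalIntegral.integral_const, ← sum_div]
  simp
  field_simp
  ring

lemma energy_le_linEnergy [IsProbabilityMeasure μ] (hμ : IsCompact μ.support)
    (hR : ∀ y, 0 < y → rTrans μ y ≤ y) (hβ : 0 < β) (hq : IsPath q) (h1 : q K < 1) :
    energy μ β K q ≤ linEnergy β K q := by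
  have h := intervalIntegral.integral_mono_on_of_le_Ioo zero_le_one
    (intervalIntegrable_rTrans hμ hβ hq h1)
    ((continuous_const.mul (chiPath_continuous K q)).intervalIntegrable _ _)
    (g := fun s => β * chiPath K q s) fun s hs => hR _ (mul_pos hβ (chiPath_mem_Ioc hq h1 hs).1)
  rw [intervalIntegral.integral_const_mul, integral_chiPath hq h1.le] at h
  refine (mul_le_mul_of_nonneg_left h (by linarith)).trans_eq ?_
  rw [linEnergy]
  ring

lemma energy_eq_linEnergy (hR : ∀ y, 0 < y → y ≤ 1 → rTrans μ y = y) (hβ : 0 < β)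
    (hq : IsPath q) (h1 : q K < 1) (hc : β * (1 - qTail K q 0) ≤ 1) :
    energy μ β K q = linEnergy β K q := by
  rw [energy, intervalIntegral.integral_congr_ae (g := fun s => β * chiPath K q s),
    intervalIntegral.integral_const_mul, integral_chiPath hq h1.le, linEnergy]
  · ring
  · rw [Set.uIoc_of_le zero_le_one]
    filter_upwards [Measure.ae_ne (volume : Measure ℝ) 1] with s hs hmem
    have hs' : s ∈ Set.Ioo (0 : ℝ) 1 := ⟨hmem.1, lt_of_le_of_ne hmem.2 hs⟩
    refine hR _ (mul_pos hβ (chiPath_mem_Ioc hq h1 hs').1) (le_trans ?_ hc)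
    rw [← chiPath_zero hq]
    exact mul_le_mul_of_nonneg_left (chiPath_anti hq hmem.1.le) hβ.le

lemma bddBelow_values [IsProbabilityMeasure μ] (hμ : IsCompact μ.support) (hβ : 0 ≤ β) :
    BddBelow {v | ∃ K q, IsPath q ∧ q K < 1 ∧ v = isingEntropy K q + energy μ β K q} := by
  refine ⟨β / 2 * sInf μ.support, ?_⟩
  rintro v ⟨K, q, hq, h1, rfl⟩
  linarith [energy_ge hμ hβ hq h1, isingEntropy_nonneg (K := K) hq h1]

end Vale.Agent.P146.Gap
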