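import Vale.Agent.P146.Gap.Levels
import Vale.Agent.P146.Gap.Linear

/-!
Near minimisers of the variational formula are almost marginal at `0` above criticality.
-/

namespace Vale.Agent.P146.Gap

open MeasureTheory ProbabilityTheory Real Filter Topology Finset
open Vale.Agent.P157.Parisi (lvl gaussStep descend cascade IsPath isingField isingEntropy gauss_map_sqrt)
open Vale.Agent.P166.Parisi (oneSpin spinNest spinLeaf spinLaw spinPath cumVar qTail energy value
  rTrans oneSpin_eq cumVar_path spinPath_path)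
open Vale.Agent.P166.Parisi.SpinAux (spinNest_good spinLeaf_good cumVar_of_le ampOf cumVar_ampOf
  oneSpin_congr_sq oneSpin_le qTail_nonneg integral_exp_lin isingField_congr)

attribute [local instance] Vale.Agent.P166.Parisi.spinLaw_prob

variable {β : ℝ} {K : ℕ} {e : ℕ → ℝ} {μ : Measure ℝ}

/-- The finite-dimensional functional: entropy plus linear energy at the stationary path. -/
noncomputable def Ps (β : ℝ) (K : ℕ) (e : ℕ → ℝ) : ℝ :=
  oneSpin K e - (∑ i ∈ range (K + 2), e i ^ 2) / 2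
    + (∑ l ∈ range (K + 1), cumVar K e l ^ 2) / (4 * β ^ 2 * ((K : ℝ) + 1)) + β ^ 2 / 4

lemma Ps_eq (β : ℝ) (K : ℕ) (e : ℕ → ℝ) :
    Ps β K e = isingField K (cumVar K e)
      + (∑ l ∈ range (K + 1), cumVar K e l ^ 2) / (4 * β ^ 2 * ((K : ℝ) + 1)) + β ^ 2 / 4 := by
  rw [Ps, oneSpin_eq]
  ring

/-- The difference of the two sides of the stationarity equation. -/
noncomputable def slack (β : ℝ) (K : ℕ) (e : ℕ → ℝ) (j : ℕ) : ℝ :=
  qTail K (cumVar K e) j / β ^ 2 - qTail K (spinPath K e) j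

lemma cumVar_update {j : ℕ} {θ : ℝ} (hj : j ≤ K) {l : ℕ} (hl : l ≤ K) :
    cumVar K (Function.update e j θ) l =
      cumVar K e l + if j ≤ l then θ ^ 2 - e j ^ 2 else 0 := by
  rw [cumVar_of_le hl, cumVar_of_le hl]
  split_ifs with h
  · have hm : j ∈ range (l + 1) := mem_range.2 (by omega)
    rw [← add_sum_erase _ _ hm, ← add_sum_erase _ (fun i => e i ^ 2) hm, Function.update_self,
      sum_congr rfl fun i hi => by rw [Function.update_of_ne (ne_of_mem_erase hi)]]
    ring
  · rw [add_zero]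
    exact sum_congr rfl fun i hi => by
      rw [Function.update_of_ne (by rw [mem_range] at hi; omega)]

lemma Ps_perturb_le (hβ : β ≠ 0) (e : ℕ → ℝ) {j : ℕ} (hj : j ≤ K) {δ : ℝ}
    (hδ : -(e j ^ 2) ≤ δ) :
    Ps β K (Function.update e j √(e j ^ 2 + δ)) ≤
      Ps β K e + δ / 2 * slack β K e j + δ ^ 2 / (4 * β ^ 2) := by
  have hsq : √(e j ^ 2 + δ) ^ 2 = e j ^ 2 + δ := Real.sq_sqrt (by linarith)
  set e' := Function.update e j √(e j ^ 2 + δ) with he'
  have hv : ∀ i, e' i ^ 2 = e i ^ 2 + if i = j then δ else 0 := fun i => by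
    rcases eq_or_ne i j with rfl | h
    · simp [he', hsq]
    · simp [he', h]
  have h1 : oneSpin K e' ≤ oneSpin K e + δ / 2 * (1 - qTail K (spinPath K e) j) := by
    have h := oneSpin_le (K := K) e (v := fun i => e' i ^ 2) fun i => sq_nonneg _
    rw [oneSpin_congr_sq (e' := e') fun i => by rw [Real.sq_sqrt (sq_nonneg _)],
      sum_eq_single_of_mem j (mem_range.2 (by omega)) fun i _ hi => by simp [hv, hi]] at h
    simpa [hv] using h
  have h2 : ∑ i ∈ range (K + 2), e' i ^ 2 = ∑ i ∈ range (K + 2), e i ^ 2 + δ := by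
    simp only [hv, sum_add_distrib, sum_ite_eq', mem_range]
    rw [if_pos (by omega)]
  have h3 : ∑ l ∈ range (K + 1), cumVar K e' l ^ 2 = ∑ l ∈ range (K + 1), cumVar K e l ^ 2
      + (2 * δ * ∑ l ∈ Ico j (K + 1), cumVar K e l + δ ^ 2 * ((K + 1 - j : ℕ) : ℝ)) := by
    have hc : ∀ l ∈ range (K + 1), cumVar K e' l ^ 2 = cumVar K e l ^ 2
        + if j ≤ l then 2 * δ * cumVar K e l + δ ^ 2 else 0 := fun l hl => by
      rw [he', cumVar_update hj (by rw [mem_range] at hl; omega), hsq]
      split_ifs <;> ring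
    rw [sum_congr rfl hc, sum_add_distrib, ← sum_filter]
    have : (range (K + 1)).filter (fun l => j ≤ l) = Ico j (K + 1) := by
      ext l; simp; omega
    rw [this, sum_add_distrib, ← mul_sum, sum_const, Nat.card_Ico, nsmul_eq_mul]
    ring
  have h4 : δ ^ 2 * ((K + 1 - j : ℕ) : ℝ) / (4 * β ^ 2 * ((K : ℝ) + 1)) ≤ δ ^ 2 / (4 * β ^ 2) := by
    rw [div_le_div_iff₀ (by positivity) (by positivity)]
    have h5 : ((K + 1 - j : ℕ) : ℝ) ≤ (K : ℝ) + 1 := by
      exact_mod_cast (show K + 1 - j ≤ K + 1 by omega)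
    nlinarith [mul_le_mul_of_nonneg_left h5 (show 0 ≤ δ ^ 2 * (4 * β ^ 2) by positivity)]
  have h6 : 2 * δ * (∑ l ∈ Ico j (K + 1), cumVar K e l) / (4 * β ^ 2 * ((K : ℝ) + 1)) =
      δ / 2 * (qTail K (cumVar K e) j / β ^ 2) := by
    rw [qTail]; field_simp; ring
  simp only [Ps, h2, h3, slack]
  simp only [add_div]
  rw [h6, mul_sub]
  linarith

lemma prof_nonneg (e : ℕ → ℝ) {k : ℕ} (hk : k ≤ K) (y : ℝ) : 0 ≤ prof K e k y := by
  induction hk using Nat.decreasingInduction generalizing y with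
  | self => rw [prof_top]; exact log_nonneg (one_le_cosh y)
  | of_succ k hk ih =>
    rw [prof_pred hk]
    have hl := lvl_succ_pos K k
    refine mul_nonneg (inv_nonneg.2 hl.le) (log_nonneg ?_)
    have hi := integrable_H (prof_prof e (show k + 1 ≤ K by omega)).toLip1 hl.le 0
      √(e (k + 1) ^ 2) y
    simp only [pow_zero, one_mul] at hi
    refine le_trans ?_ (integral_mono (integrable_const (1:ℝ)) hi fun z =>
      one_le_exp (mul_nonneg hl.le (ih _)))
    simp

lemma oneSpin_nonneg (he : e (K + 1) = 0) : 0 ≤ oneSpin K e := by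
  have h : oneSpin K e = ∫ z, prof K e 0 (√(cumVar K e 0) * z) ∂(gaussianReal 0 1) := by
    rw [oneSpin_eq, isingField, cascade, sum_range_succ _ (K + 1), he,
      ← cumVar_of_le (le_refl K)]
    simp [prof]
  rw [h]
  exact integral_nonneg fun z => prof_nonneg e (Nat.zero_le K) _

lemma Ps_zero (β : ℝ) (K : ℕ) : Ps β K (fun _ => 0) = β ^ 2 / 4 := by
  have : cumVar K (fun _ => 0) = fun _ => 0 := by funext l; simp [cumVar]
  rw [Ps_eq, this, Vale.Agent.P166.Parisi.SpinAux.isingField_zero]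
  simp

/-- Amplitudes from a vector. -/
noncomputable def ext {K : ℕ} (f : Fin (K + 1) → ℝ) (i : ℕ) : ℝ :=
  if h : i ≤ K then f ⟨i, by omega⟩ else 0

lemma continuous_Ps (β : ℝ) (K : ℕ) : Continuous fun f : Fin (K + 1) → ℝ => Ps β K (ext f) := by
  have hc : ∀ i, Continuous fun f : Fin (K + 1) → ℝ => ext f i := fun i => by
    simp only [ext]; split_ifs <;> fun_prop
  have h1 : Continuous fun f : Fin (K + 1) → ℝ => oneSpin K (ext f) :=
    Vale.Agent.P157.Parisi.continuous_free (N := spinNest K fun _ => 0) (μ := spinLaw)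
      (spinNest_good K _) spinLeaf_good (A := fun f l _ => ext f l) (fun l _ _ => hc l)
  simp only [Ps, cumVar]
  fun_prop

lemma exists_min (hβ : β ≠ 0) (K : ℕ) {S : Set (Fin (K + 1) → ℝ)} (hS : IsClosed S) (h0 : 0 ∈ S) :
    ∃ f ∈ S, ∀ g ∈ S, Ps β K (ext f) ≤ Ps β K (ext g) := by
  set T := 2 * β ^ 2 * ((K : ℝ) + 1)
  set R := √T + 1
  have hR : 0 ≤ R := by positivity
  have hz : ext (0 : Fin (K + 1) → ℝ) = fun _ => 0 := by funext i; simp [ext]
  obtain ⟨f, hf, hmin⟩ := ((isCompact_closedBall (0 : Fin (K + 1) → ℝ) R).inter_right hS).exists_isMinOn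
    ⟨0, by simpa using hR, h0⟩ (continuous_Ps β K).continuousOn
  refine ⟨f, hf.2, fun g hg => ?_⟩
  by_cases hgR : g ∈ Metric.closedBall 0 R
  · exact hmin ⟨hgR, hg⟩
  have h1 : Ps β K (ext f) ≤ β ^ 2 / 4 := by
    have : Ps β K (ext f) ≤ Ps β K (ext (0 : Fin (K + 1) → ℝ)) := hmin ⟨by simpa using hR, h0⟩
    rw [hz, Ps_zero] at this
    exact this
  refine h1.trans ?_
  rw [Metric.mem_closedBall, dist_zero_right, pi_norm_le_iff_of_nonneg hR] at hgR
  push Not at hgR
  obtain ⟨i, hi⟩ := hgR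
  rw [Real.norm_eq_abs] at hi
  have hK1 : ext g (K + 1) = 0 := by simp [ext]
  have hT : T ≤ cumVar K (ext g) K := by
    rw [cumVar_of_le le_rfl]
    refine le_trans ?_ (single_le_sum (fun j _ => sq_nonneg _) (mem_range.2 i.2))
    simp only [ext, dif_pos (Nat.le_of_lt_succ i.2)]
    have h2 : √T ≤ |g i| := by simp only [R] at hi; linarith
    have := pow_le_pow_left₀ (Real.sqrt_nonneg T) h2 2
    rw [Real.sq_sqrt (by positivity), sq_abs] at this
    exact this
  set c := cumVar K (ext g) K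
  have hq : c ^ 2 ≤ ∑ l ∈ range (K + 1), cumVar K (ext g) l ^ 2 :=
    single_le_sum (f := fun l => cumVar K (ext g) l ^ 2) (fun j _ => sq_nonneg _) (mem_range.2 (by omega))
  have h2 : c / 2 ≤ c ^ 2 / (4 * β ^ 2 * ((K : ℝ) + 1)) := by
    have hc0 : 0 ≤ c := le_trans (by positivity) hT
    rw [div_le_div_iff₀ two_pos (by positivity)]
    nlinarith [mul_le_mul_of_nonneg_left hT hc0]
  simp only [Ps]
  rw [sum_range_succ _ (K + 1), hK1, ← cumVar_of_le (le_refl K)]
  have h3 := div_le_div_of_nonneg_right hq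
    (show (0:ℝ) ≤ 4 * β ^ 2 * ((K : ℝ) + 1) by positivity)
  have := oneSpin_nonneg hK1
  linarith

lemma slack_nonneg_of_min {j : ℕ} (hβ : β ≠ 0) (hj : j ≤ K)
    (hmin : ∀ δ, -(e j ^ 2) ≤ δ → Ps β K e ≤ Ps β K (Function.update e j √(e j ^ 2 + δ))) :
    0 ≤ slack β K e j ∧ (e j ≠ 0 → slack β K e j = 0) := by
  have key : ∀ δ, -(e j ^ 2) ≤ δ → 0 ≤ δ / 2 * slack β K e j + δ ^ 2 / (4 * β ^ 2) := fun δ hδ => by
    linarith [hmin δ hδ, Ps_perturb_le hβ e hj hδ]
  have hb : 0 < β ^ 2 := by positivity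
  have h0 : 0 ≤ slack β K e j := by
    by_contra h
    push Not at h
    have := key (-(β ^ 2 * slack β K e j)) (by nlinarith [sq_nonneg (e j)])
    rw [show -(β ^ 2 * slack β K e j) / 2 * slack β K e j
        + (-(β ^ 2 * slack β K e j)) ^ 2 / (4 * β ^ 2) = -(β ^ 2 * slack β K e j ^ 2) / 4 by
      field_simp; ring] at this
    have : 0 < β ^ 2 * slack β K e j ^ 2 := mul_pos hb (pow_two_pos_of_ne_zero h.ne)
    linarith
  refine ⟨h0, fun hej => le_antisymm (le_of_not_gt fun h => ?_) h0⟩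
  have he2 : 0 < e j ^ 2 := by positivity
  set t := min (e j ^ 2) (β ^ 2 * slack β K e j)
  have ht : 0 < t := lt_min he2 (by positivity)
  have h1 := key (-t) (neg_le_neg (min_le_left _ _))
  have h2 : t ^ 2 / (4 * β ^ 2) ≤ t * slack β K e j / 4 := by
    rw [div_le_div_iff₀ (by positivity) (by norm_num)]
    nlinarith [mul_le_mul_of_nonneg_left (min_le_right (e j ^ 2) (β ^ 2 * slack β K e j)) ht.le]
  rw [neg_sq] at h1
  linarith [mul_pos ht h]

lemma qTail_split (f : ℕ → ℝ) {k j : ℕ} (hkj : k ≤ j) (hj : j ≤ K + 1) :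
    qTail K f k = (∑ l ∈ Ico k j, f l) / ((K : ℝ) + 1) + qTail K f j := by
  rw [qTail, qTail, ← add_div, sum_Ico_consecutive _ hkj hj]

lemma logcosh_moment (b : ℝ) (hb : 0 ≤ b) : Tl (fun y => log (cosh y)) b 1 = b / 2 := by
  have hi : ∀ a : ℝ, Integrable (fun z => exp (a * z)) (gaussianReal 0 1) := integrable_exp_mul_gaussianReal
  simp only [Tl, inv_one, one_mul, exp_log (cosh_pos _)]
  have : ∫ z, cosh (√b * z) ∂(gaussianReal 0 1) = exp (b / 2) := by
    simp only [cosh_eq, ← neg_mul]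
    rw [integral_div, integral_add (hi _) (hi _), integral_exp_lin, integral_exp_lin, neg_sq,
      Real.sq_sqrt hb]
    ring
  rw [this, log_exp]

/-- The constant of the single move. -/
noncomputable def moveConst (β : ℝ) : ℝ :=
  √(β ^ 2) * (tiltConst √(β ^ 2) + tiltConst √(β ^ 2) ^ 2) * (tiltConst √(β ^ 2) + 1)

/-- Approximate minimisers have small tilted second derivative gap at the first positive level. -/
lemma marginal_first (hβ : 1 < β) (he : e (K + 1) = 0) (h0 : e 0 = 0) (hpos : ∀ i, 0 ≤ e i)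
    (hmin : ∀ g : ℕ → ℝ, g (K + 1) = 0 → g 0 = 0 → Ps β K e ≤ Ps β K g) {k : ℕ}
    (hk : k ≤ K) (hek : e k ≠ 0) (hz : ∀ i < k, e i = 0) :
    1 / β ^ 2 - 6 * moveConst β / ((K : ℝ) + 1) ≤ (1 - qTail K (spinPath K e) k) ^ 2 ∧
      qTail K (cumVar K e) k / β ^ 2 = qTail K (spinPath K e) k := by
  have hβ0 : β ≠ 0 := by linarith
  have hk1 : 1 ≤ k := by
    rcases Nat.eq_zero_or_pos k with rfl | h
    · exact absurd h0 hek
    · exact h
  have hekp : 0 < e k := (hpos k).lt_of_ne' hek
  set b := e k ^ 2 with hbd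
  have hb : 0 < b := by positivity
  set N := (K : ℝ) + 1 with hN
  have hN0 : 0 < N := by positivity
  have hsl : ∀ j, 1 ≤ j → j ≤ K → 0 ≤ slack β K e j ∧ (e j ≠ 0 → slack β K e j = 0) :=
    fun j h1 h2 => slack_nonneg_of_min hβ0 h2 fun δ _ => hmin _
      (by rw [Function.update_of_ne (by omega)]; exact he)
      (by rw [Function.update_of_ne (by omega)]; exact h0)
  have hslk := (hsl k hk1 hk).2 hek
  have hck : cumVar K e k = b := by
    rw [cumVar_of_le hk, sum_eq_single_of_mem k (mem_range.2 (by omega)) fun i hi hne => by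
      rw [hz i (by rw [mem_range] at hi; omega), zero_pow two_ne_zero]]
  have hcmono := (cumVar_path (K := K) e).1
  have hspath := spinPath_path (K := K) e
  -- the first positive level after `k`
  classical
  have hex : ∃ j, k < j ∧ (K + 1 ≤ j ∨ e j ≠ 0) := ⟨K + 1, by omega, Or.inl le_rfl⟩
  obtain ⟨hkj, hj⟩ := Nat.find_spec hex
  set j := Nat.find hex with hjd
  have hjK : j ≤ K + 1 := Nat.find_le ⟨by omega, Or.inl le_rfl⟩
  have hflat : ∀ l ∈ Ico k j, cumVar K e l = b := fun l hl => by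
    rw [mem_Ico] at hl
    rw [← hck, cumVar_of_le (show l ≤ K by omega), cumVar_of_le hk]
    refine (sum_subset (range_mono (by omega)) fun i hi hi' => ?_).symm
    rw [mem_range] at hi hi'
    have := Nat.find_min hex (show i < j by omega)
    push Not at this
    rw [(this (by omega)).2, zero_pow two_ne_zero]
  have hF : spinPath K e k ≤ b / β ^ 2 := by
    have hslj : qTail K (cumVar K e) j / β ^ 2 = qTail K (spinPath K e) j := by
      rcases hj with h | h
      · have : j = K + 1 := le_antisymm hjK h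
        simp [this, qTail]
      · by_cases hjK' : j ≤ K
        · exact sub_eq_zero.1 ((hsl j (by omega) hjK').2 h)
        · have : j = K + 1 := by omega
          simp [this, qTail]
    have e1 := qTail_split (cumVar K e) hkj.le hjK
    have e2 := qTail_split (spinPath K e) hkj.le hjK
    rw [sum_congr rfl hflat, sum_const, nsmul_eq_mul] at e1
    have e3 : ((Ico k j).card : ℝ) * (spinPath K e k) ≤ ∑ l ∈ Ico k j, spinPath K e l := by
      rw [← nsmul_eq_mul, ← sum_const]
      exact sum_le_sum fun l hl => hspath.1.1 (mem_Ico.1 hl).1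
    have hslk' := sub_eq_zero.1 hslk
    rw [e1, e2, add_div, hslj, add_left_inj, div_right_comm, div_left_inj' hN0.ne'] at hslk'
    have hcard : (0 : ℝ) < ((Ico k j).card : ℝ) := by
      rw [Nat.card_Ico]; exact_mod_cast (by omega : 0 < j - k)
    rw [← hslk', mul_div_assoc] at e3
    exact le_of_mul_le_mul_left e3 hcard
  -- the bound on `b`
  have hbβ : b ≤ β ^ 2 := by
    have h1 : ((K + 1 - k : ℕ) : ℝ) * b ≤ ∑ l ∈ Ico k (K + 1), cumVar K e l := by
      rw [← Nat.card_Ico, ← nsmul_eq_mul, ← sum_const]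
      exact sum_le_sum fun l hl => hck.symm.le.trans (hcmono (mem_Ico.1 hl).1)
    have h2 : ∑ l ∈ Ico k (K + 1), spinPath K e l ≤ ((K + 1 - k : ℕ) : ℝ) * 1 := by
      rw [← Nat.card_Ico, ← nsmul_eq_mul, ← sum_const]
      exact sum_le_sum fun l hl => (hspath.1.1 (by rw [mem_Ico] at hl; omega)).trans hspath.2
    have h3 := sub_eq_zero.1 hslk
    rw [qTail, qTail, div_right_comm, div_left_inj' hN0.ne', div_eq_iff (pow_ne_zero 2 hβ0)] at h3
    have hp : (0 : ℝ) < ((K + 1 - k : ℕ) : ℝ) := by exact_mod_cast (by omega : 0 < K + 1 - k)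
    refine le_of_mul_le_mul_left (h1.trans ?_) hp
    rw [h3]
    exact mul_le_mul_of_nonneg_right (h2.trans_eq (mul_one _)) (sq_nonneg β)
  set x := lvl K k with hxd
  set U := prof K e k with hUd
  have hx : 0 < x := lvl_pos_of hk1
  set w := 1 / N with hwd
  have hw : 0 < w := by positivity
  have hxw : x + w = lvl K (k + 1) := by
    simp only [hxd, hwd, lvl, hN]; push_cast; ring
  have hx1 : x + w ≤ 1 := by
    rw [hxw, lvl, div_le_one hN0]
    show ((k + 1 : ℕ) : ℝ) ≤ (K : ℝ) + 1
    exact_mod_cast (by omega : k + 1 ≤ K + 1)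
  -- lowering the level
  have hmove : b ^ 2 * w / (4 * β ^ 2) ≤ Tl U b (x + w) - Tl U b x := by
    have hfirst : oneSpin K e = Tl U b x := oneSpin_first he hk hk1 hz
    rcases hk.lt_or_eq with hkK | hkK
    · set e' := Function.update (Function.update e k 0) (k + 1) √(e (k + 1) ^ 2 + b)
      have hm := hmin e'
        (by simp only [e']; rw [Function.update_of_ne (by omega), Function.update_of_ne (by omega)]
            exact he)
        (by simp only [e']; rw [Function.update_of_ne (by omega), Function.update_of_ne (by omega)]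
            exact h0)
      have hT : oneSpin K e' = Tl U b (x + w) := by rw [hxw]; exact oneSpin_move he hkK hk1 hz
      have hs : √(e (k + 1) ^ 2 + b) ^ 2 = e (k + 1) ^ 2 + b := Real.sq_sqrt (by positivity)
      have hc : ∀ l ≤ K, cumVar K e' l = cumVar K e l - if l = k then b else 0 := fun l hl => by
        simp only [e']
        rw [cumVar_update (show k + 1 ≤ K by omega) hl, cumVar_update hk hl, hs,
          Function.update_of_ne (show k + 1 ≠ k by omega)]
        by_cases h1 : l = k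
        · simp [h1, ← hbd]; ring
        · by_cases h2 : k ≤ l
          · rw [if_pos h2, if_pos (show k + 1 ≤ l by omega), if_neg h1, ← hbd]; ring
          · rw [if_neg h2, if_neg (show ¬k + 1 ≤ l by omega), if_neg h1]; ring
      have hQ : ∑ l ∈ range (K + 1), cumVar K e' l ^ 2 =
          ∑ l ∈ range (K + 1), cumVar K e l ^ 2 - b ^ 2 := by
        have : ∀ l ∈ range (K + 1), cumVar K e' l ^ 2 =
            cumVar K e l ^ 2 - if l = k then b ^ 2 else 0 := fun l hl => by
          rw [hc l (by rw [mem_range] at hl; omega)]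
          split_ifs with h
          · subst h; rw [hck]; ring
          · ring
        rw [sum_congr rfl this, sum_sub_distrib, sum_ite_eq', if_pos (mem_range.2 (by omega))]
      have hE : ∑ i ∈ range (K + 2), e' i ^ 2 = ∑ i ∈ range (K + 2), e i ^ 2 := by
        have := hc K le_rfl
        rw [if_neg (by omega), sub_zero, cumVar_of_le le_rfl, cumVar_of_le le_rfl] at this
        rw [sum_range_succ _ (K + 1), sum_range_succ (fun i => e i ^ 2) (K + 1), this]
        congr 1
        simp only [e']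
        rw [Function.update_of_ne (by omega), Function.update_of_ne (by omega)]
      simp only [Ps, hT, hfirst, hQ, hE] at hm
      have : b ^ 2 * w / (4 * β ^ 2) = b ^ 2 / (4 * β ^ 2 * N) := by rw [hwd]; field_simp
      rw [sub_div] at hm
      linarith
    · subst hkK
      have hm := hmin (fun _ => 0) rfl rfl
      rw [Ps_zero] at hm
      have hT : Tl U b (x + w) = b / 2 := by
        have : x + w = 1 := by rw [hxw, lvl]; push_cast; field_simp
        rw [this, hUd, prof_top]
        exact logcosh_moment b hb.le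
      have hQ : ∑ l ∈ range (k + 1), cumVar k e l ^ 2 = b ^ 2 := by
        rw [sum_eq_single_of_mem k (mem_range.2 (by omega)) fun l hl hne => ?_, hck]
        have hl' : l < k := by rw [mem_range] at hl; omega
        rw [cumVar_of_le hl'.le, sum_eq_zero fun i hi => by
          rw [hz i (by rw [mem_range] at hi; omega), zero_pow two_ne_zero], zero_pow two_ne_zero]
      have hE : ∑ i ∈ range (k + 2), e i ^ 2 = b := by
        rw [sum_range_succ _ (k + 1), he, ← cumVar_of_le (le_refl k), hck]; simp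
      simp only [Ps, hfirst, hQ, hE] at hm
      have : b ^ 2 * w / (4 * β ^ 2) = b ^ 2 / (4 * β ^ 2 * N) := by rw [hwd]; field_simp
      linarith
  have hprof := prof_prof e hk
  have hG := G1_first he hk hk1 hz hekp
  rw [← hxd, ← hUd] at hG
  have hFeq := spinPath_first he hk hk1 hz (hpos k)
  have h := Tl_sub_le hprof (continuous_deriv_prof he hk) (abs_deriv_prof_le he hk) hx hw hx1 hb hbβ
  rw [← hxd, ← hUd] at hFeq
  rw [hG, ← hFeq] at h
  refine ⟨?_, sub_eq_zero.1 hslk⟩
  have hdiv : spinPath K e k / b ≤ 1 / β ^ 2 := by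
    rw [div_le_iff₀ hb, one_div_mul_eq_div]; exact hF
  have hM : moveConst β = √(β ^ 2) * (tiltConst √(β ^ 2) + tiltConst √(β ^ 2) ^ 2) *
      (tiltConst √(β ^ 2) + 1) := rfl
  rw [← hM] at h
  have h2 : w * b ^ 2 / 2 * (1 / (2 * β ^ 2)) ≤ w * b ^ 2 / 2 *
      ((1 - qTail K (spinPath K e) k) ^ 2 / 6 + spinPath K e k / b / 3 + moveConst β * w) :=
    le_trans (le_of_eq (by ring)) (hmove.trans h)
  have h3 := le_of_mul_le_mul_left h2 (by positivity)
  have h4 : 6 * moveConst β / N = 6 * (moveConst β * w) := by rw [hwd]; ring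
  have h5 : (1 : ℝ) / (2 * β ^ 2) = 1 / β ^ 2 / 2 := by ring
  rw [h4]
  linarith

/-- Refined amplitudes. -/
noncomputable def refineAmp (K L : ℕ) (e : ℕ → ℝ) (l : ℕ) : ℝ :=
  if l % L = 0 ∧ l ≤ (K + 1) * L then e (l / L) else 0

lemma Ps_refine (β : ℝ) (K : ℕ) {L : ℕ} (hL : 0 < L) (e : ℕ → ℝ) :
    Ps β ((K + 1) * L - 1) (refineAmp K L e) = Ps β K e := by
  obtain ⟨K', hK'⟩ : ∃ K', (K + 1) * L = K' + 1 :=
    ⟨(K + 1) * L - 1, (Nat.succ_pred_eq_of_pos (by positivity)).symm⟩
  have hsum : ∀ l ≤ (K + 1) * L,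
      ∑ i ∈ range (l + 1), refineAmp K L e i ^ 2 = ∑ i ∈ range (l / L + 1), e i ^ 2 := by
    intro l hl
    induction l with
    | zero => simp [refineAmp]
    | succ l ih =>
      rw [sum_range_succ, ih (by omega)]
      simp only [refineAmp, Nat.succ_div, Nat.dvd_iff_mod_eq_zero]
      by_cases h : (l + 1) % L = 0
      · simp only [h, hl, and_self, if_true]
        rw [sum_range_succ _ (l / L + 1)]
      · simp [h]
  rw [show (K + 1) * L - 1 = K' by omega]
  have hdiv : ∀ l ≤ K', l / L ≤ K := fun l hl =>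
    Nat.lt_succ_iff.1 ((Nat.div_lt_iff_lt_mul hL).2 (by rw [Nat.succ_eq_add_one]; omega))
  have hblock : ∀ n : ℕ, ∀ f : ℕ → ℝ,
      ∑ l ∈ range (n * L), f (l / L) = (L : ℝ) * ∑ i ∈ range n, f i := by
    intro n f
    induction n with
    | zero => simp
    | succ n ih =>
      rw [add_mul, one_mul, sum_range_add, ih, sum_range_succ _ n, mul_add]
      congr 1
      rw [sum_congr rfl fun i hi => by
        rw [show (n * L + i) / L = n by
          rw [mul_comm, Nat.mul_add_div hL, Nat.div_eq_of_lt (mem_range.1 hi), add_zero]],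
        sum_const, card_range, nsmul_eq_mul]
  have hK : ((K' : ℝ) + 1) = ((K : ℝ) + 1) * L := by exact_mod_cast hK'.symm
  have h1 := Vale.Agent.P166.Parisi.oneSpin_refine K hL e
  rw [show (K + 1) * L - 1 = K' by omega] at h1
  have h2 : ∑ i ∈ range (K' + 2), refineAmp K L e i ^ 2 = ∑ i ∈ range (K + 2), e i ^ 2 := by
    have := hsum _ le_rfl
    rw [Nat.mul_div_cancel _ hL] at this
    rw [show K' + 2 = (K + 1) * L + 1 by omega, this]
  have h3 : ∑ l ∈ range (K' + 1), cumVar K' (refineAmp K L e) l ^ 2 =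
      (L : ℝ) * ∑ l ∈ range (K + 1), cumVar K e l ^ 2 := by
    rw [← hblock (K + 1) fun i => cumVar K e i ^ 2, hK']
    refine sum_congr rfl fun l hl => ?_
    rw [mem_range] at hl
    rw [cumVar_of_le (show l ≤ K' by omega), cumVar_of_le (hdiv l (by omega)), hsum l (by omega)]
  have h1' : oneSpin K' (refineAmp K L e) = oneSpin K e := h1
  simp only [Ps, h1', h2, h3, hK]
  have : (L : ℝ) ≠ 0 := Nat.cast_ne_zero.2 hL.ne'
  field_simp

/-- The value is below the functional. -/
lemma spin_candidate [IsProbabilityMeasure μ] (hμ : IsCompact μ.support)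
    (hR : ∀ y, 0 < y → rTrans μ y ≤ y) (hβ : 0 < β) (e : ℕ → ℝ) {κ : ℝ} (hκ : 0 < κ)
    (hκ1 : κ ≤ 1) :
    IsPath (fun l => (1 - κ) * spinPath K e l) ∧ (1 - κ) * spinPath K e K < 1 ∧
      isingEntropy K (fun l => (1 - κ) * spinPath K e l) +
        energy μ β K (fun l => (1 - κ) * spinPath K e l) ≤ Ps β K e + κ * β ^ 2 / 2 := by
  obtain ⟨hp, hp1⟩ := spinPath_path (K := K) e
  have hq : IsPath fun l => (1 - κ) * spinPath K e l :=
    ⟨fun i j hij => mul_le_mul_of_nonneg_left (hp.1 hij) (sub_nonneg.2 hκ1),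
      mul_nonneg (sub_nonneg.2 hκ1) hp.2⟩
  have hlt : (1 - κ) * spinPath K e K < 1 :=
    (mul_le_of_le_one_right (sub_nonneg.2 hκ1) hp1).trans_lt (by linarith)
  refine ⟨hq, hlt, ?_⟩
  have hE := energy_le_linEnergy hμ hR hβ hq hlt
  have hS := Vale.Agent.P166.Parisi.isingEntropy_spinPath_le (K := K) e hκ hκ1
  have hN : (0 : ℝ) < (K : ℝ) + 1 := by positivity
  set X := ∑ l ∈ range (K + 1), spinPath K e l ^ 2
  have hX : X ≤ (K : ℝ) + 1 := by
    refine (sum_le_sum fun l hl => pow_le_one₀ (hp.2.trans (hp.1 (Nat.zero_le l)))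
      ((hp.1 (by rw [mem_range] at hl; omega)).trans hp1)).trans_eq (by simp)
  have hC : 2 * β ^ 2 * ∑ l ∈ range (K + 1), cumVar K e l * spinPath K e l ≤
      ∑ l ∈ range (K + 1), cumVar K e l ^ 2 + β ^ 4 * X := by
    rw [mul_sum, mul_sum, ← sum_add_distrib]
    exact sum_le_sum fun l _ => by nlinarith [sq_nonneg (cumVar K e l - β ^ 2 * spinPath K e l)]
  have hC' : (∑ l ∈ range (K + 1), cumVar K e l * spinPath K e l) / (2 * ((K : ℝ) + 1)) ≤
      (∑ l ∈ range (K + 1), cumVar K e l ^ 2) / (4 * β ^ 2 * ((K : ℝ) + 1))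
        + β ^ 2 / 4 * (X / ((K : ℝ) + 1)) := by
    have := div_le_div_of_nonneg_right hC (show 0 ≤ 4 * β ^ 2 * ((K : ℝ) + 1) by positivity)
    rw [add_div] at this
    refine le_trans (le_of_eq ?_) (this.trans_eq ?_)
    · field_simp; ring
    · congr 1; field_simp
  have hl : linEnergy β K (fun l => (1 - κ) * spinPath K e l) ≤
      β ^ 2 / 4 - β ^ 2 / 4 * (X / ((K : ℝ) + 1)) + κ * β ^ 2 / 2 := by
    simp only [linEnergy, mul_pow, ← mul_sum]
    have h1 : X / ((K : ℝ) + 1) ≤ 1 := (div_le_one hN).2 hX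
    have h0 : 0 ≤ X / ((K : ℝ) + 1) := div_nonneg (sum_nonneg fun _ _ => sq_nonneg _) hN.le
    rw [mul_div_assoc]
    nlinarith [mul_le_mul_of_nonneg_left h1 (show 0 ≤ κ * β ^ 2 by positivity),
      mul_nonneg (mul_nonneg (sq_nonneg β) (sq_nonneg κ)) h0]
  rw [Ps_eq]
  linarith

/-- Above criticality near minimisers are almost marginal at `0`. -/
theorem near_min_marginal [IsProbabilityMeasure μ] (hμ : IsCompact μ.support)
    (hR : ∀ y, 0 < y → rTrans μ y ≤ y) (hR1 : ∀ y, 0 < y → y ≤ 1 → rTrans μ y = y) (hβ : 1 < β)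
    {ε η : ℝ} (hε : 0 < ε) (hη : 0 < η) :
    ∃ K q, IsPath q ∧ q K < 1 ∧ isingEntropy K q + energy μ β K q ≤ value μ β + η ∧
      1 - ε ≤ β * (1 - qTail K q 0) := by
  by_contra hcon
  push Not at hcon
  have hβ0 : 0 < β := by linarith
  set ε₁ := min ε 1 with hε₁
  have he0 : 0 < ε₁ := lt_min hε one_pos
  have he1 : ε₁ ≤ 1 := min_le_right _ _
  -- a near minimiser
  have hne : {v | ∃ K q, IsPath q ∧ q K < 1 ∧ v = isingEntropy K q + energy μ β K q}.Nonempty :=
    ⟨_, 0, fun _ => 0, ⟨monotone_const, le_rfl⟩, zero_lt_one, rfl⟩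
  obtain ⟨v, ⟨K₀, q, hq, hq1, rfl⟩, hv⟩ :=
    exists_lt_of_csInf_lt hne (show value μ β < value μ β + η / 4 by linarith)
  have hlin := energy_eq_linEnergy (μ := μ) hR1 hβ0 hq hq1
    ((hcon K₀ q hq hq1 (by linarith)).le.trans (by linarith [hε]))
  set h := fun l => β ^ 2 * q l with hh
  have hhp : IsPath h :=
    ⟨fun i j hij => mul_le_mul_of_nonneg_left (hq.1 hij) (sq_nonneg β), mul_nonneg (sq_nonneg β) hq.2⟩
  set e₀ := ampOf K₀ h
  have hP₀ : Ps β K₀ e₀ ≤ value μ β + η / 4 := by
    refine le_trans ?_ hv.le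
    have hc : ∀ l ≤ K₀, cumVar K₀ e₀ l = h l := fun l hl => cumVar_ampOf hhp hl
    have hS := Vale.Agent.P166.Parisi.isingEntropy_ge hq hq1 hhp
    have hS1 : ∑ l ∈ range (K₀ + 1), h l * q l = β ^ 2 * ∑ l ∈ range (K₀ + 1), q l ^ 2 := by
      simp only [hh, mul_sum]; exact sum_congr rfl fun l _ => by ring
    have hS2 : ∑ l ∈ range (K₀ + 1), cumVar K₀ e₀ l ^ 2 =
        β ^ 4 * ∑ l ∈ range (K₀ + 1), q l ^ 2 := by
      rw [mul_sum]; exact sum_congr rfl fun l hl => by
        rw [hc l (by rw [mem_range] at hl; omega), hh]; ring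
    rw [Ps_eq, isingField_congr hc, hS2, hlin, linEnergy]
    rw [hS1] at hS
    have e1 : β ^ 4 * (∑ l ∈ range (K₀ + 1), q l ^ 2) / (4 * β ^ 2 * ((K₀ : ℝ) + 1)) =
        β ^ 2 / 4 * ((∑ l ∈ range (K₀ + 1), q l ^ 2) / ((K₀ : ℝ) + 1)) := by field_simp
    have e2 : β ^ 2 * (∑ l ∈ range (K₀ + 1), q l ^ 2) / (2 * ((K₀ : ℝ) + 1)) =
        β ^ 2 / 2 * ((∑ l ∈ range (K₀ + 1), q l ^ 2) / ((K₀ : ℝ) + 1)) := by field_simp
    linarith
  -- refine
  obtain ⟨L, hL⟩ := exists_nat_gt (max 1 (max (6 * moveConst β * β ^ 2 / (ε₁ / 2))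
    (max (β ^ 2 / η * 2) (8 * β ^ 2 / ε₁ ^ 2))))
  simp only [max_lt_iff] at hL
  obtain ⟨hL1, hL2, hL3, hL4⟩ := hL
  have hL0 : 0 < L := by exact_mod_cast (zero_lt_one.trans hL1)
  set K := (K₀ + 1) * L - 1 with hK
  have hN : (L : ℝ) ≤ (K : ℝ) + 1 := by
    have : L ≤ K + 1 := by
      have := Nat.le_mul_of_pos_left L (show 0 < K₀ + 1 by omega)
      omega
    exact_mod_cast this
  set N := (K : ℝ) + 1
  have hN0 : 0 < N := by positivity
  set e₁ := refineAmp K₀ L e₀
  have hP₁ : Ps β K e₁ ≤ value μ β + η / 4 := (Ps_refine β K₀ hL0 e₀).le.trans hP₀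
  have hK1 : e₁ (K + 1) = 0 := by
    simp only [e₁, refineAmp]
    split_ifs with h
    · have hKL : K + 1 = (K₀ + 1) * L := by
        have := Nat.mul_pos (show 0 < K₀ + 1 by omega) hL0
        omega
      rw [hKL, Nat.mul_div_cancel _ hL0]
      exact if_neg (by omega)
    · rfl
  have hext : ∀ g : ℕ → ℝ, g (K + 1) = 0 →
      Ps β K (ext fun i : Fin (K + 1) => g i) = Ps β K g := fun g hg => by
    have h : ∀ i ≤ K + 1, ext (fun i : Fin (K + 1) => g i) i = g i := fun i hi => by
      simp only [ext]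
      split_ifs with h
      · rfl
      · rw [show i = K + 1 by omega, hg]
    rw [Ps_eq, Ps_eq, isingField_congr fun l hl => ?_, sum_congr rfl fun l hl => ?_]
    · simp only [cumVar]
      congr 1
      exact sum_congr rfl fun i hi => by rw [h i (by rw [mem_range] at hi; omega)]
    · simp only [cumVar]
      exact sum_congr rfl fun i hi => by rw [h i (by rw [mem_range] at hi; omega)]
  -- global minimiser, then the minimiser without a field at level `0`
  obtain ⟨fg, -, hfg⟩ := exists_min (β := β) hβ0.ne' K isClosed_univ (Set.mem_univ 0)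
  set G := ext fg with hG
  have hG1 : G (K + 1) = 0 := by simp [hG, ext]
  have hGmin : ∀ g : ℕ → ℝ, g (K + 1) = 0 → Ps β K G ≤ Ps β K g := fun g hg =>
    (hfg (fun i : Fin (K + 1) => g i) trivial).trans_eq (hext g hg)
  obtain ⟨fr, hfr0, hfr⟩ := exists_min (β := β) hβ0.ne' K
    (S := {f | f 0 = 0}) (isClosed_eq (continuous_apply 0) continuous_const) rfl
  set e := fun i => |ext fr i| with he
  have heq : Ps β K e = Ps β K (ext fr) := by
    simp only [Ps, he, sq_abs, cumVar]
    rw [oneSpin_congr_sq (e' := ext fr) fun i => sq_abs _]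
  have he1' : e (K + 1) = 0 := by simp [he, ext]
  have he00 : e 0 = 0 := by
    simp only [he, ext, Nat.zero_le, dite_true, abs_eq_zero]
    exact hfr0
  have hemin : ∀ g : ℕ → ℝ, g (K + 1) = 0 → g 0 = 0 → Ps β K e ≤ Ps β K g := fun g hg hg0 =>
    heq.le.trans ((hfr (fun i : Fin (K + 1) => g i) hg0).trans_eq (hext g hg))
  -- the cost of removing level `0`
  have herr : Ps β K e ≤ Ps β K G + β ^ 2 / (2 * N) := by
    by_cases hG0 : G 0 = 0
    · linarith [hemin G hG1 hG0, show 0 ≤ β ^ 2 / (2 * N) by positivity]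
    have hb : G 0 ^ 2 ≤ β ^ 2 := by
      have h1 := (slack_nonneg_of_min (β := β) hβ0.ne' (Nat.zero_le K) fun δ _ => hGmin _
        (by rw [Function.update_of_ne (by omega)]; exact hG1)).2 hG0
      have h2 : N * G 0 ^ 2 ≤ ∑ l ∈ Ico 0 (K + 1), cumVar K G l := by
        rw [show N * G 0 ^ 2 = ((Ico 0 (K + 1)).card : ℝ) * G 0 ^ 2 by simp [N], ← nsmul_eq_mul,
          ← sum_const]
        refine sum_le_sum fun l hl => ?_
        rw [cumVar]
        exact single_le_sum (f := fun i => G i ^ 2) (fun _ _ => sq_nonneg _) (mem_range.2 (by omega))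
      have hp := spinPath_path (K := K) G
      have h3 : ∑ l ∈ Ico 0 (K + 1), spinPath K G l ≤ N := by
        refine (sum_le_sum fun l hl =>
          (hp.1.1 (show l ≤ K by rw [mem_Ico] at hl; omega)).trans hp.2).trans_eq ?_
        simp [N]
      have h4 := sub_eq_zero.1 h1
      rw [qTail, qTail, div_right_comm, div_left_inj' hN0.ne', div_eq_iff (pow_ne_zero 2 hβ0.ne')]
        at h4
      refine le_of_mul_le_mul_left (h2.trans ?_) hN0
      rw [h4]
      exact mul_le_mul_of_nonneg_right h3 (sq_nonneg β)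
    rcases Nat.eq_zero_or_pos K with hK0 | hKpos
    · exfalso
      have : (L : ℝ) ≤ 1 := hN.trans_eq (by simp [N, hK0])
      linarith
    set b := G 0 ^ 2 with hbd
    set s := √(G 1 ^ 2 + b) with hsd
    set G' := Function.update (Function.update G 0 0) 1 s
    have hs : s ^ 2 = G 1 ^ 2 + b := Real.sq_sqrt (by positivity)
    have hm := hemin G'
      (by simp only [G']; rw [Function.update_of_ne (by omega), Function.update_of_ne (by omega)]
          exact hG1)
      (by simp only [G']; rw [Function.update_of_ne (by omega), Function.update_self])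
    refine hm.trans ?_
    have hc : ∀ l ≤ K, cumVar K G' l = cumVar K G l - if l = 0 then b else 0 := fun l hl => by
      simp only [G']
      rw [cumVar_update (show 1 ≤ K by omega) hl, cumVar_update (Nat.zero_le K) hl, hs,
        Function.update_of_ne one_ne_zero, if_pos (Nat.zero_le l)]
      rcases Nat.eq_zero_or_pos l with h | h
      · simp [h, ← hbd]; ring
      · rw [if_pos (show 1 ≤ l by omega), if_neg (by omega), ← hbd]; ring
    have hQ : ∑ l ∈ range (K + 1), cumVar K G' l ^ 2 ≤ ∑ l ∈ range (K + 1), cumVar K G l ^ 2 := by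
      refine sum_le_sum fun l hl => pow_le_pow_left₀
        (sum_nonneg fun _ _ => sq_nonneg _) ?_ 2
      rw [hc l (by rw [mem_range] at hl; omega)]
      split_ifs
      · linarith [sq_nonneg (G 0)]
      · simp
    have hE : ∑ i ∈ range (K + 2), G' i ^ 2 = ∑ i ∈ range (K + 2), G i ^ 2 := by
      have := hc K le_rfl
      rw [if_neg (by omega), sub_zero, cumVar_of_le le_rfl, cumVar_of_le le_rfl] at this
      rw [sum_range_succ _ (K + 1), sum_range_succ (fun i => G i ^ 2) (K + 1), this]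
      congr 1
      simp only [G']
      rw [Function.update_of_ne (by omega), Function.update_of_ne (by omega)]
    have hS : oneSpin K G' ≤ oneSpin K G + b / (2 * N) := by
      have h := oneSpin_le (K := K) G (v := fun i => G' i ^ 2) fun i => sq_nonneg _
      rw [oneSpin_congr_sq (e' := G') fun i => by rw [Real.sq_sqrt (sq_nonneg _)],
        sum_eq_add_of_mem 0 1 (mem_range.2 (by omega)) (mem_range.2 (by omega)) zero_ne_one
          fun i _ hi => by simp [G', hi.1, hi.2]] at h
      simp only [G', Function.update_self, Function.update_of_ne zero_ne_one, hs] at h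
      have e2 := qTail_split (K := K) (spinPath K G) zero_le_one (by omega : 1 ≤ K + 1)
      rw [← range_eq_Ico, sum_range_one] at e2
      have h1 : spinPath K G 0 / N ≤ 1 / N := div_le_div_of_nonneg_right
        (((spinPath_path (K := K) G).1.1 (Nat.zero_le K)).trans (spinPath_path (K := K) G).2) hN0.le
      rw [show b / (2 * N) = b / 2 * (1 / N) by field_simp]
      rw [e2, ← hbd] at h
      linarith [mul_le_mul_of_nonneg_left h1 (show 0 ≤ b / 2 by positivity)]
    have h9 : b / (2 * N) ≤ β ^ 2 / (2 * N) := div_le_div_of_nonneg_right hb (by positivity)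
    have hQ' := div_le_div_of_nonneg_right hQ (show 0 ≤ 4 * β ^ 2 * ((K : ℝ) + 1) by positivity)
    simp only [Ps, hE]
    linarith
  have herr1 : β ^ 2 / (2 * N) ≤ η / 4 ∧ β ^ 2 / (2 * N) ≤ ε₁ ^ 2 / 16 := by
    have a := hL3.le.trans hN
    have c := hL4.le.trans hN
    rw [div_mul_eq_mul_div, div_le_iff₀ hη] at a
    rw [div_le_iff₀ (by positivity)] at c
    constructor <;> rw [div_le_div_iff₀ (by positivity) (by norm_num)] <;> linarith
  -- the tail at `0`
  have hG0' : ∀ g : ℕ → ℝ, g (K + 1) = 0 → Ps β K e ≤ Ps β K g + ε₁ ^ 2 / 16 := fun g hg => by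
    linarith [hGmin g hg, herr1.2]
  have hslack : -(ε₁ / (2 * β)) ≤ slack β K e 0 := by
    set δ := β * ε₁ / 2
    have hδ : 0 < δ := by positivity
    have h1 := Ps_perturb_le hβ0.ne' e (Nat.zero_le K)
      (show -(e 0 ^ 2) ≤ δ by rw [he00]; simp; positivity)
    have h2 := hG0' (Function.update e 0 √(e 0 ^ 2 + δ))
      (by rw [Function.update_of_ne (by omega)]; exact he1')
    have h3 : δ ^ 2 / (4 * β ^ 2) = ε₁ ^ 2 / 16 := by simp only [δ]; field_simp; ring
    have h4 : δ / 2 * -(ε₁ / (2 * β)) = -(ε₁ ^ 2 / 8) := by simp only [δ]; field_simp; ring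
    refine le_of_mul_le_mul_left ?_ (half_pos hδ)
    linarith
  have hmarg : 1 - ε₁ ≤ β * (1 - qTail K (spinPath K e) 0) := by
    classical
    by_cases hall : ∀ i ≤ K, e i = 0
    · have : qTail K (cumVar K e) 0 = 0 := by
        rw [qTail, sum_eq_zero fun l hl => ?_, zero_div]
        exact sum_eq_zero fun i hi => by
          rw [hall i (by rw [mem_range] at hi; omega), zero_pow two_ne_zero]
      rw [slack, this, zero_div, zero_sub] at hslack
      have := mul_le_mul_of_nonneg_left (neg_le_neg_iff.1 hslack) hβ0.le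
      rw [show β * (ε₁ / (2 * β)) = ε₁ / 2 by field_simp] at this
      linarith
    push Not at hall
    obtain ⟨hkK, hek⟩ := Nat.find_spec hall
    set k := Nat.find hall
    have hz : ∀ i < k, e i = 0 := fun i hi => by
      by_contra h
      exact Nat.find_min hall hi ⟨by omega, h⟩
    obtain ⟨hsq, heqk⟩ := marginal_first hβ he1' he00 (fun i => abs_nonneg _) hemin hkK hek hz
    have hc0 : qTail K (cumVar K e) 0 = qTail K (cumVar K e) k := by
      rw [qTail_split (cumVar K e) (Nat.zero_le k) (by omega), sum_eq_zero fun l hl => ?_, zero_div,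
        zero_add]
      rw [mem_Ico] at hl
      exact sum_eq_zero fun i hi => by
        rw [hz i (by rw [mem_range] at hi; omega), zero_pow two_ne_zero]
    rw [slack, hc0, heqk] at hslack
    set G := 1 - qTail K (spinPath K e) k
    have hGn : 0 ≤ G := by
      have hp := spinPath_path (K := K) e
      have : qTail K (spinPath K e) k ≤ 1 := by
        rw [qTail, div_le_one hN0]
        refine (sum_le_sum fun l hl =>
          (hp.1.1 (show l ≤ K by rw [mem_Ico] at hl; omega)).trans hp.2).trans ?_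
        simp
        show ((K + 1 - k : ℕ) : ℝ) ≤ (K : ℝ) + 1
        exact_mod_cast (by omega : K + 1 - k ≤ K + 1)
      linarith
    have hGl : 1 - ε₁ / 2 ≤ β * G := by
      have hm : 6 * moveConst β / N * β ^ 2 ≤ ε₁ / 2 := by
        have a := hL2.le.trans hN
        rw [div_le_iff₀ (by positivity)] at a
        rw [div_mul_eq_mul_div, div_le_iff₀ hN0]
        linarith
      refine nonneg_le_nonneg_of_sq_le_sq (mul_nonneg hβ0.le hGn) ?_
      have := mul_le_mul_of_nonneg_right hsq (sq_nonneg β)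
      rw [sub_mul, one_div_mul_cancel (pow_ne_zero 2 hβ0.ne')] at this
      nlinarith
    have hb : β * (ε₁ / (2 * β)) = ε₁ / 2 := by field_simp
    have : G - ε₁ / (2 * β) ≤ 1 - qTail K (spinPath K e) 0 := by linarith
    have := mul_le_mul_of_nonneg_left this hβ0.le
    rw [mul_sub β G, hb] at this
    linarith
  set κ := min 1 (η / (2 * β ^ 2))
  have hκ : 0 < κ := lt_min one_pos (by positivity)
  obtain ⟨hp, hp1, hval⟩ := spin_candidate (K := K) hμ hR hβ0 e hκ (min_le_left _ _)
  have hκη : κ * β ^ 2 / 2 ≤ η / 4 := by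
    have := mul_le_mul_of_nonneg_right (min_le_right 1 (η / (2 * β ^ 2))) (sq_nonneg β)
    rw [show η / (2 * β ^ 2) * β ^ 2 = η / 2 by field_simp] at this
    linarith
  have hlt := hcon K _ hp hp1 (by linarith [hGmin e₁ hK1, herr1.1])
  have htail : qTail K (fun l => (1 - κ) * spinPath K e l) 0 ≤ qTail K (spinPath K e) 0 := by
    rw [qTail, qTail, ← mul_sum, mul_div_assoc]
    exact mul_le_of_le_one_left (qTail_nonneg (spinPath_path (K := K) e).1 0) (by linarith)
  have := mul_le_mul_of_nonneg_left (sub_le_sub_left htail 1) hβ0.le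
  have := min_le_left ε 1
  linarith

end Vale.Agent.P146.Gap
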