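import Vale.Agent.P146.Gap.Perturb
import Vale.Agent.P146.Gap.NearMin

/-!
The variance diverges at every temperature below criticality, given the spectral module.
-/

namespace Vale.Agent.P146.Gap

open MeasureTheory ProbabilityTheory Filter Topology
open Vale.Agent.P157.Parisi (IsPath isingEntropy)
open Vale.Agent.P166.Parisi (rTrans energy value qTail chiPath chiPath_mem_Ioc
  intervalIntegrable_rTrans)

variable {n : ℕ}

/-! ### The perturbed pressure -/

/-- The linear part of the perturbation, per spin. -/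
noncomputable def tiltForm (β : ℝ) (z : ℂ) (g : Disorder n) (σ : Fin n → Bool) : ℝ :=
  β / 2 * ∑ a, ∑ b, spins σ a * spins σ b * (res z (coupling g) a b).im

lemma quad_coupling (β : ℝ) (g : Disorder n) (σ : Fin n → Bool) :
    β / 2 * ∑ a, ∑ b, spins σ a * spins σ b * coupling g a b = β * hamiltonian n g σ := by
  set f : Fin n → Fin n → ℝ := fun a b => spins σ a * spins σ b * coupling g a b
  have hsym : ∀ a b, f a b = f b a := fun a b => by
    simp only [f, coupling, Matrix.of_apply, sym_comm g a b]; ring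
  have h3 : ∀ a b, f a b = (if a < b then f a b else 0) + (if b < a then f b a else 0) := by
    intro a b
    rcases lt_trichotomy a b with h | h | h
    · simp [h, h.not_gt]
    · subst h; simp [f, coupling, sym_diag]
    · simp [h, h.not_gt, hsym a b]
  have hall : ∑ a, ∑ b, f a b = 2 * ∑ a, ∑ b, if a < b then f a b else 0 := by
    rw [Finset.sum_congr rfl fun a _ => Finset.sum_congr rfl fun b _ => h3 a b]
    simp only [Finset.sum_add_distrib]
    rw [Finset.sum_comm (f := fun a b => if b < a then f b a else 0)]; ring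
  have hH : hamiltonian n g σ = ∑ a, ∑ b, if a < b then f a b else 0 := by
    rw [hamiltonian, Finset.mul_sum]
    refine Finset.sum_congr rfl fun a _ => ?_
    rw [Finset.mul_sum]
    refine Finset.sum_congr rfl fun b _ => ?_
    simp only [f, coupling, Matrix.of_apply, sym, spins]
    split_ifs <;> ring
  change β / 2 * ∑ a, ∑ b, f a b = _
  rw [hall, hH]; ring

lemma tiltPressure_eq (β : ℝ) (z : ℂ) (t : ℝ) (g : Disorder n) :
    tiltPressure n β z t g = (1 / (n : ℝ)) * Real.log ((1 / (2 : ℝ) ^ n) *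
      ∑ σ : Fin n → Bool, Real.exp (β * hamiltonian n g σ + t * tiltForm β z g σ)) := by
  unfold tiltPressure
  congr 3
  refine Finset.sum_congr rfl fun σ _ => ?_
  congr 1
  rw [← quad_coupling, tiltForm]
  simp only [tiltCoupling, Matrix.of_apply, mul_add, Finset.sum_add_distrib, Finset.mul_sum]
  congr 1
  exact Finset.sum_congr rfl fun a _ => Finset.sum_congr rfl fun b _ => by ring

lemma tiltPressure_zero (β : ℝ) (z : ℂ) (g : Disorder n) :
    tiltPressure n β z 0 g = (1 / (n : ℝ)) * (freeEnergy n β g - n * Real.log 2) := by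
  have hp := partition'_pos β g
  rw [tiltPressure_eq]
  simp only [zero_mul, add_zero]
  rw [Real.log_mul (by positivity) (by simpa [partition'] using hp.ne'), Real.log_div one_ne_zero
    (by positivity), Real.log_one, Real.log_pow, freeEnergy]
  ring

lemma measurable_tiltForm (β : ℝ) {z : ℂ} (hz : z.im ≠ 0) (σ : Fin n → Bool) :
    Measurable fun g => tiltForm β z g σ :=
  (Finset.measurable_sum _ fun a _ => Finset.measurable_sum _ fun b _ =>
    (Complex.measurable_im.comp (measurable_res hz a b)).const_mul _).const_mul _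

lemma abs_tiltForm_le {β : ℝ} (hβ : 0 ≤ β) {z : ℂ} (hz : z.im ≠ 0) (g : Disorder n)
    (σ : Fin n → Bool) : |tiltForm β z g σ| ≤ β / 2 * ((n : ℝ) * n * |z.im|⁻¹) := by
  rw [tiltForm, abs_mul, abs_of_nonneg (by linarith)]
  refine mul_le_mul_of_nonneg_left ((Finset.abs_sum_le_sum_abs _ _).trans ?_) (by linarith)
  refine (Finset.sum_le_sum (g := fun _ => (n : ℝ) * |z.im|⁻¹) fun a _ =>
    (Finset.abs_sum_le_sum_abs _ _).trans ?_).trans (le_of_eq (by simp; ring))
  refine (Finset.sum_le_sum (g := fun _ => |z.im|⁻¹) fun b _ => ?_).trans (le_of_eq (by simp))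
  rw [abs_mul, abs_mul, show |spins σ a| = 1 by cases h : σ a <;> simp [spins, spin, h],
    show |spins σ b| = 1 by cases h : σ b <;> simp [spins, spin, h], one_mul, one_mul]
  exact (Complex.abs_im_le_norm _).trans (res_entry_bound (coupling_isSymm g) hz a b)

/-- Gibbs average of the gauged statistic. -/
noncomputable def meanTilt (n : ℕ) (β : ℝ) (z : ℂ) (g : Disorder n) : ℝ :=
  ∑ σ, gibbs n β g σ * tiltForm β z g σ

lemma tilt_tangent (β : ℝ) (z : ℂ) (t : ℝ) (g : Disorder n) :
    t * ((1 / (n : ℝ)) * meanTilt n β z g) ≤ tiltPressure n β z t g - tiltPressure n β z 0 g := by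
  have hZ := partition'_pos β g
  set S := ∑ σ : Fin n → Bool, Real.exp (β * hamiltonian n g σ + t * tiltForm β z g σ) with hS
  have hS0 : 0 < S := Finset.sum_pos (fun σ _ => Real.exp_pos _) Finset.univ_nonempty
  have hJ : Real.exp (t * meanTilt n β z g) ≤ S / partition' n β g := by
    have h := convexOn_exp.map_sum_le (t := (Finset.univ : Finset (Fin n → Bool)))
      (w := fun σ => gibbs n β g σ) (p := fun σ => t * tiltForm β z g σ)
      (fun σ _ => gibbs_nonneg β g σ) (sum_gibbs β g) fun σ _ => Set.mem_univ _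
    simp only [smul_eq_mul] at h
    refine (le_of_eq ?_).trans (h.trans (le_of_eq ?_))
    · congr 1
      rw [meanTilt, Finset.mul_sum]
      exact Finset.sum_congr rfl fun σ _ => by ring
    · rw [hS, Finset.sum_div]
      refine Finset.sum_congr rfl fun σ _ => ?_
      rw [gibbs, Real.exp_add]; ring
  have hlog := (Real.le_log_iff_exp_le (div_pos hS0 hZ)).2 hJ
  rw [Real.log_div hS0.ne' hZ.ne'] at hlog
  rw [tiltPressure_zero, tiltPressure_eq, ← hS, Real.log_mul (by positivity) hS0.ne',
    Real.log_div one_ne_zero (by positivity), Real.log_one, Real.log_pow, freeEnergy_eq]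
  have h1 := mul_le_mul_of_nonneg_left hlog (show (0 : ℝ) ≤ 1 / (n : ℝ) by positivity)
  linarith

lemma measurable_tiltPressure (β : ℝ) {z : ℂ} (hz : z.im ≠ 0) (t : ℝ) :
    Measurable fun g => tiltPressure n β z t g := by
  simp only [tiltPressure_eq]
  exact ((Measurable.const_mul (Finset.measurable_sum _ fun σ _ =>
    (((measurable_hamiltonian σ).const_mul β).add
      ((measurable_tiltForm β hz σ).const_mul t)).exp) _).log).const_mul _

lemma integrable_tiltPressure_zero (β : ℝ) (z : ℂ) :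
    Integrable (fun g => tiltPressure n β z 0 g) (disorderLaw n) := by
  simp only [tiltPressure_zero]
  exact (((memLp_freeEnergy β).integrable one_le_two).sub (integrable_const _)).const_mul _

lemma tiltPressure_diff_le {β : ℝ} (hβ : 0 ≤ β) {z : ℂ} (hz : z.im ≠ 0) {t : ℝ} (ht : 0 ≤ t)
    (g : Disorder n) : ‖tiltPressure n β z t g - tiltPressure n β z 0 g‖
      ≤ 1 / (n : ℝ) * (t * (β / 2 * ((n : ℝ) * n * |z.im|⁻¹))) := by
  set C := β / 2 * ((n : ℝ) * n * |z.im|⁻¹)
  have hZ := partition'_pos β g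
  set S := ∑ σ : Fin n → Bool, Real.exp (β * hamiltonian n g σ + t * tiltForm β z g σ)
  have hS0 : 0 < S := Finset.sum_pos (fun σ _ => Real.exp_pos _) Finset.univ_nonempty
  rw [tiltPressure_zero, tiltPressure_eq, Real.log_mul (by positivity) hS0.ne',
    Real.log_div one_ne_zero (by positivity), Real.log_one, Real.log_pow, freeEnergy_eq,
    Real.norm_eq_abs, ← mul_sub, abs_mul, abs_of_nonneg (show (0 : ℝ) ≤ 1 / (n : ℝ) by positivity)]
  refine mul_le_mul_of_nonneg_left ?_ (by positivity)
  have hb : ∀ σ, -(t * C) ≤ t * tiltForm β z g σ ∧ t * tiltForm β z g σ ≤ t * C := fun σ =>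
    abs_le.1 (by
      rw [abs_mul, abs_of_nonneg ht]
      exact mul_le_mul_of_nonneg_left (abs_tiltForm_le hβ hz g σ) ht)
  have h1 : S ≤ partition' n β g * Real.exp (t * C) := by
    rw [partition', Finset.sum_mul]
    exact Finset.sum_le_sum fun σ _ => by
      rw [← Real.exp_add]; exact Real.exp_le_exp.2 (by linarith [(hb σ).2])
  have h2 : partition' n β g * Real.exp (-(t * C)) ≤ S := by
    rw [partition', Finset.sum_mul]
    exact Finset.sum_le_sum fun σ _ => by
      rw [← Real.exp_add]; exact Real.exp_le_exp.2 (by linarith [(hb σ).1])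
  have l1 := Real.log_le_log hS0 h1
  have l2 := Real.log_le_log (by positivity) h2
  rw [Real.log_mul hZ.ne' (Real.exp_pos _).ne', Real.log_exp] at l1 l2
  rw [abs_le]
  constructor <;> linarith

lemma integrable_tiltPressure {β : ℝ} (hβ : 0 ≤ β) {z : ℂ} (hz : z.im ≠ 0) {t : ℝ} (ht : 0 ≤ t) :
    Integrable (fun g => tiltPressure n β z t g) (disorderLaw n) := by
  have hd : Integrable (fun g => tiltPressure n β z t g - tiltPressure n β z 0 g)
      (disorderLaw n) :=
    Integrable.of_bound ((measurable_tiltPressure β hz t).sub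
      (measurable_tiltPressure β hz 0)).aestronglyMeasurable _
      (ae_of_all _ fun g => tiltPressure_diff_le hβ hz ht g)
  refine (hd.add (integrable_tiltPressure_zero β z)).congr (ae_of_all _ fun g => ?_)
  simp

/-- The slope of the pressure at `t = 0`. -/
lemma meanTilt_eq (β : ℝ) {z : ℂ} (hz : z.im ≠ 0) (g : Disorder n) :
    (1 / (n : ℝ)) * meanTilt n β z g
      = β / 2 * (∑ σ, (gibbs n β g σ : ℂ) * sumStat z (gauge σ g)).im := by
  simp only [sumStat_gauge _ g hz, Complex.im_sum, Complex.im_ofReal_mul, Complex.div_natCast_im,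
    Complex.im_mul_ofReal, meanTilt, tiltForm, Finset.mul_sum]
  refine Finset.sum_congr rfl fun σ _ => ?_
  simp only [Finset.sum_div, Finset.mul_sum]
  exact Finset.sum_congr rfl fun a _ => Finset.sum_congr rfl fun b _ => by ring

lemma im_meanStat_le {β : ℝ} (hβ : 0 ≤ β) {z : ℂ} (hz : z.im ≠ 0) {t : ℝ} (ht : 0 ≤ t) :
    t * (β / 2 * ((meanStat n β z).im + (trMean n z).im)) ≤
      (∫ g, tiltPressure n β z t g ∂disorderLaw n) - ∫ g, tiltPressure n β z 0 g ∂disorderLaw n := by
  set μ := disorderLaw n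
  set A : Disorder n → ℂ := fun g => ∑ σ, (gibbs n β g σ : ℂ) * sumStat z (gauge σ g) with hA
  have hAi : Integrable A μ := by
    refine integrable_finsetSum _ fun σ _ => Integrable.of_bound
      ((measurable_gibbs β σ).complex_ofReal.mul
        ((measurable_sumStat hz).comp (measurePreserving_gauge σ).measurable)).aestronglyMeasurable
      |z.im|⁻¹ (ae_of_all _ fun g => ?_)
    rw [norm_mul, Complex.norm_real, Real.norm_eq_abs, abs_of_nonneg (gibbs_nonneg β g σ)]
    exact (mul_le_mul (gibbs_le_one β g σ) (norm_sumStat_le hz _) (norm_nonneg _) zero_le_one).trans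
      (le_of_eq (one_mul _))
  have htr : Integrable (trStat z) μ := integrable_trStat hz
  have hm : meanStat n β z = (∫ g, A g ∂μ) - trMean n z := by
    rw [meanStat, trMean, ← integral_sub hAi htr]
    refine integral_congr_ae (ae_of_all _ fun g => ?_)
    simp only [hA, mul_sub, Finset.sum_sub_distrib, ← Finset.sum_mul, ← Complex.ofReal_sum,
      sum_gibbs, Complex.ofReal_one, one_mul]
  have him : (∫ g, A g ∂μ).im = ∫ g, (A g).im ∂μ := (integral_im hAi).symm
  rw [hm, Complex.sub_im, sub_add_cancel, him, ← integral_const_mul, ← integral_const_mul,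
    ← integral_sub (integrable_tiltPressure hβ hz ht) (integrable_tiltPressure_zero β z)]
  refine integral_mono ((hAi.im.const_mul _).const_mul _)
    ((integrable_tiltPressure hβ hz ht).sub (integrable_tiltPressure_zero β z)) fun g => ?_
  show t * (β / 2 * (A g).im) ≤ _
  rw [hA, ← meanTilt_eq β hz g]
  exact tilt_tangent β z t g

/-! ### The drop of the variational value -/

lemma isCompact_support {μ : Measure ℝ} (hμ : IsSC μ) : IsCompact μ.support :=
  isCompact_Icc.of_isClosed_subset Measure.isClosed_support hμ.supp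

lemma isCompact_support_map {μ : Measure ℝ} (hμ : IsSC μ) {f : ℝ → ℝ} (hf : Continuous f) :
    IsCompact (μ.map f).support := by
  have hS : IsCompact (f '' Set.Icc (-2) 2) := isCompact_Icc.image hf
  refine hS.of_isClosed_subset Measure.isClosed_support fun x hx => ?_
  by_contra hcon
  refine (ne_of_gt ((Measure.mem_support_iff_forall x).1 hx _
    (hS.isClosed.isOpen_compl.mem_nhds hcon))) ?_
  rw [Measure.map_apply hf.measurable hS.isClosed.isOpen_compl.measurableSet]
  exact measure_mono_null (fun x hx hmem => hx ⟨x, hmem, rfl⟩) (mem_ae_iff.1 (ae_mem hμ))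

lemma tiltSpec_zero (z : ℂ) : tiltSpec z 0 = id := by
  funext x; simp [tiltSpec]

lemma energy_drop {μ ν : Measure ℝ} [IsProbabilityMeasure μ] [IsProbabilityMeasure ν]
    (hμ : IsCompact μ.support) (hν : IsCompact ν.support) {β d ℓ a : ℝ} (hβ : 0 < β)
    (hℓ : 0 ≤ ℓ) (hℓ1 : ℓ ≤ 1)
    (hle : ∀ y, 0 < y → rTrans ν y ≤ rTrans μ y - if 1 - a ≤ y then d else 0) (hd : 0 ≤ d)
    {K : ℕ} {q : ℕ → ℝ} (hq : IsPath q) (h1 : q K < 1)
    (hχ : ∀ s ∈ Set.Ioo (0 : ℝ) ℓ, 1 - a ≤ β * chiPath K q s) :
    energy ν β K q ≤ energy μ β K q - β / 2 * (d * ℓ) := by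
  have hμi := intervalIntegrable_rTrans hμ hβ hq h1
  have hνi := intervalIntegrable_rTrans hν hβ hq h1
  have s1 : Set.uIcc (0 : ℝ) ℓ ⊆ Set.uIcc (0 : ℝ) 1 := by
    rw [Set.uIcc_of_le hℓ, Set.uIcc_of_le zero_le_one]; exact Set.Icc_subset_Icc le_rfl hℓ1
  have s2 : Set.uIcc ℓ (1 : ℝ) ⊆ Set.uIcc (0 : ℝ) 1 := by
    rw [Set.uIcc_of_le hℓ1, Set.uIcc_of_le zero_le_one]; exact Set.Icc_subset_Icc hℓ le_rfl
  have p1 := intervalIntegral.integral_mono_on_of_le_Ioo hℓ (hνi.mono_set s1)
    ((hμi.mono_set s1).sub (intervalIntegrable_const (c := d))) fun s hs => by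
      have := hle _ (mul_pos hβ (chiPath_mem_Ioc hq h1 ⟨hs.1, hs.2.trans_le hℓ1⟩).1)
      rwa [if_pos (hχ s hs)] at this
  have p2 := intervalIntegral.integral_mono_on_of_le_Ioo hℓ1 (hνi.mono_set s2) (hμi.mono_set s2)
    fun s hs => by
      have := hle _ (mul_pos hβ (chiPath_mem_Ioc hq h1 ⟨hℓ.trans_lt hs.1, hs.2⟩).1)
      split_ifs at this <;> linarith
  rw [intervalIntegral.integral_sub (hμi.mono_set s1) intervalIntegrable_const,
    intervalIntegral.integral_const, smul_eq_mul] at p1
  rw [energy, energy, ← intervalIntegral.integral_add_adjacent_intervals (hνi.mono_set s1)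
    (hνi.mono_set s2), ← intervalIntegral.integral_add_adjacent_intervals (hμi.mono_set s1)
    (hμi.mono_set s2), ← mul_sub]
  refine mul_le_mul_of_nonneg_left ?_ (by linarith)
  linarith

/-- The pressure drops at rate `1 / a` under the perturbation, at every small scale. -/
theorem pressure_drop (hS : SpectrumStatement) {β : ℝ} (hβ : 1 < β) :
    ∃ k > (0 : ℝ), ∃ a₁ > (0 : ℝ), a₁ ≤ 1 / 8 ∧ ∀ a : ℝ, 0 < a → a ≤ a₁ →
      ∃ t > (0 : ℝ), ∀ᶠ n in atTop, (∫ g, tiltPressure n β (zOf a) t g ∂disorderLaw n) -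
        ∫ g, tiltPressure n β (zOf a) 0 g ∂disorderLaw n ≤ -(t * (k / a)) := by
  obtain ⟨μ, hμ, hlim⟩ := hS
  obtain ⟨c, hc, a₀, ha₀, hP⟩ := perturb
  obtain ⟨hR, hdrop⟩ := hP μ hμ
  have := hμ.prob
  have hcpt := isCompact_support hμ
  have hβ0 : 0 < β := by linarith
  refine ⟨c / 16, by positivity, min (min a₀ (1 / 8)) 1,
    lt_min (lt_min ha₀ (by norm_num)) one_pos,
    le_trans (min_le_left _ _) (min_le_right _ _), fun a ha ha1 => ?_⟩
  simp only [le_min_iff] at ha1
  obtain ⟨⟨haa₀, ha8⟩, ha1'⟩ := ha1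
  obtain ⟨t₀, ht₀, hdt⟩ := hdrop a ha haa₀
  have hz := im_zOf_pos ha ha8
  set t := min t₀ ((zOf a).im ^ 2 / 2) with htdef
  have ht : 0 < t := lt_min ht₀ (by positivity)
  have hR' : ∀ y, 0 < y → y ≤ 1 → rTrans μ y = y := fun y h0 => (hR y h0).2
  obtain ⟨K, q, hq, h1, hnear, hmarg⟩ := near_min_marginal hcpt (fun y h => (hR y h).1) hR' hβ
    (show 0 < a / 2 by positivity) (show 0 < t * c / (8 * a) by positivity)
  have hf := continuous_tiltSpec hz t
  have : IsProbabilityMeasure (μ.map (tiltSpec (zOf a) t)) :=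
    Measure.isProbabilityMeasure_map hf.aemeasurable
  have hνc := isCompact_support_map hμ hf
  set ℓ := a / (2 * β)
  have hℓ0 : 0 ≤ ℓ := by positivity
  have hℓ1 : ℓ ≤ 1 := by rw [div_le_one (by positivity)]; linarith
  have hχ : ∀ s ∈ Set.Ioo (0 : ℝ) ℓ, 1 - a ≤ β * chiPath K q s := by
    intro s hs
    have h2 := mul_le_mul_of_nonneg_left (chiPath_lip (K := K) hq hs.1.le) hβ0.le
    rw [chiPath_zero hq] at h2
    have h3 := mul_le_mul_of_nonneg_left hs.2.le hβ0.le
    have h4 : β * ℓ = a / 2 := by simp only [ℓ]; field_simp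
    linarith
  have hE := energy_drop hcpt hνc hβ0 hℓ0 hℓ1
    (fun y hy => hdt t ht (min_le_left _ _) y hy) (by positivity) hq h1 hχ
  have hval : value (μ.map (tiltSpec (zOf a) t)) β ≤ value μ β - t * c / (8 * a) := by
    refine (csInf_le (bddBelow_values hνc hβ0.le) ⟨K, q, hq, h1, rfl⟩).trans ?_
    have : β / 2 * (t * (c / a ^ 2) * ℓ) = 2 * (t * c / (8 * a)) := by
      simp only [ℓ]; field_simp; ring
    linarith
  have hL := (hlim β hβ0 (zOf a) hz t ht.le (min_le_right _ _)).sub
    (hlim β hβ0 (zOf a) hz 0 le_rfl (by positivity))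
  rw [tiltSpec_zero, Measure.map_id] at hL
  have hlt : value (μ.map (tiltSpec (zOf a) t)) β - value μ β < -(t * c / (16 * a)) := by
    have : t * c / (8 * a) = 2 * (t * c / (16 * a)) := by field_simp; ring
    have : 0 < t * c / (16 * a) := by positivity
    linarith
  refine ⟨t, ht, ?_⟩
  filter_upwards [hL.eventually (gt_mem_nhds hlt)] with n hn
  refine hn.le.trans (le_of_eq ?_)
  ring

/-- The mean statistic is of order `1 / a` at every small scale. -/
theorem im_meanStat_small (hS : SpectrumStatement) {β : ℝ} (hβ : 1 < β) :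
    ∃ κ > (0 : ℝ), ∃ a₁ > (0 : ℝ), a₁ ≤ 1 / 8 ∧ ∀ a : ℝ, 0 < a → a ≤ a₁ →
      ∀ᶠ n in atTop, (meanStat n β (zOf a)).im ≤ -(κ / a) := by
  have hβ0 : 0 < β := by linarith
  obtain ⟨k, hk, a₁, ha₁, ha₁8, hd⟩ := pressure_drop hS hβ
  refine ⟨k / β, by positivity, min a₁ (min 1 (k / (2 * β))),
    lt_min ha₁ (lt_min one_pos (by positivity)), le_trans (min_le_left _ _) ha₁8,
    fun a ha ha' => ?_⟩
  simp only [le_min_iff] at ha'
  obtain ⟨haa, ha1', hac⟩ := ha'
  have ha8 : a ≤ 1 / 8 := haa.trans ha₁8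
  have hz := im_zOf_pos ha ha8
  obtain ⟨t, ht, hev⟩ := hd a ha haa
  obtain ⟨N, hN⟩ := trMean_near (y := yOf a) (by linarith [(norm_yOf ha ha8).2])
    (by simp [yOf, ha]) hz (e := a) ha
  filter_upwards [hev, eventually_ge_atTop N] with n hn hnN
  have h2 := (im_meanStat_le (n := n) hβ0.le hz.ne' ht.le).trans hn
  have h3 : -(2 * a) ≤ (trMean n (zOf a)).im := by
    have h : |(trMean n (zOf a) - yOf a).im| ≤ a := (Complex.abs_im_le_norm _).trans (hN n hnN)
    rw [Complex.sub_im, abs_le] at h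
    have : (yOf a).im = -a := rfl
    linarith [h.1]
  have h4 : (meanStat n β (zOf a)).im + (trMean n (zOf a)).im ≤ -(2 * (k / β / a)) := by
    refine le_of_mul_le_mul_left ?_ (mul_pos ht (half_pos hβ0))
    rw [mul_assoc]
    refine h2.trans (le_of_eq ?_)
    field_simp
  have h5 : 2 * a ≤ k / β / a := by
    rw [le_div_iff₀ ha]
    have h7 : a * a ≤ a := mul_le_of_le_one_right ha.le ha1'
    have h8 : k / β = 2 * (k / (2 * β)) := by field_simp
    linarith
  linarith

/-! ### The variance -/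

lemma field_energy_scales {K : ℕ} (hn : 0 < n) (m₀ : ℕ)
    (hgr : ∀ p : Fin K × Fin K,
      Integrable (gram n (scale (m₀ + p.1)) (scale (m₀ + p.2))) (disorderLaw n) ∧
      ∫ g, gram n (scale (m₀ + p.1)) (scale (m₀ + p.2)) g ∂disorderLaw n
        ≤ 157 / (scale (m₀ + p.1) + scale (m₀ + p.2)) ^ 2) :
    ∫ g, ((∑ e, ‖(resField n (fun m : Fin K => zOf (scale (m₀ + m)))
        (fun m => Complex.I * (scale (m₀ + m) : ℂ))
        fun m => (im_zOf_pos (scale_pos _) (scale_le _)).ne').V e g‖ ^ 2) +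
      ∑ e, ∑ f, ‖(resField n (fun m : Fin K => zOf (scale (m₀ + m)))
        (fun m => Complex.I * (scale (m₀ + m) : ℂ))
        fun m => (im_zOf_pos (scale_pos _) (scale_le _)).ne').D e f g‖ ^ 2) ∂disorderLaw n
      ≤ 471 * (K : ℝ) := by
  set s : Fin K → ℝ := fun m => scale (m₀ + m) with hs
  have hs0 : ∀ m, 0 < s m := fun m => scale_pos _
  set z : Fin K → ℂ := fun m => zOf (s m)
  set w : Fin K → ℂ := fun m => Complex.I * (s m : ℂ)
  have hw : ∀ m, ‖w m‖ = s m := fun m => by simp [w, abs_of_pos (hs0 m)]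
  have hz : ∀ m, (z m).im ≠ 0 := fun m => (im_zOf_pos (scale_pos _) (scale_le _)).ne'
  set μ := disorderLaw n
  have hgi : ∀ m l : Fin K, Integrable (fun g => ‖w m‖ * ‖w l‖ * gram n (s m) (s l) g) μ :=
    fun m l => (hgr (m, l)).1.const_mul _
  refine (integral_mono_of_nonneg (ae_of_all _ fun g => by positivity)
    (integrable_finsetSum _ fun m _ => integrable_finsetSum _ fun l _ => hgi m l)
    (ae_of_all _ fun g => field_energy hn z w hz g)).trans ?_
  rw [integral_finsetSum _ fun m _ => integrable_finsetSum _ fun l _ => hgi m l,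
    Finset.sum_congr rfl fun m _ => integral_finsetSum _ fun l _ => hgi m l]
  simp only [integral_const_mul, hw]
  have hterm : ∀ m l : Fin K, s m * s l * ∫ g, gram n (s m) (s l) g ∂μ ≤
      157 * (scale m * scale l / (scale m + scale l) ^ 2) := by
    intro m l
    refine (mul_le_mul_of_nonneg_left (hgr (m, l)).2
      (mul_pos (hs0 m) (hs0 l)).le).trans (le_of_eq ?_)
    have e : ∀ j : ℕ, scale (m₀ + j) = (1 / 2 : ℝ) ^ m₀ * scale j := fun j => by
      rw [scale, scale, ← pow_add, Nat.add_assoc]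
    have : 0 < scale m + scale l := add_pos (scale_pos _) (scale_pos _)
    have : (0 : ℝ) < (1 / 2 : ℝ) ^ m₀ := pow_pos (by norm_num) _
    simp only [hs, e, ← mul_add]
    field_simp
  refine (Finset.sum_le_sum fun m _ => Finset.sum_le_sum fun l _ => hterm m l).trans ?_
  refine (Finset.sum_le_sum (g := fun _ => (471 : ℝ)) fun m _ => ?_).trans
    (le_of_eq (by simp; ring))
  rw [← Finset.mul_sum, Fin.sum_univ_eq_sum_range
    fun l => scale m * scale l / (scale m + scale l) ^ 2]
  have := (geometric_row m K).2 (by omega)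
  have : (0 : ℝ) ≤ (1 / 2 : ℝ) ^ (K - ((m : ℕ) + 1)) := by positivity
  linarith

/-- The variance is eventually above every bound. -/
theorem variance_tendsto_of (hS : SpectrumStatement) {β : ℝ} (hβ : 1 < β) :
    Tendsto (fun n => variance (freeEnergy n β) (disorderLaw n)) atTop atTop := by
  obtain ⟨κ, hκ, a₁, ha₁, ha₁8, hκa⟩ := im_meanStat_small hS hβ
  obtain ⟨m₀, hm₀⟩ := exists_pow_lt_of_lt_one ha₁ (show (1 / 2 : ℝ) < 1 by norm_num)
  have hsmall : ∀ m, scale (m₀ + m) ≤ a₁ := fun m => le_trans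
    (pow_le_pow_of_le_one (by norm_num) (by norm_num) (by omega)) hm₀.le
  rw [tendsto_atTop]
  intro M
  obtain ⟨K, hK⟩ := exists_nat_ge (max 1 (M * 471 / (β * κ) ^ 2))
  simp only [max_le_iff] at hK
  obtain ⟨hK1, hKM⟩ := hK
  set s : Fin K → ℝ := fun m => scale (m₀ + m) with hs
  have hs0 : ∀ m, 0 < s m := fun m => scale_pos _
  have hs8 : ∀ m, s m ≤ 1 / 8 := fun m => scale_le _
  set α := (1 / 2 : ℝ) ^ (m₀ + K + 2)
  have hα : 0 < α := pow_pos (by norm_num) _
  have hev1 : ∀ᶠ n in atTop, ∀ m : Fin K, (meanStat n β (zOf (s m))).im ≤ -(κ / s m) :=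
    eventually_all.2 fun m => hκa _ (hs0 m) (hsmall m)
  have hev2 : ∀ᶠ n in atTop, ∀ p : Fin K × Fin K,
      Integrable (gram n (s p.1) (s p.2)) (disorderLaw n) ∧
      ∫ g, gram n (s p.1) (s p.2) g ∂disorderLaw n ≤ 157 / (s p.1 + s p.2) ^ 2 :=
    eventually_all.2 fun p => eventually_atTop.2 (gram_mean hα
      (scale_ge (Nat.add_lt_add_left p.1.2 m₀)) (scale_ge (Nat.add_lt_add_left p.2.2 m₀))
      (hs8 _) (hs8 _))
  filter_upwards [hev1, hev2, eventually_gt_atTop 0] with n hst hgr hn
  set z : Fin K → ℂ := fun m => zOf (s m)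
  set w : Fin K → ℂ := fun m => Complex.I * (s m : ℂ)
  have hw : ∀ m, ‖w m‖ = s m := fun m => by simp [w, abs_of_pos (hs0 m)]
  have hz : ∀ m, (z m).im ≠ 0 := fun m => (im_zOf_pos (hs0 m) (hs8 m)).ne'
  set T := resField n z w hz
  set μ := disorderLaw n
  have hE : ∫ g, ((∑ e, ‖T.V e g‖ ^ 2) + ∑ e, ∑ f, ‖T.D e f g‖ ^ 2) ∂μ ≤ 471 * (K : ℝ) :=
    field_energy_scales hn m₀ hgr
  have hV := T.variance_ge (F := freeEnergy n β) (F' := gradFree β)
    (freeEnergy_hasDerivAt β) (memLp_freeEnergy β) (memLp_gradFree β) hE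
  have hint : ∫ g, ∑ e, (gradFree β e g : ℂ) * T.V e g ∂μ
      = (β : ℂ) * ∑ m, w m * meanStat n β (z m) := by
    have hi : ∀ m, Integrable (fun g => ∑ σ, (gibbs n β g σ : ℂ)
        * (sumStat (z m) (gauge σ g) - trStat (z m) g)) μ := by
      intro m
      refine integrable_finsetSum _ fun σ _ => integrable_of_bdd (C := 2 * |(z m).im|⁻¹)
        ((measurable_gibbs β σ).complex_ofReal.mul
          (((measurable_sumStat (hz m)).comp (measurePreserving_gauge σ).measurable).sub
            (measurable_trStat (hz m)))).aestronglyMeasurable fun g => ?_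
      rw [norm_mul, Complex.norm_real, Real.norm_eq_abs, abs_of_nonneg (gibbs_nonneg β g σ)]
      calc gibbs n β g σ * ‖sumStat (z m) (gauge σ g) - trStat (z m) g‖
          ≤ 1 * (|(z m).im|⁻¹ + |(z m).im|⁻¹) :=
            mul_le_mul (gibbs_le_one β g σ) ((norm_sub_le _ _).trans
              (add_le_add (norm_sumStat_le (hz m) _) (norm_trStat_le (hz m) _))) (norm_nonneg _)
              zero_le_one
        _ = _ := by ring
    rw [integral_congr_ae (ae_of_all _ fun g => pairing_eq z w hz β g), integral_const_mul,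
      integral_finsetSum _ fun m _ => (hi m).const_mul _]
    simp only [integral_const_mul]; rfl
  rw [hint] at hV
  have hlow : β * ((K : ℝ) * κ) ≤ ‖(β : ℂ) * ∑ m, w m * meanStat n β (z m)‖ := by
    refine le_trans ?_ (Complex.re_le_norm _)
    rw [Complex.re_ofReal_mul, Complex.re_sum]
    refine mul_le_mul_of_nonneg_left ?_ (by linarith)
    refine le_trans (le_of_eq (by simp)) (Finset.sum_le_sum (f := fun _ : Fin K => κ) fun m _ => ?_)
    have h := mul_le_mul_of_nonneg_left (hst m) (hs0 m).le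
    rw [mul_neg, mul_div_cancel₀ _ (hs0 m).ne'] at h
    simp only [w, z, Complex.mul_re, Complex.mul_im, Complex.I_re, Complex.I_im, Complex.ofReal_re,
      Complex.ofReal_im]
    linarith
  have hβκ : 0 < β * κ := mul_pos (by linarith) hκ
  have hK0 : (0 : ℝ) < 471 * K := by positivity
  have h5 := (pow_le_pow_left₀ (by positivity) hlow 2).trans hV
  rw [div_le_iff₀ (by positivity)] at hKM
  refine le_of_mul_le_mul_right ?_ hK0
  refine le_trans ?_ h5
  have h6 := mul_le_mul_of_nonneg_left hKM (show (0 : ℝ) ≤ K by linarith)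
  linarith

end Vale.Agent.P146.Gap
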