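import Mathlib

/-!
The pointwise certificate behind the gap inequality of the Parisi formula.

For a tilted Gaussian density `φ(y) exp (w y)` with `w' = y R` the left side below has the same
integral as `c² - 2 u³ - 2 u² + 2 m²`, where `m = w'`, `u = w''`, `c = w'''`, since `dG + (m - y) G`
integrates to zero. Here `p = R'` and `s = R''`.
-/

namespace Vale.Agent.P146.Gap

/-- The test function of the integration by parts. -/
noncomputable def testFn (y R p : ℝ) : ℝ :=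
  2 * y * R ^ 2 + 2 * y * R ^ 3 - 2 * y * p ^ 2 + 3 / 2 * y ^ 3 * R * p ^ 2
    + 3 / 2 * y ^ 2 * R ^ 2 * p

/-- The derivative of `y ↦ testFn y (R y) (R' y)`. -/
noncomputable def testFnDeriv (y R p s : ℝ) : ℝ :=
  (2 * R ^ 2 + 4 * y * R * p) + (2 * R ^ 3 + 6 * y * R ^ 2 * p) - (2 * p ^ 2 + 4 * y * p * s)
    + 3 / 2 * (3 * y ^ 2 * R * p ^ 2 + y ^ 3 * p ^ 3 + 2 * y ^ 3 * R * p * s)
    + 3 / 2 * (2 * y * R ^ 2 * p + 2 * y ^ 2 * R * p ^ 2 + y ^ 2 * R ^ 2 * s)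

/-- The integrand of the gap inequality. -/
noncomputable def gapIntegrand (y R p s : ℝ) : ℝ :=
  (2 * p + y * s) ^ 2 - 2 * (R + y * p) ^ 3 - 2 * (R + y * p) ^ 2 + 2 * (y * R) ^ 2

theorem gap_identity (y R p s : ℝ) :
    gapIntegrand y R p s + testFnDeriv y R p s + (y * R - y) * testFn y R p
      = y ^ 2 * (s + 3 / 2 * y * R * p + 3 / 4 * R ^ 2) ^ 2
        + 2 * (p + 25 / 32 * y * R ^ 2) ^ 2 + 111 / 512 * y ^ 2 * R ^ 4
        - 1 / 2 * y * p * (y * p + R / 2) ^ 2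
        - 3 / 2 * y ^ 3 * R * p * (R + y * p) - 3 / 4 * y ^ 3 * R ^ 2 * p * (R + y * p) := by
  simp only [gapIntegrand, testFn, testFnDeriv]; ring

/-- The certificate: where `w'' = R + y p ≥ 0` and `y p ≤ 0` the corrected integrand is at least
`(111/512) y² R⁴`. -/
theorem gap_pointwise {y R p : ℝ} (s : ℝ) (hR : 0 ≤ R) (hu : 0 ≤ R + y * p) (hp : y * p ≤ 0) :
    111 / 512 * y ^ 2 * R ^ 4
      ≤ gapIntegrand y R p s + testFnDeriv y R p s + (y * R - y) * testFn y R p := by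
  rw [gap_identity]
  have h1 : 0 ≤ y ^ 2 * (s + 3 / 2 * y * R * p + 3 / 4 * R ^ 2) ^ 2 := by positivity
  have h2 : 0 ≤ 2 * (p + 25 / 32 * y * R ^ 2) ^ 2 := by positivity
  have h3 : 0 ≤ -(y * p) * (y * p + R / 2) ^ 2 := mul_nonneg (by linarith) (sq_nonneg _)
  have h4 : 0 ≤ y ^ 2 * R * (-(y * p)) * (R + y * p) :=
    mul_nonneg (mul_nonneg (mul_nonneg (sq_nonneg y) hR) (by linarith)) hu
  have h5 : 0 ≤ y ^ 2 * R ^ 2 * (-(y * p)) * (R + y * p) :=
    mul_nonneg (mul_nonneg (mul_nonneg (sq_nonneg y) (sq_nonneg R)) (by linarith)) hu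
  nlinarith [h1, h2, h3, h4, h5]

end Vale.Agent.P146.Gap
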