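import Vale.Agent.P146.Gap.SmoothMax
import Vale.Agent.P157.Parisi.ModelFacts
import Vale.Agent.P146.Model

/-!
The quadratic form of the coupling matrix is at most `2 + ε` in absolute value on the unit sphere,
with probability `1 - O(1 / (n ε²))`: comparison of smooth maxima, the Poincare inequality and
separability.
-/

namespace Vale.Agent.P146.Gap

open MeasureTheory ProbabilityTheory Real Filter Topology Finset
open Vale.Agent.P157 (gauss)
open Vale.Agent.P157.Parisi (Tame)
open Vale.Agent.P157.Parisi.ModelFacts (measurePreserving_curry)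
open scoped ENNReal

variable {n : ℕ}

/-- The quadratic form of the coupling. -/
noncomputable def quad (g : Disorder n) (x : Fin n → ℝ) : ℝ :=
  ∑ i, ∑ j, x i * coupling g i j * x j

/-- Its coefficients in the entries of the disorder. -/
noncomputable def quadCoef (x : Fin n → ℝ) (p : Fin n × Fin n) : ℝ :=
  if p.1 < p.2 then 2 / Real.sqrt n * (x p.1 * x p.2) else 0

lemma quad_eq (g : Disorder n) (x : Fin n → ℝ) :
    quad g x = ∑ p : Fin n × Fin n, g p.1 p.2 * quadCoef x p := by
  rw [Fintype.sum_prod_type, quad]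
  have h : ∀ i j : Fin n, x i * coupling g i j * x j =
      (if i < j then (Real.sqrt n)⁻¹ * (g i j * (x i * x j)) else 0) +
        (if j < i then (Real.sqrt n)⁻¹ * (g j i * (x j * x i)) else 0) := by
    intro i j
    rw [coupling, Matrix.of_apply, sym]
    rcases lt_trichotomy i j with h | h | h
    · simp only [if_pos h, if_neg h.not_gt]; ring
    · subst h; simp
    · simp only [if_pos h, if_neg h.not_gt]; ring
  simp only [h, sum_add_distrib]
  rw [sum_comm (f := fun i j => if j < i then (Real.sqrt n)⁻¹ * (g j i * (x j * x i)) else 0),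
    ← sum_add_distrib]
  refine sum_congr rfl fun i _ => ?_
  rw [← sum_add_distrib]
  refine sum_congr rfl fun j _ => ?_
  simp only [quadCoef]
  split_ifs
  · ring
  · ring

lemma quad_neg (g : Disorder n) (x : Fin n → ℝ) : quad (fun i j => -g i j) x = -quad g x := by
  simp [quad_eq]

lemma continuous_quad (g : Disorder n) : Continuous (quad g) := by
  unfold quad; fun_prop

lemma continuous_quad_left (x : Fin n → ℝ) : Continuous fun g : Disorder n => quad g x := by
  simp only [quad_eq]; fun_prop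

lemma sum_quadCoef_sq_le (x : Fin n → ℝ) (hx : ∑ i, x i ^ 2 = 1) :
    ∑ p, quadCoef x p ^ 2 ≤ 4 / n := by
  have : ∀ p : Fin n × Fin n, quadCoef x p ^ 2 ≤ 4 / n * (x p.1 ^ 2 * x p.2 ^ 2) := fun p => by
    unfold quadCoef
    split_ifs
    · rw [mul_pow, div_pow, Real.sq_sqrt (Nat.cast_nonneg n)]
      exact le_of_eq (by ring)
    · rw [zero_pow two_ne_zero]; positivity
  refine (sum_le_sum fun p _ => this p).trans ?_
  rw [Fintype.sum_prod_type]
  simp only [← mul_sum, hx, mul_one]
  rfl

lemma quadCoef_incr_le (x y : Fin n → ℝ) (hx : ∑ i, x i ^ 2 = 1) (hy : ∑ i, y i ^ 2 = 1) :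
    ∑ p, (quadCoef x p - quadCoef y p) ^ 2 ≤
      ∑ i, (2 / Real.sqrt n * x i - 2 / Real.sqrt n * y i) ^ 2 := by
  set D := fun i j : Fin n => (x i * x j - y i * y j) ^ 2
  set w := (2 / Real.sqrt n) ^ 2 with hw
  have hpt : ∀ i j, (quadCoef x (i, j) - quadCoef y (i, j)) ^ 2 =
      if i < j then w * D i j else 0 := fun i j => by
    unfold quadCoef
    split_ifs
    · simp only [hw, D]; ring
    · simp
  have hhalf : 2 * ∑ i, ∑ j, (if i < j then w * D i j else 0) ≤ ∑ i, ∑ j, w * D i j := by
    rw [two_mul]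
    conv_lhs => arg 2; rw [sum_comm]
    rw [← sum_add_distrib]
    refine sum_le_sum fun i _ => ?_
    rw [← sum_add_distrib]
    refine sum_le_sum fun j _ => ?_
    have hD : 0 ≤ w * D i j := mul_nonneg (sq_nonneg _) (sq_nonneg _)
    rcases lt_trichotomy i j with h | h | h
    · simp [h, h.not_gt]
    · subst h; simpa using hD
    · simp only [if_pos h, if_neg h.not_gt, zero_add]
      exact le_of_eq (by simp only [D]; ring)
  set u := ∑ i, x i * y i with hu
  have hfull : ∑ i, ∑ j, w * D i j = w * (2 - 2 * u ^ 2) := by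
    simp only [← mul_sum]
    congr 1
    have e : ∀ i j, D i j = x i ^ 2 * x j ^ 2 + y i ^ 2 * y j ^ 2 - 2 * (x i * y i * (x j * y j)) :=
      fun i j => by simp only [D]; ring
    simp only [e, sum_sub_distrib, sum_add_distrib, ← mul_sum, ← sum_mul, hx, hy, ← hu]
    ring
  have hsum : ∑ i, (2 / Real.sqrt n * x i - 2 / Real.sqrt n * y i) ^ 2 = w * (2 - 2 * u) := by
    have e : ∀ i, (2 / Real.sqrt n * x i - 2 / Real.sqrt n * y i) ^ 2 =
        w * (x i ^ 2 + y i ^ 2 - 2 * (x i * y i)) := fun i => by simp only [hw]; ring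
    simp only [e, ← mul_sum, sum_sub_distrib, sum_add_distrib, hx, hy, ← hu]
    ring
  rw [hsum, Fintype.sum_prod_type]
  simp only [hpt]
  have h0 : 0 ≤ w * (1 - u) ^ 2 := by positivity
  nlinarith [hhalf, hfull, h0]

lemma measurePreserving_disorder (n : ℕ) :
    MeasurePreserving (fun z : Fin n × Fin n → ℝ => fun i j => z (i, j)) (gauss (Fin n × Fin n))
      (disorderLaw n) :=
  measurePreserving_curry (Fin n) (Fin n)

lemma measurePreserving_neg (n : ℕ) :
    MeasurePreserving (fun g : Disorder n => fun i j => -g i j) (disorderLaw n) (disorderLaw n) := by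
  simpa [spin] using measurePreserving_signs (n := n) fun _ _ => false

/-- Finitely many unit vectors. -/
lemma finite_bound (hn : 0 < n) {X : Type} [Fintype X] [Nonempty X] (v : X → Fin n → ℝ)
    (hv : ∀ x, ∑ i, v x i ^ 2 = 1) {ε : ℝ} (hε : 0 < ε) :
    gauss (Fin n × Fin n) {z | ∃ x, 2 + ε < linForms (fun x => quadCoef (v x)) z x} ≤
      ENNReal.ofReal (32 / (n * ε ^ 2)) := by
  set a : X → Fin n × Fin n → ℝ := fun x => quadCoef (v x)
  set b : X → Fin n → ℝ := fun x i => 2 / Real.sqrt n * v x i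
  have hcard : 0 ≤ Real.log (Fintype.card X) :=
    Real.log_nonneg (by exact_mod_cast Fintype.card_pos)
  set θ := (2 * Real.log (Fintype.card X) + 1) / ε
  have hθ : 0 < θ := by positivity
  set W := fun z : Fin n × Fin n → ℝ => lse θ (linForms a z)
  have hlogθ : Real.log (Fintype.card X) / θ ≤ ε / 2 := by
    rw [div_le_iff₀ hθ]
    have : ε / 2 * θ = Real.log (Fintype.card X) + 1 / 2 := by simp only [θ]; field_simp
    linarith
  have hn' : (0 : ℝ) < n := Nat.cast_pos.2 hn
  have hsn : 0 < Real.sqrt n := Real.sqrt_pos.2 hn'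
  have hmean : ∫ z, W z ∂gauss (Fin n × Fin n) ≤ 2 + ε / 2 := by
    refine (lse_compare hθ a b fun x y => quadCoef_incr_le _ _ (hv x) (hv y)).trans ?_
    have hsq : ∀ i, Integrable (fun h : Fin n → ℝ => h i ^ 2) (gauss (Fin n)) := fun i =>
      (Vale.Agent.P157.Parisi.tame_coord i).sq.integrable
    refine (integral_mono (Vale.Agent.P146.Gap.tame_lse hθ b).integrable
      ((integrable_const (1 + Real.log (Fintype.card X) / θ)).add
        ((integrable_finsetSum univ fun i _ => hsq i).div_const (n : ℝ))) fun h => ?_).trans ?_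
    · have hM : ∀ x, linForms b h x ≤ 1 + (∑ i, h i ^ 2) / n := fun x => by
        have e : 1 + (∑ i, h i ^ 2) / n - linForms b h x =
            ∑ i, (v x i - h i / Real.sqrt n) ^ 2 := by
          have : ∀ i, (v x i - h i / Real.sqrt n) ^ 2 =
              v x i ^ 2 + h i ^ 2 / n - h i * b x i := fun i => by
            rw [sub_sq, div_pow, Real.sq_sqrt hn'.le]
            simp only [b]; ring
          simp only [this, sum_sub_distrib, sum_add_distrib, hv x, ← sum_div, linForms]
        linarith [e, sum_nonneg (fun i (_ : i ∈ univ) => sq_nonneg (v x i - h i / Real.sqrt n))]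
      refine (lse_le hθ hM).trans (le_of_eq ?_)
      simp only [Pi.add_apply]; ring
    · rw [integral_add' (integrable_const _)
          ((integrable_finsetSum univ fun i _ => hsq i).div_const (n : ℝ)), integral_div,
        integral_finsetSum _ fun i _ => hsq i]
      have hco : ∀ i : Fin n, ∫ h : Fin n → ℝ, h i ^ 2 ∂gauss (Fin n) = 1 := fun i => by
        simpa [Pi.single_apply, ite_pow] using
          Vale.Agent.P166.Parisi.GaussPoincare.integral_sq_linear (Pi.single i (1 : ℝ))
      simp only [hco, integral_const, probReal_univ,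
        smul_eq_mul, one_mul, sum_const, card_univ, Fintype.card_fin, nsmul_eq_mul, mul_one]
      rw [div_self hn'.ne']
      linarith
  have hvar : variance W (gauss (Fin n × Fin n)) ≤ 8 / n := by
    refine (variance_lse_le hθ a fun x => sum_quadCoef_sq_le _ (hv x)).trans ?_
    rw [mul_div_assoc', div_le_div_iff_of_pos_right hn']
    nlinarith [Real.pi_lt_four, Real.pi_pos]
  have hsub : {z | ∃ x, 2 + ε < linForms (fun x => quadCoef (v x)) z x} ⊆
      {z | ε / 2 ≤ |W z - ∫ z', W z' ∂gauss (Fin n × Fin n)|} := fun z hz => by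
    obtain ⟨x, hx⟩ := hz
    have h := le_lse hθ (linForms a z) x
    exact le_trans (show ε / 2 ≤ W z - ∫ z', W z' ∂gauss (Fin n × Fin n) by
      simp only [W, a] at *; linarith) (le_abs_self _)
  refine (measure_mono hsub).trans
    ((meas_ge_le_variance_div_sq ((tame_lse hθ a).memLp_two) (half_pos hε)).trans
      (ENNReal.ofReal_le_ofReal ?_))
  · rw [div_le_div_iff₀ (by positivity) (by positivity)]
    have h8 : variance W (gauss (Fin n × Fin n)) * n ≤ 8 := (le_div_iff₀ hn').1 hvar
    nlinarith [mul_le_mul_of_nonneg_right h8 (sq_nonneg ε)]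

/-- The quadratic form exceeds `2 + ε` somewhere on the sphere with probability `O(1 / (n ε²))`. -/
theorem maxEig_bound (hn : 0 < n) {ε : ℝ} (hε : 0 < ε) :
    disorderLaw n {g | ∃ x : Fin n → ℝ, ∑ i, x i ^ 2 = 1 ∧ 2 + ε < quad g x} ≤
      ENNReal.ofReal (32 / (n * ε ^ 2)) := by
  set S := {x : Fin n → ℝ | ∑ i, x i ^ 2 = 1}
  have : Nonempty S :=
    ⟨⟨Pi.single ⟨0, hn⟩ 1, by simp [S, Pi.single_apply, ite_pow]⟩⟩
  set u := TopologicalSpace.denseSeq S
  set E : ℕ → Set (Disorder n) := fun N => {g | ∃ k : Fin (N + 1), 2 + ε < quad g (u k).1}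
  have hsub : {g | ∃ x : Fin n → ℝ, ∑ i, x i ^ 2 = 1 ∧ 2 + ε < quad g x} ⊆ ⋃ N, E N := by
    rintro g ⟨x, hx, hgt⟩
    obtain ⟨k, hy⟩ := (TopologicalSpace.denseRange_denseSeq S).exists_mem_open
      (isOpen_lt continuous_const ((continuous_quad g).comp continuous_subtype_val))
      ⟨⟨x, hx⟩, hgt⟩
    exact Set.mem_iUnion.2 ⟨k, ⟨k, Nat.lt_succ_self k⟩, hy⟩
  refine (measure_mono hsub).trans ?_
  have hmono : Monotone E := fun N M h g ⟨k, hk⟩ =>
    ⟨⟨k.1, k.2.trans_le (Nat.succ_le_succ h)⟩, hk⟩
  rw [hmono.measure_iUnion]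
  refine iSup_le fun N => ?_
  have hmeas : MeasurableSet (E N) := by
    have : E N = ⋃ k : Fin (N + 1), {g | 2 + ε < quad g (u k).1} := by
      ext g; simp [E]
    rw [this]
    exact .iUnion fun k => (isOpen_lt continuous_const (continuous_quad_left _)).measurableSet
  rw [← (measurePreserving_disorder n).measure_preimage hmeas.nullMeasurableSet]
  refine le_of_eq_of_le ?_ (finite_bound hn (fun k : Fin (N + 1) => (u k).1) (fun k => (u k).2) hε)
  congr 1
  ext z
  simp [E, quad_eq, linForms]

/-- The same for the absolute value. -/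
theorem absEig_bound (hn : 0 < n) {ε : ℝ} (hε : 0 < ε) :
    disorderLaw n {g | ∃ x : Fin n → ℝ, ∑ i, x i ^ 2 = 1 ∧ 2 + ε < |quad g x|} ≤
      ENNReal.ofReal (64 / (n * ε ^ 2)) := by
  set B := {g : Disorder n | ∃ x : Fin n → ℝ, ∑ i, x i ^ 2 = 1 ∧ 2 + ε < quad g x}
  have hB : MeasurableSet B := by
    have : B = ⋃ x : {x : Fin n → ℝ // ∑ i, x i ^ 2 = 1}, {g | 2 + ε < quad g x.1} := by
      ext g; simp [B]
    rw [this]
    exact (isOpen_iUnion fun x => isOpen_lt continuous_const (continuous_quad_left _)).measurableSet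
  have hsub : {g : Disorder n | ∃ x : Fin n → ℝ, ∑ i, x i ^ 2 = 1 ∧ 2 + ε < |quad g x|} ⊆
      B ∪ (fun g : Disorder n => fun i j => -g i j) ⁻¹' B := fun g hg => by
    obtain ⟨x, hx, hgt⟩ := hg
    rcases lt_abs.1 hgt with h | h
    exacts [.inl ⟨x, hx, h⟩, .inr ⟨x, hx, by rw [quad_neg]; exact h⟩]
  refine (measure_mono hsub).trans ((measure_union_le _ _).trans ?_)
  rw [(measurePreserving_neg n).measure_preimage hB.nullMeasurableSet]
  refine (add_le_add (maxEig_bound hn hε) (maxEig_bound hn hε)).trans ?_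
  rw [← ENNReal.ofReal_add (by positivity) (by positivity)]
  exact ENNReal.ofReal_le_ofReal (le_of_eq (by ring))

end Vale.Agent.P146.Gap
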