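import Vale.Agent.P146.Gap.Assembly
import Vale.Agent.P146.Gap.MaxEig

/-!
Concentration of the perturbed pressure by the Gaussian Poincare inequality.
-/

namespace Vale.Agent.P146.Gap

open MeasureTheory ProbabilityTheory Filter Topology Matrix
open Vale.Agent.P157 (gauss)

variable {n : ℕ}

/-- A vector indexed by entries, as an array. -/
def arr (y : Fin n × Fin n → ℝ) : Disorder n := fun i j => y (i, j)

lemma bilin_expand (u : Fin n → ℂ) (A D B : Matrix (Fin n) (Fin n) ℂ) :
    ∑ a, u a * ∑ b, (A * D * B) a b * u b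
      = ∑ c, ∑ d, (∑ a, u a * A a c) * D c d * ∑ b, B d b * u b := by
  change u ⬝ᵥ (A * D * B) *ᵥ u = ∑ c, ∑ d, (u ᵥ* A) c * D c d * (B *ᵥ u) d
  rw [← mulVec_mulVec, ← mulVec_mulVec, dotProduct_mulVec]
  simp only [dotProduct, mulVec, Finset.mul_sum, mul_assoc]

lemma coupling_line (y v : Fin n × Fin n → ℝ) (s : ℝ) (a b : Fin n) :
    coupling (arr fun i => y i + s * v i) a b = coupling (arr y) a b + s * coupling (arr v) a b := by
  simp only [coupling, Matrix.of_apply, sym, arr]
  split_ifs <;> ring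

lemma sum_sym_coupling (P : Fin n → Fin n → ℝ) (hP : ∀ a b, P a b = P b a)
    (g : Disorder n) :
    ∑ a, ∑ b, P a b * coupling g a b
      = 2 * ∑ e : Fin n × Fin n, entryCoef e * P e.1 e.2 * g e.1 e.2 := by
  set f : Fin n → Fin n → ℝ := fun a b => P a b * coupling g a b
  have hsym : ∀ a b, f a b = f b a := fun a b => by
    simp only [f, coupling, Matrix.of_apply, sym_comm g a b, hP a b]
  have h3 : ∀ a b, f a b = (if a < b then f a b else 0) + (if b < a then f b a else 0) := by
    intro a b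
    rcases lt_trichotomy a b with h | h | h
    · simp [h, h.not_gt]
    · subst h; simp [f, coupling, sym_diag]
    · simp [h, h.not_gt, hsym a b]
  change ∑ a, ∑ b, f a b = _
  rw [Finset.sum_congr rfl fun a _ => Finset.sum_congr rfl fun b _ => h3 a b]
  simp only [Finset.sum_add_distrib]
  rw [Finset.sum_comm (f := fun a b => if b < a then f b a else 0), ← two_mul,
    Fintype.sum_prod_type]
  congr 1
  refine Finset.sum_congr rfl fun a _ => Finset.sum_congr rfl fun b _ => ?_
  simp only [f, coupling, Matrix.of_apply, sym, entryCoef]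
  split_ifs <;> ring

/-- The resolvent applied to a spin vector. -/
noncomputable def resSpin (z : ℂ) (g : Disorder n) (σ : Fin n → Bool) (c : Fin n) : ℂ :=
  ∑ d, res z (coupling g) c d * (spins σ d : ℂ)

/-- The quadratic form of the resolvent at a spin vector. -/
noncomputable def resForm (z : ℂ) (g : Disorder n) (σ : Fin n → Bool) : ℂ :=
  ∑ a, (spins σ a : ℂ) * resSpin z g σ a

lemma continuous_resSpin {z : ℂ} (hz : z.im ≠ 0) (σ : Fin n → Bool) (c : Fin n) :
    Continuous fun g => resSpin z g σ c :=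
  continuous_finsetSum _ fun d _ => (continuous_res hz c d).mul continuous_const

lemma continuous_arr : Continuous (arr : (Fin n × Fin n → ℝ) → Disorder n) := by
  unfold arr; fun_prop

lemma hasDerivAt_resForm {z : ℂ} (hz : z.im ≠ 0) (σ : Fin n → Bool) (y v : Fin n × Fin n → ℝ) :
    HasDerivAt (fun s : ℝ => resForm z (arr fun i => y i + s * v i) σ)
      (∑ c, ∑ d, resSpin z (arr y) σ c * (coupling (arr v) c d : ℂ) * resSpin z (arr y) σ d) 0 := by
  set L : ℝ → Disorder n := fun s => arr fun i => y i + s * v i with hL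
  have h0 : L 0 = arr y := by simp [L]
  have hdiff : ∀ s, resForm z (L s) σ - resForm z (L 0) σ
      = (s : ℂ) * ∑ c, ∑ d, resSpin z (L s) σ c * (coupling (arr v) c d : ℂ)
          * resSpin z (L 0) σ d := by
    intro s
    have h := fun a b => congrFun (congrFun
      (res_sub_res (z := z) (z' := z) (coupling_isSymm (L s)) (coupling_isSymm (L 0)) hz hz) a) b
    have hd : ∀ c d, (shiftMat z (coupling (L 0)) - shiftMat z (coupling (L s))) c d
        = (s : ℂ) * (coupling (arr v) c d : ℂ) := fun c d => by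
      simp only [shiftMat, Matrix.sub_apply, Matrix.map_apply, L, coupling_line]
      push_cast; ring
    have hsc : ∀ c, ∑ a, (spins σ a : ℂ) * res z (coupling (L s)) a c
        = ∑ d, res z (coupling (L s)) c d * (spins σ d : ℂ) := fun c =>
      Finset.sum_congr rfl fun a _ => by rw [res_symm (coupling_isSymm _) a c, mul_comm]
    simp only [resForm, resSpin, ← Finset.sum_sub_distrib, ← mul_sub, ← sub_mul,
      ← Matrix.sub_apply, h]
    rw [bilin_expand, Finset.mul_sum]
    refine Finset.sum_congr rfl fun c _ => ?_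
    rw [Finset.mul_sum]
    refine Finset.sum_congr rfl fun d _ => ?_
    rw [hd, hsc]
    ring
  have hLc : Continuous L := continuous_arr.comp (by fun_prop)
  have hlim : Filter.Tendsto (fun s => ∑ c, ∑ d, resSpin z (L s) σ c * (coupling (arr v) c d : ℂ)
      * resSpin z (L 0) σ d) (𝓝[≠] 0) (𝓝 (∑ c, ∑ d, resSpin z (L 0) σ c
        * (coupling (arr v) c d : ℂ) * resSpin z (L 0) σ d)) := by
    refine (Continuous.tendsto ?_ 0).mono_left nhdsWithin_le_nhds
    exact continuous_finsetSum _ fun c _ => continuous_finsetSum _ fun d _ =>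
      (((continuous_resSpin hz σ c).comp hLc).mul continuous_const).mul continuous_const
  rw [← h0, hasDerivAt_iff_tendsto_slope]
  refine hlim.congr' ?_
  filter_upwards [self_mem_nhdsWithin] with s hs
  have hs' : (s : ℂ) ≠ 0 := by exact_mod_cast hs
  simp only [slope_def_module, sub_zero]
  rw [show resForm z (arr fun i => y i + s * v i) σ = resForm z (L s) σ from rfl,
    show resForm z (arr fun i => y i + (0 : ℝ) * v i) σ = resForm z (L 0) σ from rfl, hdiff,
    Complex.real_smul, Complex.ofReal_inv, inv_mul_cancel_left₀ hs']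

/-- The kernel of the derivative of the exponent. -/
noncomputable def tiltKer (z : ℂ) (t : ℝ) (g : Disorder n) (σ : Fin n → Bool) (a b : Fin n) : ℝ :=
  spins σ a * spins σ b + t * (resSpin z g σ a * resSpin z g σ b).im

/-- The exponent of the perturbed pressure. -/
noncomputable def tiltExp (β : ℝ) (z : ℂ) (t : ℝ) (g : Disorder n) (σ : Fin n → Bool) : ℝ :=
  β * hamiltonian n g σ + t * tiltForm β z g σ

lemma tiltExp_eq (β : ℝ) (z : ℂ) (t : ℝ) (g : Disorder n) (σ : Fin n → Bool) :
    tiltExp β z t g σ = β / 2 * ((∑ a, ∑ b, spins σ a * spins σ b * coupling g a b)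
      + t * (resForm z g σ).im) := by
  rw [tiltExp, ← quad_coupling, tiltForm]
  simp only [resForm, resSpin, Finset.mul_sum, Complex.im_sum, mul_add]
  congr 1
  refine Finset.sum_congr rfl fun a _ => Finset.sum_congr rfl fun b _ => ?_
  simp only [Complex.mul_im, Complex.ofReal_re, Complex.ofReal_im]
  ring

lemma hasDerivAt_tiltExp (β : ℝ) {z : ℂ} (hz : z.im ≠ 0) (t : ℝ) (σ : Fin n → Bool)
    (y v : Fin n × Fin n → ℝ) :
    HasDerivAt (fun s : ℝ => tiltExp β z t (arr fun i => y i + s * v i) σ)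
      (∑ e, v e * (β * entryCoef e * tiltKer z t (arr y) σ e.1 e.2)) 0 := by
  have hq : HasDerivAt (fun s : ℝ => ∑ a, ∑ b, spins σ a * spins σ b
      * coupling (arr fun i => y i + s * v i) a b)
      (∑ a, ∑ b, spins σ a * spins σ b * coupling (arr v) a b) 0 := by
    simp only [coupling_line]
    exact HasDerivAt.fun_sum fun a _ => HasDerivAt.fun_sum fun b _ => by
      simpa using (((hasDerivAt_id (0 : ℝ)).mul_const (coupling (arr v) a b)).const_add
        (coupling (arr y) a b)).const_mul (spins σ a * spins σ b)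
  have hr := Complex.imCLM.hasFDerivAt.comp_hasDerivAt (0 : ℝ) (hasDerivAt_resForm hz σ y v)
  simp only [Complex.imCLM_apply, Function.comp_def] at hr
  simp only [tiltExp_eq]
  refine ((hq.add (hr.const_mul t)).const_mul (β / 2)).congr_deriv ?_
  have hsum := sum_sym_coupling (fun a b => tiltKer z t (arr y) σ a b)
    (fun a b => by simp only [tiltKer, mul_comm (resSpin z (arr y) σ a)]; ring) (arr v)
  have e : ∑ a, ∑ b, tiltKer z t (arr y) σ a b * coupling (arr v) a b
      = (∑ a, ∑ b, spins σ a * spins σ b * coupling (arr v) a b) + t * (∑ c, ∑ d,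
          resSpin z (arr y) σ c * (coupling (arr v) c d : ℂ) * resSpin z (arr y) σ d).im := by
    simp only [tiltKer, add_mul, Finset.sum_add_distrib, Complex.im_sum, Finset.mul_sum]
    congr 1
    refine Finset.sum_congr rfl fun a _ => Finset.sum_congr rfl fun b _ => ?_
    simp only [Complex.mul_im, Complex.mul_re, Complex.ofReal_re, Complex.ofReal_im]
    ring
  rw [← e, hsum]
  simp only [Finset.mul_sum, arr]
  exact Finset.sum_congr rfl fun p _ => by ring

/-- The weights of the perturbed pressure. -/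
noncomputable def tiltWgt (β : ℝ) (z : ℂ) (t : ℝ) (g : Disorder n) (σ : Fin n → Bool) : ℝ :=
  Real.exp (tiltExp β z t g σ) / ∑ τ, Real.exp (tiltExp β z t g τ)

/-- The gradient of the perturbed pressure. -/
noncomputable def tiltGrad (β : ℝ) (z : ℂ) (t : ℝ) (e : Fin n × Fin n) (y : Fin n × Fin n → ℝ) :
    ℝ :=
  (1 / (n : ℝ)) * ∑ σ, tiltWgt β z t (arr y) σ * (β * entryCoef e * tiltKer z t (arr y) σ e.1 e.2)

lemma hasDerivAt_tiltPressure (β : ℝ) {z : ℂ} (hz : z.im ≠ 0) (t : ℝ)
    (y v : Fin n × Fin n → ℝ) :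
    HasDerivAt (fun s : ℝ => tiltPressure n β z t (arr fun i => y i + s * v i))
      (∑ e, v e * tiltGrad β z t e y) 0 := by
  have hS : (∑ σ : Fin n → Bool,
      Real.exp (tiltExp β z t (arr fun i => y i + (0 : ℝ) * v i) σ)) ≠ 0 :=
    (Finset.sum_pos (fun σ _ => Real.exp_pos _) Finset.univ_nonempty).ne'
  have h := ((((HasDerivAt.fun_sum (u := (Finset.univ : Finset (Fin n → Bool))) fun σ _ =>
    (hasDerivAt_tiltExp β hz t σ y v).exp).const_mul (1 / (2 : ℝ) ^ n)).log
      (mul_ne_zero (by positivity) hS)).const_mul (1 / (n : ℝ)))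
  simp only [zero_mul, add_zero] at h
  simp only [tiltPressure_eq]
  refine h.congr_deriv ?_
  rw [mul_div_mul_left _ _ (by positivity : (1 / (2 : ℝ) ^ n) ≠ 0)]
  simp only [tiltGrad, tiltWgt, Finset.mul_sum, Finset.sum_div]
  conv_rhs => rw [Finset.sum_comm]
  refine Finset.sum_congr rfl fun σ _ => Finset.sum_congr rfl fun e _ => ?_
  ring

lemma continuous_tiltGrad (β : ℝ) {z : ℂ} (hz : z.im ≠ 0) (t : ℝ) (e : Fin n × Fin n) :
    Continuous (tiltGrad β z t e) := by
  have hq : ∀ σ : Fin n → Bool, Continuous fun g : Disorder n => tiltExp β z t g σ := fun σ => by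
    simp only [tiltExp_eq, resForm]
    refine continuous_const.mul ((continuous_finsetSum _ fun a _ => continuous_finsetSum _
      fun b _ => continuous_const.mul ?_).add (continuous_const.mul (Complex.continuous_im.comp
        (continuous_finsetSum _ fun a _ => continuous_const.mul (continuous_resSpin hz σ a)))))
    simp only [coupling, Matrix.of_apply]
    exact continuous_const.mul (continuous_sym a b)
  have hk : ∀ σ : Fin n → Bool, Continuous fun g : Disorder n => tiltKer z t g σ e.1 e.2 :=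
    fun σ => continuous_const.add (continuous_const.mul (Complex.continuous_im.comp
      ((continuous_resSpin hz σ _).mul (continuous_resSpin hz σ _))))
  unfold tiltGrad tiltWgt
  exact continuous_const.mul (continuous_finsetSum _ fun σ _ =>
    (((hq σ).rexp.div (continuous_finsetSum _ fun τ _ => (hq τ).rexp)
      fun g => (Finset.sum_pos (fun σ _ => Real.exp_pos _) Finset.univ_nonempty).ne').comp
        continuous_arr).mul (continuous_const.mul ((hk σ).comp continuous_arr)))

lemma sum_sq_tiltGrad_le (β : ℝ) {z : ℂ} (hz : z.im ≠ 0) (t : ℝ) (y : Fin n × Fin n → ℝ) :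
    ∑ e, tiltGrad β z t e y ^ 2 ≤ 2 * β ^ 2 * (1 + t ^ 2 / z.im ^ 4) / n := by
  rcases Nat.eq_zero_or_pos n with rfl | hn
  · simp
  have hn' : (0 : ℝ) < n := Nat.cast_pos.2 hn
  set w := tiltWgt β z t (arr y)
  have hw0 : ∀ σ, 0 ≤ w σ := fun σ =>
    div_nonneg (Real.exp_pos _).le (Finset.sum_nonneg fun τ _ => (Real.exp_pos _).le)
  have hw1 : ∑ σ, w σ = 1 := by
    simp only [w, tiltWgt, ← Finset.sum_div]
    exact div_self (Finset.sum_pos (fun σ _ => Real.exp_pos _) Finset.univ_nonempty).ne'
  set m : (Fin n × Fin n) → (Fin n → Bool) → ℝ := fun e σ =>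
    β * entryCoef e * tiltKer z t (arr y) σ e.1 e.2
  have hm : ∀ σ, ∑ e, m e σ ^ 2 ≤ 2 * β ^ 2 * n * (1 + t ^ 2 / z.im ^ 4) := by
    intro σ
    have hc : ∀ e : Fin n × Fin n, entryCoef e ^ 2 ≤ (n : ℝ)⁻¹ := fun e => by
      unfold entryCoef; split_ifs
      · rw [inv_pow, Real.sq_sqrt hn'.le]
      · rw [sq, zero_mul]; positivity
    set u := resSpin z (arr y) σ
    have hu : ∑ c, ‖u c‖ ^ 2 ≤ n / z.im ^ 2 := by
      rw [le_div_iff₀ (sq_pos_of_ne_zero hz), mul_comm]
      refine (le_of_eq ?_).trans ((res_mulVec_bound (coupling_isSymm (arr y)) hz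
        (fun d => (spins σ d : ℂ))).trans (le_of_eq ?_))
      · rfl
      · have : ∀ d, spins σ d ^ 2 = 1 := fun d => by
          cases h : σ d <;> simp [spins, spin, h]
        simp [this]
    have hpt : ∀ e : Fin n × Fin n, m e σ ^ 2
        ≤ β ^ 2 / n * (2 + 2 * t ^ 2 * (‖u e.1‖ ^ 2 * ‖u e.2‖ ^ 2)) := by
      intro e
      have h1 : tiltKer z t (arr y) σ e.1 e.2 ^ 2
          ≤ 2 + 2 * t ^ 2 * (‖u e.1‖ ^ 2 * ‖u e.2‖ ^ 2) := by
        rw [tiltKer]
        have hs : (spins σ e.1 * spins σ e.2) ^ 2 = 1 := by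
          cases h : σ e.1 <;> cases h' : σ e.2 <;> simp [spins, spin, h, h']
        have hi : (u e.1 * u e.2).im ^ 2 ≤ ‖u e.1‖ ^ 2 * ‖u e.2‖ ^ 2 := by
          rw [← mul_pow, ← norm_mul, ← sq_abs]
          exact pow_le_pow_left₀ (abs_nonneg _) (Complex.abs_im_le_norm _) 2
        refine (add_sq_le).trans ?_
        rw [hs, mul_add, mul_pow t]
        have := mul_le_mul_of_nonneg_left hi (sq_nonneg t)
        linarith
      simp only [m, mul_pow]
      rw [div_eq_mul_inv]
      exact mul_le_mul (mul_le_mul_of_nonneg_left (hc e) (sq_nonneg β)) h1 (sq_nonneg _)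
        (by positivity)
    refine (Finset.sum_le_sum fun e _ => hpt e).trans ?_
    rw [← Finset.mul_sum, Finset.sum_add_distrib, ← Finset.mul_sum, Fintype.sum_prod_type,
      Fintype.sum_prod_type]
    simp only [← Finset.mul_sum, ← Finset.sum_mul, Finset.sum_const, Finset.card_univ,
      Fintype.card_fin, nsmul_eq_mul]
    have hU : (∑ c, ‖u c‖ ^ 2) * ∑ c, ‖u c‖ ^ 2 ≤ n / z.im ^ 2 * (n / z.im ^ 2) :=
      mul_le_mul hu hu (Finset.sum_nonneg fun _ _ => sq_nonneg _) (by positivity)
    calc β ^ 2 / n * (n * (n * 2) + 2 * t ^ 2 * ((∑ c, ‖u c‖ ^ 2) * ∑ c, ‖u c‖ ^ 2))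
        ≤ β ^ 2 / n * (n * (n * 2) + 2 * t ^ 2 * (n / z.im ^ 2 * (n / z.im ^ 2))) := by gcongr
      _ = _ := by field_simp
  have hJ : ∀ e, (∑ σ, w σ * m e σ) ^ 2 ≤ ∑ σ, w σ * m e σ ^ 2 := fun e => by
    exact (Even.convexOn_pow (𝕜 := ℝ) even_two).map_sum_le (fun σ _ => hw0 σ) hw1
      (fun σ _ => Set.mem_univ _)
  calc ∑ e, tiltGrad β z t e y ^ 2
      = (1 / (n : ℝ)) ^ 2 * ∑ e, (∑ σ, w σ * m e σ) ^ 2 := by
        rw [Finset.mul_sum]; exact Finset.sum_congr rfl fun e _ => by rw [← mul_pow]; rfl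
    _ ≤ (1 / (n : ℝ)) ^ 2 * ∑ σ, w σ * ∑ e, m e σ ^ 2 := by
        refine mul_le_mul_of_nonneg_left ((Finset.sum_le_sum fun e _ => hJ e).trans_eq ?_)
          (sq_nonneg _)
        rw [Finset.sum_comm]; simp only [Finset.mul_sum]
    _ ≤ (1 / (n : ℝ)) ^ 2 * ∑ σ, w σ * (2 * β ^ 2 * n * (1 + t ^ 2 / z.im ^ 4)) := by
        exact mul_le_mul_of_nonneg_left (Finset.sum_le_sum fun σ _ =>
          mul_le_mul_of_nonneg_left (hm σ) (hw0 σ)) (sq_nonneg _)
    _ = _ := by rw [← Finset.sum_mul, hw1]; field_simp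

theorem variance_tiltPressure_le (β : ℝ) {z : ℂ} (hz : z.im ≠ 0) (t : ℝ) :
    variance (tiltPressure n β z t) (disorderLaw n)
      ≤ Real.pi ^ 2 / 8 * (2 * β ^ 2 * (1 + t ^ 2 / z.im ^ 4) / n) := by
  set f : (Fin n × Fin n → ℝ) → ℝ := fun y => tiltPressure n β z t (arr y) with hf
  set V := 2 * β ^ 2 * (1 + t ^ 2 / z.im ^ 4) / (n : ℝ)
  have hV : 0 ≤ V := by positivity
  have hg : ∀ e y, |tiltGrad β z t e y| ≤ Real.sqrt V := fun e y => Real.le_sqrt_of_sq_le (by
    rw [sq_abs]
    exact (Finset.single_le_sum (f := fun e => tiltGrad β z t e y ^ 2) (fun e _ => sq_nonneg _)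
      (Finset.mem_univ e)).trans (sum_sq_tiltGrad_le β hz t y))
  have hb : ∀ y, |f y| ≤ (|f 0| + Real.sqrt V) * Real.exp (1 * ∑ i, |y i|) := by
    intro y
    have hd : ∀ s ∈ Set.Icc (0 : ℝ) 1, HasDerivWithinAt (fun s => f fun i => s * y i)
        (∑ e, y e * tiltGrad β z t e fun i => s * y i) (Set.Icc 0 1) s := by
      intro s _
      have h := hasDerivAt_tiltPressure β hz t (fun i => s * y i) y
      rw [show (0 : ℝ) = s - s by ring] at h
      refine ((HasDerivAt.comp_sub_const (x := s) (a := s) h).congr_of_eventuallyEq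
        (Eventually.of_forall fun u => ?_)).hasDerivWithinAt
      simp only [f]
      exact congrArg (fun w => tiltPressure n β z t (arr w)) (funext fun i => by ring)
    have h1 := norm_image_sub_le_of_norm_deriv_le_segment_01' hd
      (C := Real.sqrt V * ∑ i, |y i|) fun s _ => by
        rw [Real.norm_eq_abs, Finset.mul_sum]
        refine (Finset.abs_sum_le_sum_abs _ _).trans (Finset.sum_le_sum fun e _ => ?_)
        rw [abs_mul, mul_comm (Real.sqrt V)]
        exact mul_le_mul_of_nonneg_left (hg _ _) (abs_nonneg _)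
    simp only [Real.norm_eq_abs, one_mul, zero_mul] at h1
    have he : ∑ i, |y i| ≤ Real.exp (∑ i, |y i|) :=
      le_trans (by linarith) (Real.add_one_le_exp _)
    have he1 : 1 ≤ Real.exp (∑ i, |y i|) :=
      Real.one_le_exp (Finset.sum_nonneg fun _ _ => abs_nonneg _)
    rw [show (fun i : Fin n × Fin n => y i) = y from rfl,
      show (fun _ : Fin n × Fin n => (0 : ℝ)) = 0 from rfl] at h1
    have h2 := abs_sub_abs_le_abs_sub (f y) (f 0)
    rw [one_mul]
    nlinarith [abs_nonneg (f 0), Real.sqrt_nonneg V]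
  have hP := Vale.Agent.P166.Parisi.GaussPoincare.gauss_poincare (f := f) (g := tiltGrad β z t)
    (fun y v => hasDerivAt_tiltPressure β hz t y v) (fun e => continuous_tiltGrad β hz t e)
    zero_le_one hb (fun e y => (hg e y).trans (le_trans
      (le_add_of_nonneg_left (abs_nonneg _)) (le_mul_of_one_le_right (by positivity)
        (Real.one_le_exp (by rw [one_mul]; exact Finset.sum_nonneg fun _ _ => abs_nonneg _)))))
  have hmp : MeasurePreserving (arr (n := n)) (gauss (Fin n × Fin n)) (disorderLaw n) :=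
    measurePreserving_disorder n
  have hmeas := measurable_tiltPressure (n := n) β hz t
  have hvar : variance (tiltPressure n β z t) (disorderLaw n)
      = variance f (gauss (Fin n × Fin n)) := by
    conv_lhs => rw [← hmp.map_eq]
    exact variance_map hmeas.aemeasurable hmp.measurable.aemeasurable
  rw [hvar]
  refine hP.trans (mul_le_mul_of_nonneg_left ?_ (by positivity))
  have hi : ∀ e, Integrable (fun y => tiltGrad β z t e y ^ 2) (gauss (Fin n × Fin n)) := fun e =>
    Integrable.of_bound ((continuous_tiltGrad β hz t e).pow 2).aestronglyMeasurable V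
      (ae_of_all _ fun y => by
        rw [Real.norm_eq_abs, abs_pow]
        exact (pow_le_pow_left₀ (abs_nonneg _) (hg e y) 2).trans_eq (Real.sq_sqrt hV))
  rw [← integral_finsetSum _ fun e _ => hi e]
  exact (integral_mono (integrable_finsetSum _ fun e _ => hi e) (integrable_const V)
    fun y => sum_sq_tiltGrad_le β hz t y).trans_eq (by simp)

theorem tiltPressure_abs_dev {β : ℝ} (hβ : 0 ≤ β) {z : ℂ} (hz : z.im ≠ 0) {t : ℝ} (ht : 0 ≤ t) :
    Tendsto (fun n => ∫ g, |tiltPressure n β z t g - ∫ h, tiltPressure n β z t h ∂disorderLaw n|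
      ∂disorderLaw n) atTop (𝓝 0) := by
  set C := Real.pi ^ 2 / 8 * (2 * β ^ 2 * (1 + t ^ 2 / z.im ^ 4))
  have hC : Tendsto (fun n : ℕ => Real.sqrt (C / n)) atTop (𝓝 0) := by
    simpa using (tendsto_const_div_atTop_nhds_zero_nat C).sqrt
  refine squeeze_zero (fun n => integral_nonneg fun g => abs_nonneg _) (fun n => ?_) hC
  have hm := measurable_tiltPressure (n := n) β hz t
  have h2 : MemLp (tiltPressure n β z t) 2 (disorderLaw n) := by
    have h0 : MemLp (tiltPressure n β z 0) 2 (disorderLaw n) := by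
      rw [show tiltPressure n β z 0 = fun g => (1 / (n : ℝ)) * (freeEnergy n β g - n * Real.log 2)
        from funext (tiltPressure_zero β z)]
      exact ((memLp_freeEnergy β).sub (memLp_const _)).const_mul _
    have hd : MemLp (fun g => tiltPressure n β z t g - tiltPressure n β z 0 g) 2 (disorderLaw n) := by
      refine MemLp.of_bound (hm.sub (measurable_tiltPressure β hz 0)).aestronglyMeasurable
        (1 / (n : ℝ) * (t * (β / 2 * ((n : ℝ) * n * |z.im|⁻¹)))) (ae_of_all _ fun g => ?_)
      exact tiltPressure_diff_le hβ hz ht g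
    exact (memLp_congr_ae (ae_of_all _ fun g => by simp)).1 (hd.add h0)
  have hY : MemLp (fun g => |tiltPressure n β z t g
      - ∫ h, tiltPressure n β z t h ∂disorderLaw n|) 2 (disorderLaw n) :=
    (h2.sub (memLp_const _)).abs
  refine Real.le_sqrt_of_sq_le ?_
  have hv := variance_nonneg (fun g => |tiltPressure n β z t g
      - ∫ h, tiltPressure n β z t h ∂disorderLaw n|) (disorderLaw n)
  rw [variance_eq_sub hY] at hv
  simp only [Pi.pow_apply, sq_abs] at hv
  rw [← variance_eq_integral hm.aemeasurable] at hv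
  have := variance_tiltPressure_le (n := n) β hz t
  rw [show C / n = Real.pi ^ 2 / 8 * (2 * β ^ 2 * (1 + t ^ 2 / z.im ^ 4) / n) by
    simp only [C]; ring]
  linarith

end Vale.Agent.P146.Gap
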