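import Vale.Agent.P146.Gap.Heat
import Vale.Agent.P146.Gap.Cert

/-!
The gap inequality `E [c² - 2 u³ - 2 u² + 2 m²] ≥ 0` for a Gaussian law tilted by `exp w`.
-/

namespace Vale.Agent.P146.Gap

open MeasureTheory ProbabilityTheory Real Filter Topology

/-- Continuous functions of exponential growth. -/
def Gr (f : ℝ → ℝ) : Prop := Continuous f ∧ ∃ C k : ℝ, ∀ y, |f y| ≤ C * exp (k * |y|)

lemma gr_bdd {f : ℝ → ℝ} (hf : Continuous f) {C : ℝ} (h : ∀ y, |f y| ≤ C) : Gr f :=
  ⟨hf, C, 0, fun y => by simpa using h y⟩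

lemma gr_const (c : ℝ) : Gr fun _ => c := gr_bdd continuous_const fun _ => le_rfl

lemma gr_id : Gr fun y => y :=
  ⟨continuous_id, 1, 1, fun y => by simpa using (by linarith [add_one_le_exp |y|] : |y| ≤ exp |y|)⟩

lemma Gr.mul {f g : ℝ → ℝ} (hf : Gr f) (hg : Gr g) : Gr fun y => f y * g y := by
  obtain ⟨hfc, C, k, h⟩ := hf
  obtain ⟨hgc, D, l, h'⟩ := hg
  refine ⟨hfc.mul hgc, C * D, k + l, fun y => ?_⟩
  rw [abs_mul, add_mul, exp_add]
  calc |f y| * |g y| ≤ (C * exp (k * |y|)) * (D * exp (l * |y|)) :=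
        mul_le_mul (h y) (h' y) (abs_nonneg _) ((abs_nonneg _).trans (h y))
    _ = _ := by ring

lemma Gr.add {f g : ℝ → ℝ} (hf : Gr f) (hg : Gr g) : Gr fun y => f y + g y := by
  obtain ⟨hfc, C, k, h⟩ := hf
  obtain ⟨hgc, D, l, h'⟩ := hg
  refine ⟨hfc.add hgc, |C| + |D|, max k l, fun y => ?_⟩
  refine (abs_add_le _ _).trans ?_
  rw [add_mul]
  refine add_le_add ((h y).trans ?_) ((h' y).trans ?_)
  · exact mul_le_mul (le_abs_self C) (exp_le_exp.2
      (mul_le_mul_of_nonneg_right (le_max_left _ _) (abs_nonneg y))) (exp_pos _).le (abs_nonneg C)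
  · exact mul_le_mul (le_abs_self D) (exp_le_exp.2
      (mul_le_mul_of_nonneg_right (le_max_right _ _) (abs_nonneg y))) (exp_pos _).le (abs_nonneg D)

lemma Gr.neg {f : ℝ → ℝ} (hf : Gr f) : Gr fun y => -f y := by
  simpa using (gr_const (-1)).mul hf

lemma Gr.sub {f g : ℝ → ℝ} (hf : Gr f) (hg : Gr g) : Gr fun y => f y - g y := by
  simpa [sub_eq_add_neg] using hf.add hg.neg

lemma Gr.pow {f : ℝ → ℝ} (hf : Gr f) : ∀ n : ℕ, Gr fun y => f y ^ n
  | 0 => by simpa using gr_const 1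
  | n + 1 => by simpa [pow_succ] using (hf.pow n).mul hf

lemma Gr.integrable {f : ℝ → ℝ} (hf : Gr f) : Integrable f (gaussianReal 0 1) := by
  obtain ⟨hc, C, k, h⟩ := hf
  exact integrable_of_exp_bound hc.aestronglyMeasurable h

variable {w w1 w2 w3 w4 : ℝ → ℝ}

/-- The hypotheses on the tilt. -/
structure Tilt (w w1 w2 w3 w4 : ℝ → ℝ) : Prop where
  d1 : ∀ y, HasDerivAt w (w1 y) y
  d2 : ∀ y, HasDerivAt w1 (w2 y) y
  d3 : ∀ y, HasDerivAt w2 (w3 y) y
  d4 : ∀ y, HasDerivAt w3 (w4 y) y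
  c4 : Continuous w4
  bound : ∃ L, ∀ y, |w1 y| ≤ L ∧ |w2 y| ≤ L ∧ |w3 y| ≤ L ∧ |w4 y| ≤ L
  odd : ∀ y, w1 (-y) = -w1 y
  conv : ∀ y, 0 ≤ w2 y
  star : ∀ y, 0 ≤ y → y * w2 y ≤ w1 y

namespace Tilt

/-- `R y = w' y / y`. -/
noncomputable def R (w2 : ℝ → ℝ) (y : ℝ) : ℝ := ∫ a in (0:ℝ)..1, w2 (a * y)

/-- Its derivatives. -/
noncomputable def P (w3 : ℝ → ℝ) (y : ℝ) : ℝ := ∫ a in (0:ℝ)..1, a * w3 (a * y)

noncomputable def S (w4 : ℝ → ℝ) (y : ℝ) : ℝ := ∫ a in (0:ℝ)..1, a ^ 2 * w4 (a * y)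

lemma abs_scaled_le {f : ℝ → ℝ} {L : ℝ} (hb : ∀ y, |f y| ≤ L) (n : ℕ) (y : ℝ) :
    |∫ a in (0:ℝ)..1, a ^ n * f (a * y)| ≤ L := by
  have h := intervalIntegral.norm_integral_le_of_norm_le_const (a := (0:ℝ)) (b := 1) (C := L)
    (f := fun a => a ^ n * f (a * y)) fun a ha => by
      rw [Set.uIoc_of_le zero_le_one] at ha
      rw [norm_eq_abs, abs_mul, abs_pow, abs_of_pos ha.1]
      exact (mul_le_of_le_one_left (abs_nonneg _) (pow_le_one₀ ha.1.le ha.2)).trans (hb _)
  simpa using h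

lemma hasDerivAt_scaled {f f' : ℝ → ℝ} (hd : ∀ y, HasDerivAt f (f' y) y) (hc' : Continuous f')
    {L : ℝ} (hb : ∀ y, |f' y| ≤ L) (n : ℕ) (y : ℝ) :
    HasDerivAt (fun u => ∫ a in (0:ℝ)..1, a ^ n * f (a * u))
      (∫ a in (0:ℝ)..1, a ^ (n + 1) * f' (a * y)) y := by
  have hc : Continuous f := continuous_iff_continuousAt.2 fun u => (hd u).continuousAt
  refine (intervalIntegral.hasDerivAt_integral_of_dominated_loc_of_deriv_le (𝕜 := ℝ)
    (F := fun u a => a ^ n * f (a * u)) (F' := fun u a => a ^ (n + 1) * f' (a * u))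
    (bound := fun _ => L) (Metric.ball_mem_nhds y one_pos)
    (.of_forall fun u => Continuous.aestronglyMeasurable (by fun_prop))
    ((by fun_prop : Continuous fun a => a ^ n * f (a * y)).intervalIntegrable 0 1)
    (Continuous.aestronglyMeasurable (by fun_prop))
    (.of_forall fun a ha u _ => ?_) intervalIntegrable_const
    (.of_forall fun a _ u _ => ?_)).2
  · rw [Set.uIoc_of_le zero_le_one] at ha
    rw [norm_eq_abs, abs_mul, abs_pow, abs_of_pos ha.1]
    exact (mul_le_of_le_one_left (abs_nonneg _) (pow_le_one₀ ha.1.le ha.2)).trans (hb _)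
  · exact (((hd (a * u)).comp u (by simpa using (hasDerivAt_id u).const_mul a)).const_mul
      (a ^ n)).congr_deriv (by ring)

variable (h : Tilt w w1 w2 w3 w4)
include h

lemma c3 : Continuous w3 := continuous_iff_continuousAt.2 fun u => (h.d4 u).continuousAt

lemma c2 : Continuous w2 := continuous_iff_continuousAt.2 fun u => (h.d3 u).continuousAt

lemma hasDerivAt_R (y : ℝ) : HasDerivAt (R w2) (P w3 y) y := by
  obtain ⟨L, hL⟩ := h.bound
  have := hasDerivAt_scaled h.d3 h.c3 (fun u => (hL u).2.2.1) 0 y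
  show HasDerivAt (fun u => R w2 u) (P w3 y) y
  simpa [R, P] using this

lemma hasDerivAt_P (y : ℝ) : HasDerivAt (P w3) (S w4 y) y := by
  obtain ⟨L, hL⟩ := h.bound
  have := hasDerivAt_scaled h.d4 h.c4 (fun u => (hL u).2.2.2) 1 y
  show HasDerivAt (fun u => P w3 u) (S w4 y) y
  simpa [P, S] using this

lemma w1_zero : w1 0 = 0 := by
  have := h.odd 0
  rw [neg_zero] at this
  linarith

lemma mul_R (y : ℝ) : y * R w2 y = w1 y := by
  rcases eq_or_ne y 0 with rfl | hy
  · rw [zero_mul, h.w1_zero]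
  have hd : ∀ a ∈ Set.uIcc (0:ℝ) 1, HasDerivAt (fun a => w1 (a * y)) (y * w2 (a * y)) a := fun a _ =>
    ((h.d2 (a * y)).comp a (by simpa using (hasDerivAt_id a).mul_const y)).congr_deriv (mul_comm _ _)
  have := intervalIntegral.integral_eq_sub_of_hasDerivAt hd
    ((by have := h.c2; fun_prop : Continuous fun a => y * w2 (a * y)).intervalIntegrable 0 1)
  rw [intervalIntegral.integral_const_mul] at this
  simpa [R, h.w1_zero] using this

lemma R_nonneg (y : ℝ) : 0 ≤ R w2 y :=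
  intervalIntegral.integral_nonneg zero_le_one fun a _ => h.conv _

lemma w2_eq (y : ℝ) : w2 y = R w2 y + y * P w3 y := by
  have h1 := ((hasDerivAt_id y).mul (h.hasDerivAt_R y))
  have h2 : HasDerivAt w1 (1 * R w2 y + id y * P w3 y) y :=
    h1.congr_of_eventuallyEq (.of_forall fun u => (h.mul_R u).symm)
  simpa using (h.d2 y).unique h2

lemma w3_eq (y : ℝ) : w3 y = 2 * P w3 y + y * S w4 y := by
  have h1 := (h.hasDerivAt_R y).add ((hasDerivAt_id y).mul (h.hasDerivAt_P y))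
  have h2 : HasDerivAt w2 (P w3 y + (1 * P w3 y + id y * S w4 y)) y :=
    h1.congr_of_eventuallyEq (.of_forall fun u => h.w2_eq u)
  have := (h.d3 y).unique h2
  simp only [id_eq, one_mul] at this
  linarith

lemma w2_even (y : ℝ) : w2 (-y) = w2 y := by
  have h1 : HasDerivAt (fun u => w1 (-u)) (w2 (-y) * -1) y :=
    (h.d2 (-y)).comp y (hasDerivAt_neg y)
  have h2 : HasDerivAt (fun u => w1 (-u)) (-w2 y) y := by
    simp only [h.odd]; exact (h.d2 y).neg
  have := h1.unique h2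
  linarith

lemma mul_P_nonpos (y : ℝ) : y * P w3 y ≤ 0 := by
  have e : y * (y * P w3 y) = y * w2 y - w1 y := by rw [h.w2_eq y, ← h.mul_R y]; ring
  rcases lt_trichotomy y 0 with hy | rfl | hy
  · have hs := h.star (-y) (by linarith)
    rw [h.w2_even, h.odd] at hs
    exact le_of_mul_le_mul_left (by linarith : (-y) * (y * P w3 y) ≤ (-y) * 0) (by linarith)
  · simp
  · have hs := h.star y hy.le
    exact le_of_mul_le_mul_left (by linarith : y * (y * P w3 y) ≤ y * 0) hy

/-- The gap inequality. -/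
theorem gap_integral_nonneg :
    0 ≤ ∫ y, exp (w y) * (w3 y ^ 2 - 2 * w2 y ^ 3 - 2 * w2 y ^ 2 + 2 * w1 y ^ 2) ∂(gaussianReal 0 1) := by
  obtain ⟨L, hL⟩ := h.bound
  have cR : Continuous (R w2) := continuous_iff_continuousAt.2 fun u => (h.hasDerivAt_R u).continuousAt
  have cP : Continuous (P w3) := continuous_iff_continuousAt.2 fun u => (h.hasDerivAt_P u).continuousAt
  have cS : Continuous (S w4) := by
    have := h.c4
    exact intervalIntegral.continuous_parametric_intervalIntegral_of_continuous'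
      (f := fun y a => a ^ 2 * w4 (a * y)) (by unfold Function.uncurry; fun_prop) 0 1
  have gR : Gr (R w2) := gr_bdd cR (C := L) fun y => by
    simpa [R] using abs_scaled_le (fun u => (hL u).2.1) 0 y
  have gP : Gr (P w3) := gr_bdd cP (C := L) fun y => by
    simpa [P] using abs_scaled_le (fun u => (hL u).2.2.1) 1 y
  have gS : Gr (S w4) := gr_bdd cS (C := L) fun y => abs_scaled_le (fun u => (hL u).2.2.2) 2 y
  have cw : Continuous w := continuous_iff_continuousAt.2 fun u => (h.d1 u).continuousAt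
  have hlip : ∀ u, |w u - w 0| ≤ L * |u| := fun u => by
    have := Convex.norm_image_sub_le_of_norm_hasDerivWithin_le (f := w) (f' := w1) (C := L)
      (fun v _ => (h.d1 v).hasDerivWithinAt) (fun v _ => (hL v).1) convex_univ (Set.mem_univ 0)
      (Set.mem_univ u)
    simpa using this
  have gE : Gr fun y => exp (w y) := ⟨cw.rexp, exp (w 0), L, fun y => by
    rw [abs_exp, ← exp_add, exp_le_exp]
    linarith [(abs_le.1 (hlip y)).2]⟩
  set G := fun y => testFn y (R w2 y) (P w3 y) with hG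
  set dG := fun y => testFnDeriv y (R w2 y) (P w3 y) (S w4 y) with hdG
  have hGd : ∀ y, HasDerivAt G (dG y) y := by
    intro y
    have hy := hasDerivAt_id' y
    have hR := h.hasDerivAt_R y
    have hP := h.hasDerivAt_P y
    refine ((((((hy.const_mul 2).mul (hR.pow 2)).add ((hy.const_mul 2).mul (hR.pow 3))).sub
      ((hy.const_mul 2).mul (hP.pow 2))).add (((hy.pow 3).const_mul (3/2)).mul hR |>.mul (hP.pow 2))).add
      ((((hy.pow 2).const_mul (3/2)).mul (hR.pow 2)).mul hP)).congr_deriv ?_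
    simp only [hdG, testFnDeriv, Pi.pow_apply, Pi.mul_apply, Nat.cast_ofNat, Nat.add_one_sub_one,
      pow_one, mul_one]
    ring
  have c := gr_const
  have gG : Gr G := by
    simp only [hG, testFn]
    exact ((((((c 2).mul gr_id).mul (gR.pow 2)).add (((c 2).mul gr_id).mul (gR.pow 3))).sub
      (((c 2).mul gr_id).mul (gP.pow 2))).add ((((c _).mul (gr_id.pow 3)).mul gR).mul (gP.pow 2))).add
      ((((c _).mul (gr_id.pow 2)).mul (gR.pow 2)).mul gP)
  have gdG : Gr dG := by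
    simp only [hdG, testFnDeriv]
    exact (((((c 2).mul (gR.pow 2)).add ((((c 4).mul gr_id).mul gR).mul gP)).add
      (((c 2).mul (gR.pow 3)).add ((((c 6).mul gr_id).mul (gR.pow 2)).mul gP))).sub
      (((c 2).mul (gP.pow 2)).add ((((c 4).mul gr_id).mul gP).mul gS))).add
      ((c _).mul ((((((c 3).mul (gr_id.pow 2)).mul gR).mul (gP.pow 2)).add
        ((gr_id.pow 3).mul (gP.pow 3))).add (((((c 2).mul (gr_id.pow 3)).mul gR).mul gP).mul gS)))
      |>.add ((c _).mul ((((((c 2).mul gr_id).mul (gR.pow 2)).mul gP).add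
        ((((c 2).mul (gr_id.pow 2)).mul gR).mul (gP.pow 2))).add
        (((gr_id.pow 2).mul (gR.pow 2)).mul gS)))
  have gw1 : Gr w1 := gr_bdd (continuous_iff_continuousAt.2 fun u => (h.d2 u).continuousAt)
    fun u => (hL u).1
  have gw2 : Gr w2 := gr_bdd h.c2 fun u => (hL u).2.1
  have gw3 : Gr w3 := gr_bdd h.c3 fun u => (hL u).2.2.1
  -- integration by parts
  have hF : ∀ y, HasDerivAt (fun u => G u * exp (w u)) ((dG y + w1 y * G y) * exp (w y)) y := fun y =>
    ((hGd y).mul (h.d1 y).exp).congr_deriv (by ring)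
  have hibp := Vale.Agent.P157.Parisi.gaussianReal_ibp hF (gG.mul gE).integrable
    (gr_id.mul (gG.mul gE)).integrable ((gdG.add (gw1.mul gG)).mul gE).integrable
  have g0 : Gr fun y => exp (w y) * (w3 y ^ 2 - 2 * w2 y ^ 3 - 2 * w2 y ^ 2 + 2 * w1 y ^ 2) :=
    gE.mul ((((gw3.pow 2).sub ((c 2).mul (gw2.pow 3))).sub ((c 2).mul (gw2.pow 2))).add
      ((c 2).mul (gw1.pow 2)))
  have gB : Gr fun y => (dG y + w1 y * G y) * exp (w y) := (gdG.add (gw1.mul gG)).mul gE
  have gC : Gr fun y => y * (G y * exp (w y)) := gr_id.mul (gG.mul gE)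
  have hzero : ∫ y, ((dG y + w1 y * G y) * exp (w y) - y * (G y * exp (w y))) ∂(gaussianReal 0 1) = 0 := by
    rw [integral_sub gB.integrable gC.integrable, hibp, sub_self]
  have hsum : ∫ y, exp (w y) * (w3 y ^ 2 - 2 * w2 y ^ 3 - 2 * w2 y ^ 2 + 2 * w1 y ^ 2) ∂(gaussianReal 0 1)
      = ∫ y, exp (w y) * (gapIntegrand y (R w2 y) (P w3 y) (S w4 y)
          + dG y + (y * R w2 y - y) * G y) ∂(gaussianReal 0 1) := by
    refine ((add_zero _).symm.trans (congrArg _ hzero.symm)).trans ?_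
    rw [← integral_add g0.integrable (gB.sub gC).integrable]
    refine integral_congr_ae (.of_forall fun y => ?_)
    simp only [gapIntegrand, h.mul_R, ← h.w2_eq, ← h.w3_eq]
    ring
  rw [hsum]
  refine integral_nonneg fun y => mul_nonneg (exp_pos _).le (le_trans (by positivity)
    (gap_pointwise (S w4 y) (h.R_nonneg y) ?_ (h.mul_P_nonpos y)))
  rw [← h.w2_eq]
  exact h.conv y

end Tilt

end Vale.Agent.P146.Gap
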