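import Vale.Agent.P146.Gap.Star
import Vale.Agent.P146.Gap.GapInt

/-!
Convexity of `t ↦ E[slope²](t) / t` along a single level and the resulting bound of its integral.
-/

namespace Vale.Agent.P146.Gap

open MeasureTheory ProbabilityTheory Real Filter Topology

variable {U : ℝ → ℝ} {x : ℝ}

/-- Continuous functions of `(s, y)`, `0 < s`, bounded on strips `s₀ ≤ s ≤ S`. -/
def Bd (f : ℝ → ℝ → ℝ) : Prop :=
  ContinuousOn (fun q : ℝ × ℝ => f q.1 q.2) {q | 0 < q.1} ∧
    ∀ s₀ S : ℝ, 0 < s₀ → ∃ M, ∀ s, s₀ ≤ s → s ≤ S → ∀ y, |f s y| ≤ M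

namespace Bd

variable {f g : ℝ → ℝ → ℝ}

lemma const (c : ℝ) : Bd fun _ _ => c :=
  ⟨continuousOn_const, fun _ _ _ => ⟨|c|, fun _ _ _ _ => le_rfl⟩⟩

lemma add (hf : Bd f) (hg : Bd g) : Bd fun s y => f s y + g s y := by
  refine ⟨hf.1.add hg.1, fun s₀ S h => ?_⟩
  obtain ⟨M, hM⟩ := hf.2 s₀ S h
  obtain ⟨N, hN⟩ := hg.2 s₀ S h
  exact ⟨M + N, fun s h1 h2 y => (abs_add_le _ _).trans (add_le_add (hM s h1 h2 y) (hN s h1 h2 y))⟩

lemma mul (hf : Bd f) (hg : Bd g) : Bd fun s y => f s y * g s y := by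
  refine ⟨hf.1.mul hg.1, fun s₀ S h => ?_⟩
  obtain ⟨M, hM⟩ := hf.2 s₀ S h
  obtain ⟨N, hN⟩ := hg.2 s₀ S h
  refine ⟨M * N, fun s h1 h2 y => ?_⟩
  rw [abs_mul]
  exact mul_le_mul (hM s h1 h2 y) (hN s h1 h2 y) (abs_nonneg _) ((abs_nonneg _).trans (hM s h1 h2 y))

lemma sub (hf : Bd f) (hg : Bd g) : Bd fun s y => f s y - g s y := by
  simpa [sub_eq_add_neg] using hf.add ((Bd.const (-1)).mul hg)

lemma pow (hf : Bd f) : ∀ n : ℕ, Bd fun s y => f s y ^ n
  | 0 => by simpa using Bd.const 1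
  | n + 1 => by simpa [pow_succ] using (hf.pow n).mul hf

lemma inv : Bd fun s _ => s⁻¹ :=
  ⟨continuousOn_fst.inv₀ fun _ hq => (ne_of_gt hq), fun s₀ S h => ⟨s₀⁻¹, fun s h1 _ _ => by
    rw [abs_of_pos (inv_pos.2 (h.trans_le h1))]
    exact inv_anti₀ h h1⟩⟩

lemma div_pow (hf : Bd f) (n : ℕ) : Bd fun s y => f s y / s ^ n := by
  simpa [div_eq_mul_inv, inv_pow] using hf.mul (Bd.inv.pow n)

end Bd

/-- Continuous functions of `(s, y)`, `0 < s`, of exponential growth on strips. -/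
def Gd (f : ℝ → ℝ → ℝ) : Prop :=
  ContinuousOn (fun q : ℝ × ℝ => f q.1 q.2) {q | 0 < q.1} ∧
    ∀ s₀ S : ℝ, 0 < s₀ → ∃ M k, 0 ≤ k ∧ ∀ s, s₀ ≤ s → s ≤ S → ∀ y, |f s y| ≤ M * exp (k * |y|)

lemma Bd.gd {f : ℝ → ℝ → ℝ} (hf : Bd f) : Gd f :=
  ⟨hf.1, fun s₀ S h => (hf.2 s₀ S h).elim fun M hM => ⟨M, 0, le_rfl, by simpa using hM⟩⟩

lemma Gd.add {f g : ℝ → ℝ → ℝ} (hf : Gd f) (hg : Gd g) : Gd fun s y => f s y + g s y := by
  refine ⟨hf.1.add hg.1, fun s₀ S h => ?_⟩
  obtain ⟨M, k, hk, hM⟩ := hf.2 s₀ S h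
  obtain ⟨N, l, hl, hN⟩ := hg.2 s₀ S h
  refine ⟨|M| + |N|, max k l, le_max_of_le_left hk, fun s h1 h2 y => ?_⟩
  refine (abs_add_le _ _).trans ?_
  rw [add_mul]
  refine add_le_add ((hM s h1 h2 y).trans ?_) ((hN s h1 h2 y).trans ?_) <;>
    refine mul_le_mul (le_abs_self _) (exp_le_exp.2 (mul_le_mul_of_nonneg_right ?_ (abs_nonneg y)))
      (exp_pos _).le (abs_nonneg _)
  exacts [le_max_left k l, le_max_right k l]

lemma Gd.mul {f g : ℝ → ℝ → ℝ} (hf : Gd f) (hg : Gd g) : Gd fun s y => f s y * g s y := by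
  refine ⟨hf.1.mul hg.1, fun s₀ S h => ?_⟩
  obtain ⟨M, k, hk, hM⟩ := hf.2 s₀ S h
  obtain ⟨N, l, hl, hN⟩ := hg.2 s₀ S h
  refine ⟨M * N, k + l, add_nonneg hk hl, fun s h1 h2 y => ?_⟩
  rw [abs_mul, add_mul, exp_add]
  calc |f s y| * |g s y| ≤ (M * exp (k * |y|)) * (N * exp (l * |y|)) :=
        mul_le_mul (hM s h1 h2 y) (hN s h1 h2 y) (abs_nonneg _)
          ((abs_nonneg _).trans (hM s h1 h2 y))
    _ = _ := by ring

lemma continuous_gauss_mix {φ : ℝ → ℝ} (hφ : Continuous φ) {C : ℝ}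
    (hb : ∀ v, |φ v| ≤ C * exp (x * |v|)) (hx : 0 ≤ x) (j : ℕ) :
    Continuous fun q : ℝ × ℝ => ∫ z, z ^ j * φ (q.2 + q.1 * z) ∂(gaussianReal 0 1) := by
  have hC : 0 ≤ C := by simpa using (abs_nonneg _).trans (hb 0)
  refine continuous_iff_continuousAt.2 fun p => ?_
  refine ContinuousOn.continuousAt ?_ (Metric.ball_mem_nhds p one_pos)
  refine continuousOn_of_dominated (bound := fun z =>
      j.factorial * C * exp (x * (|p.2| + 1)) * exp ((1 + x * (|p.1| + 1)) * |z|))
    (fun q _ => by fun_prop) (fun q hq => .of_forall fun z => ?_)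
    ((integrable_exp_abs _).const_mul _) (.of_forall fun z => by fun_prop)
  rw [Metric.mem_ball, Prod.dist_eq, max_lt_iff, Real.dist_eq, Real.dist_eq] at hq
  rw [norm_eq_abs, abs_mul, abs_pow, add_mul 1, exp_add, one_mul]
  calc |z| ^ j * |φ (q.2 + q.1 * z)|
      ≤ (j.factorial * exp |z|) * (C * exp (x * (|p.2| + 1 + (|p.1| + 1) * |z|))) := by
        refine mul_le_mul (abs_pow_le_exp j z) ((hb _).trans (mul_le_mul_of_nonneg_left
          (exp_le_exp.2 (mul_le_mul_of_nonneg_left ?_ hx)) hC)) (abs_nonneg _) (by positivity)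
        have h3 : |q.2| ≤ |p.2| + 1 := by linarith [abs_sub_abs_le_abs_sub q.2 p.2, hq.2]
        have h4 : |q.1| ≤ |p.1| + 1 := by linarith [abs_sub_abs_le_abs_sub q.1 p.1, hq.1]
        refine (abs_add_le _ _).trans (add_le_add h3 ?_)
        rw [abs_mul]
        exact mul_le_mul_of_nonneg_right h4 (abs_nonneg z)
    _ = _ := by rw [mul_add x, exp_add, mul_assoc x]; ring

lemma exp_tilt_le (hU : Lip1 U) (hx : 0 ≤ x) (v : ℝ) :
    exp (x * U v) ≤ exp (x * |U 0|) * exp (x * |v|) := by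
  rw [← exp_add, exp_le_exp, ← mul_add]
  refine mul_le_mul_of_nonneg_left ?_ hx
  have := (abs_le.1 (hU.lip v 0)).2
  rw [sub_zero] at this
  linarith [le_abs_self (U 0)]

lemma continuous_H (hU : Lip1 U) (hx : 0 ≤ x) (j : ℕ) :
    Continuous fun q : ℝ × ℝ => H U x j q.1 q.2 :=
  continuous_gauss_mix (φ := fun v => exp (x * U v)) (by have := hU.diff.continuous; fun_prop)
    (C := exp (x * |U 0|)) (fun v => by rw [abs_exp]; exact exp_tilt_le hU hx v) hx j

lemma continuous_Hd (hU : Lip1 U) (hc : Continuous (deriv U)) (hx : 0 ≤ x) (j : ℕ) :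
    Continuous fun q : ℝ × ℝ => Hd U x j q.1 q.2 :=
  continuous_gauss_mix (φ := fun v => x * deriv U v * exp (x * U v))
    (by have := hU.diff.continuous; fun_prop) (C := x * exp (x * |U 0|))
    (fun v => (abs_slope_tilt_le hU hx v).trans (by
      rw [mul_assoc]; exact mul_le_mul_of_nonneg_left (exp_tilt_le hU hx v) hx)) hx j

lemma H0_le (hU : Lip1 U) (hx : 0 ≤ x) {S s : ℝ} (hs : |s| ≤ S) (y : ℝ) :
    H U x 0 s y ≤ (exp (x * |U 0|) * ∫ z, exp (x * S * |z|) ∂(gaussianReal 0 1)) * exp (x * |y|) := by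
  rw [mul_right_comm, ← integral_const_mul]
  refine integral_mono (integrable_H hU hx 0 s y) ((integrable_exp_abs _).const_mul _) fun z => ?_
  rw [pow_zero, one_mul]
  refine (tilt_le hU hx s y z).trans (mul_le_mul (exp_tilt_le hU hx y) ?_ (exp_pos _).le
    (by positivity))
  exact exp_le_exp.2 (mul_le_mul_of_nonneg_right (mul_le_mul_of_nonneg_left hs hx) (abs_nonneg z))

lemma Bd.mo (hU : Lip1 U) (hx : 0 ≤ x) (j : ℕ) : Bd (Mo U x j) :=
  ⟨((continuous_H hU hx j).div (continuous_H hU hx 0) fun q =>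
      (H_zero_pos hU hx q.1 q.2).ne').continuousOn,
    fun _ S h => ⟨moBound x S j, fun s h1 h2 y =>
      abs_Mo_le hU hx (by rwa [abs_of_pos (h.trans_le h1)]) j y⟩⟩

lemma Bd.d1 (hU : Lip1 U) (hx : 0 ≤ x) : Bd (D1 U x) := by
  unfold D1; simpa using (Bd.mo hU hx 1).div_pow 1

lemma Bd.d2 (hU : Lip1 U) (hx : 0 ≤ x) : Bd (D2 U x) :=
  (((Bd.mo hU hx 2).sub (Bd.const 1)).sub ((Bd.mo hU hx 1).pow 2)).div_pow 2

lemma Bd.d3 (hU : Lip1 U) (hx : 0 ≤ x) : Bd (D3 U x) :=
  (((Bd.mo hU hx 3).sub (((Bd.const 3).mul (Bd.mo hU hx 1)).mul (Bd.mo hU hx 2))).add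
    ((Bd.const 2).mul ((Bd.mo hU hx 1).pow 3))).div_pow 3

lemma Bd.d4 (hU : Lip1 U) (hx : 0 ≤ x) : Bd (D4 U x) :=
  (((((Bd.mo hU hx 4).sub (((Bd.const 4).mul (Bd.mo hU hx 3)).mul (Bd.mo hU hx 1))).sub
    ((Bd.const 3).mul ((Bd.mo hU hx 2).pow 2))).add
    (((Bd.const 12).mul (Bd.mo hU hx 2)).mul ((Bd.mo hU hx 1).pow 2))).sub
    ((Bd.const 6).mul ((Bd.mo hU hx 1).pow 4))).div_pow 4

/-- The Gaussian average along the level. -/
noncomputable def Lam (U : ℝ → ℝ) (x b : ℝ) (p : ℝ → ℝ → ℝ) (t : ℝ) : ℝ :=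
  ∫ z, H U x 0 √(b - t) (√t * z) * p √(b - t) (√t * z) ∂(gaussianReal 0 1)

variable {b t : ℝ} {p : ℝ → ℝ → ℝ}

lemma continuous_slice (hp : Gd p) {s : ℝ} (hs : 0 < s) : Continuous (p s) :=
  hp.1.comp_continuous (f := fun y => (s, y)) (by fun_prop) fun _ => hs

lemma measurable_term (hU : Lip1 U) (hx : 0 ≤ x) (hp : Gd p) (ht : t < b) :
    Continuous fun z => H U x 0 √(b - t) (√t * z) * p √(b - t) (√t * z) :=
  ((continuous_H hU hx 0).comp (f := fun z => (√(b - t), √t * z)) (by fun_prop)).mul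
    ((continuous_slice hp (Real.sqrt_pos.2 (sub_pos.2 ht))).comp (by fun_prop))

/-- Bound of the integrand on `[0, t₁]`. -/
lemma exists_term_bound (hU : Lip1 U) (hx : 0 ≤ x) (hp : Gd p) {t₁ : ℝ} (ht₁ : t₁ < b) :
    ∃ C k, ∀ t, 0 ≤ t → t ≤ t₁ → ∀ z,
      |H U x 0 √(b - t) (√t * z) * p √(b - t) (√t * z)| ≤ C * exp (k * |z|) := by
  obtain ⟨M, k, hk, hM⟩ := hp.2 √(b - t₁) √b (Real.sqrt_pos.2 (sub_pos.2 ht₁))
  refine ⟨exp (x * |U 0|) * (∫ z, exp (x * √b * |z|) ∂(gaussianReal 0 1)) * M, (x + k) * √b,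
    fun t h0 h1 z => ?_⟩
  have hs : √(b - t) ≤ √b := Real.sqrt_le_sqrt (by linarith)
  have hy : |√t * z| ≤ √b * |z| := by
    rw [abs_mul, abs_of_nonneg (Real.sqrt_nonneg _)]
    exact mul_le_mul_of_nonneg_right (Real.sqrt_le_sqrt (by linarith)) (abs_nonneg z)
  have hp' := hM _ (Real.sqrt_le_sqrt (by linarith)) hs (√t * z)
  rw [abs_mul, abs_of_pos (H_zero_pos hU hx _ _), add_mul, add_mul, exp_add,
    show ∀ a c d e : ℝ, a * c * (d * e) = (a * d) * (c * e) from fun _ _ _ _ => by ring]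
  refine mul_le_mul ((H0_le hU hx (by rwa [abs_of_nonneg (Real.sqrt_nonneg _)]) _).trans
    (mul_le_mul_of_nonneg_left ?_ ?_)) (hp'.trans (mul_le_mul_of_nonneg_left (exp_le_exp.2
      (by rw [mul_assoc]; exact mul_le_mul_of_nonneg_left hy hk)) ?_))
    (abs_nonneg _) ?_
  · rw [exp_le_exp, mul_assoc]
    exact mul_le_mul_of_nonneg_left hy hx
  · exact mul_nonneg (exp_pos _).le (integral_nonneg fun _ => (exp_pos _).le)
  · exact nonneg_of_mul_nonneg_left ((abs_nonneg _).trans hp') (exp_pos _)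
  · exact mul_nonneg (mul_nonneg (exp_pos _).le (integral_nonneg fun _ => (exp_pos _).le))
      (exp_pos _).le

lemma integrable_term (hU : Lip1 U) (hx : 0 ≤ x) (hp : Gd p) (h0 : 0 ≤ t) (ht : t < b) :
    Integrable (fun z => H U x 0 √(b - t) (√t * z) * p √(b - t) (√t * z)) (gaussianReal 0 1) := by
  obtain ⟨C, k, hC⟩ := exists_term_bound hU hx hp ht
  exact integrable_of_exp_bound (measurable_term hU hx hp ht).aestronglyMeasurable
    fun z => hC t h0 le_rfl z

lemma continuousOn_Lam (hU : Lip1 U) (hx : 0 ≤ x) (hp : Gd p) {t₁ : ℝ} (ht₁ : t₁ < b) :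
    ContinuousOn (Lam U x b p) (Set.Icc 0 t₁) := by
  obtain ⟨C, k, hC⟩ := exists_term_bound hU hx hp ht₁
  refine continuousOn_of_dominated (fun t ht => (measurable_term hU hx hp
    (ht.2.trans_lt ht₁)).aestronglyMeasurable) (fun t ht => .of_forall fun z => hC t ht.1 ht.2 z)
    ((integrable_exp_abs _).const_mul C) (.of_forall fun z => ?_)
  have hm : ContinuousOn (fun t => (√(b - t), √t * z)) (Set.Icc 0 t₁) := by fun_prop
  exact ((continuous_H hU hx 0).comp_continuousOn hm).mul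
    (hp.1.comp hm fun t ht => Real.sqrt_pos.2 (sub_pos.2 (ht.2.trans_lt ht₁)))

/-- The derivative of an average along the level. -/
lemma hasDerivAt_Lam (hU : Lip1 U) (hx : 0 ≤ x) {a p' c : ℝ → ℝ → ℝ} (hp : Gd p) (ha : Gd a)
    (hp' : Gd p') (hc : Gd c)
    (hd : ∀ (f g : ℝ → ℝ) (f' g' u : ℝ), HasDerivAt f f' u → HasDerivAt g g' u → f u ≠ 0 →
      HasDerivAt (fun v => p (f v) (g v)) (f' * f u * a (f u) (g u) + g' * p' (f u) (g u)) u)
    (hd' : ∀ s y : ℝ, 0 < s → HasDerivAt (p' s) (c s y) y) (h0 : 0 < t) (ht : t < b) :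
    HasDerivAt (Lam U x b p)
      (Lam U x b (fun s y => D1 U x s y * p' s y + (1 / 2) * (c s y - a s y)) t) t := by
  set A := fun s y => (D2 U x s y + D1 U x s y ^ 2) * p s y + a s y with hA
  set B := fun s y => D1 U x s y * p s y + p' s y with hB
  set C := fun s y =>
    D1 U x s y * B s y + D2 U x s y * p s y + D1 U x s y * p' s y + c s y with hC
  have d1 := (Bd.d1 hU hx).gd
  have d2 := (Bd.d2 hU hx).gd
  have bA : Gd A := (((Bd.d2 hU hx).add ((Bd.d1 hU hx).pow 2)).gd.mul hp).add ha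
  have bB : Gd B := (d1.mul hp).add hp'
  have bC : Gd C := (((d1.mul bB).add (d2.mul hp)).add (d1.mul hp')).add hc
  obtain ⟨r, hr, hr0, hr1⟩ : ∃ r, 0 < r ∧ 0 < t - r ∧ t + r < b :=
    ⟨min t (b - t) / 2, by have := lt_min h0 (sub_pos.2 ht); linarith,
      by linarith [min_le_left t (b - t)], by linarith [min_le_right t (b - t)]⟩
  obtain ⟨CA, kA, hCA⟩ := exists_term_bound hU hx bA hr1
  obtain ⟨CB, kB, hCB⟩ := exists_term_bound hU hx bB hr1
  set F' := fun u z => -(1 / 2) * (H U x 0 √(b - u) (√u * z) * A √(b - u) (√u * z))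
    + 1 / (2 * √u) * (z * (H U x 0 √(b - u) (√u * z) * B √(b - u) (√u * z))) with hF'
  have hmem : ∀ u ∈ Metric.ball t r, t - r ≤ u ∧ u ≤ t + r ∧ 0 < u ∧ u < b := fun u hu => by
    rw [Metric.mem_ball, Real.dist_eq, abs_lt] at hu
    exact ⟨by linarith, by linarith, by linarith, by linarith⟩
  have iB := integrable_term hU hx bB h0.le ht
  have iA := integrable_term hU hx bA h0.le ht
  have iC := integrable_term hU hx bC h0.le ht
  have izB : Integrable (fun z => z * (H U x 0 √(b - t) (√t * z) * B √(b - t) (√t * z))) (gaussianReal 0 1) := by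
    obtain ⟨C', k', hC'⟩ := exists_term_bound hU hx bB ht
    refine integrable_of_exp_bound (C := C') (k := k' + 1)
      (continuous_id.mul (measurable_term hU hx bB ht)).aestronglyMeasurable fun z => ?_
    rw [abs_mul, add_mul, exp_add, one_mul, mul_comm |z|, ← mul_assoc]
    exact mul_le_mul (hC' t h0.le le_rfl z) (by linarith [add_one_le_exp |z|]) (abs_nonneg z)
      ((abs_nonneg _).trans (hC' t h0.le le_rfl z))
  have key := (hasDerivAt_integral_of_dominated_loc_of_deriv_le (𝕜 := ℝ) (μ := (gaussianReal 0 1))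
    (F := fun u z => H U x 0 √(b - u) (√u * z) * p √(b - u) (√u * z)) (F' := F')
    (bound := fun z => (|CA| + |CB| / (2 * √(t - r))) * exp ((max kA kB + 1) * |z|))
    (Metric.ball_mem_nhds t hr)
    (by filter_upwards [gt_mem_nhds ht] with u hu
        exact (measurable_term hU hx hp hu).aestronglyMeasurable)
    (integrable_term hU hx hp h0.le ht)
    ((iA.const_mul _).add (izB.const_mul _)).aestronglyMeasurable
    (.of_forall fun z u hu => ?_) ((integrable_exp_abs _).const_mul _)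
    (.of_forall fun z u hu => ?_)).2
  · refine key.congr_deriv ?_
    simp only [hF', Lam]
    rw [integral_add (iA.const_mul _) (izB.const_mul _), integral_const_mul, integral_const_mul]
    have hs := Real.sqrt_pos.2 (sub_pos.2 ht)
    have hd1 : ∀ z, HasDerivAt
        (fun w => H U x 0 √(b - t) (√t * w) * B √(b - t) (√t * w))
        (√t * (H U x 0 √(b - t) (√t * z) * C √(b - t) (√t * z))) z := by
      intro z
      have hg : HasDerivAt (fun w => √t * w) √t z := by simpa using (hasDerivAt_id z).const_mul √t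
      have hf := hasDerivAt_const z √(b - t)
      refine ((hasDerivAt_H0 hU hx hf hg hs.ne').mul
        (((hasDerivAt_D1 hU hx hf hg hs.ne').mul (hd _ _ _ _ _ hf hg hs.ne')).add
          ((hd' _ (√t * z) hs).comp z hg))).congr_deriv ?_
      simp only [hC, hB, Pi.mul_apply, Pi.add_apply, Function.comp_apply]
      ring
    rw [Vale.Agent.P157.Parisi.gaussianReal_ibp hd1 iB izB (iC.const_mul _), integral_const_mul]
    have hne := (Real.sqrt_pos.2 h0).ne'
    rw [show 1 / (2 * √t) * (√t * ∫ z, H U x 0 √(b - t) (√t * z) * C √(b - t) (√t * z) ∂(gaussianReal 0 1))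
      = 1 / 2 * ∫ z, H U x 0 √(b - t) (√t * z) * C √(b - t) (√t * z) ∂(gaussianReal 0 1) by field_simp,
      ← integral_const_mul, ← integral_const_mul, ← integral_add (iA.const_mul _) (iC.const_mul _)]
    refine integral_congr_ae (.of_forall fun z => ?_)
    simp only [hC, hB, hA]
    ring
  · obtain ⟨u1, u2, u3, u4⟩ := hmem u hu
    have e0 := hCA u u3.le u2 z
    have e1 := hCB u u3.le u2 z
    have hsq : 0 < √(t - r) := Real.sqrt_pos.2 hr0
    rw [norm_eq_abs]
    simp only [hF']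
    refine (abs_add_le _ _).trans ?_
    rw [abs_mul, abs_mul (1 / (2 * √u)), abs_mul z, add_mul (|CA|), add_mul (max kA kB), exp_add,
      one_mul]
    have hE := one_le_exp (abs_nonneg z)
    refine add_le_add ?_ ?_
    · calc |(-(1 / 2) : ℝ)| * _ ≤ 1 * (|CA| * exp (max kA kB * |z|)) :=
            mul_le_mul (by norm_num) (e0.trans (mul_le_mul (le_abs_self _) (exp_le_exp.2
              (mul_le_mul_of_nonneg_right (le_max_left _ _) (abs_nonneg z))) (exp_pos _).le
              (abs_nonneg _))) (abs_nonneg _) zero_le_one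
        _ ≤ _ := by
            rw [one_mul]
            exact mul_le_mul_of_nonneg_left (le_mul_of_one_le_right (exp_pos _).le hE) (abs_nonneg _)
    · have h2 : |1 / (2 * √u)| ≤ 1 / (2 * √(t - r)) := by
        rw [abs_of_nonneg (by positivity)]
        exact one_div_le_one_div_of_le (by positivity)
          (mul_le_mul_of_nonneg_left (Real.sqrt_le_sqrt u1) zero_le_two)
      calc _ ≤ 1 / (2 * √(t - r)) * (exp |z| * (|CB| * exp (max kA kB * |z|))) :=
            mul_le_mul h2 (mul_le_mul (by linarith [add_one_le_exp |z|])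
              (e1.trans (mul_le_mul (le_abs_self _) (exp_le_exp.2 (mul_le_mul_of_nonneg_right
                (le_max_right _ _) (abs_nonneg z))) (exp_pos _).le (abs_nonneg _)))
              (abs_nonneg _) (exp_pos _).le) (by positivity) (by positivity)
        _ = _ := by ring
  · obtain ⟨u1, u2, u3, u4⟩ := hmem u hu
    have hs := Real.sqrt_pos.2 (sub_pos.2 u4)
    have hf : HasDerivAt (fun v => √(b - v)) (-1 / (2 * √(b - u))) u :=
      ((hasDerivAt_id u).const_sub b).sqrt (sub_pos.2 u4).ne'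
    have hg : HasDerivAt (fun v => √v * z) (1 / (2 * √u) * z) u :=
      (Real.hasDerivAt_sqrt u3.ne').mul_const z
    refine ((hasDerivAt_H0 hU hx hf hg hs.ne').mul (hd _ _ _ _ _ hf hg hs.ne')).congr_deriv ?_
    simp only [hF', hA, hB]
    have e : -1 / (2 * √(b - u)) * √(b - u) = -(1 / 2) := by field_simp
    rw [e]
    ring

/-- The unnormalised mean squared slope. -/
noncomputable def Fu (U : ℝ → ℝ) (x b t : ℝ) : ℝ :=
  ∫ z, Hd U x 0 √(b - t) (√t * z) ^ 2 / H U x 0 √(b - t) (√t * z) ∂(gaussianReal 0 1)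

/-- Its derivative. -/
noncomputable def gu (U : ℝ → ℝ) (x b : ℝ) : ℝ → ℝ := Lam U x b fun s y => D2 U x s y ^ 2

/-- Its second derivative. -/
noncomputable def ku (U : ℝ → ℝ) (x b : ℝ) : ℝ → ℝ :=
  Lam U x b fun s y => D3 U x s y ^ 2 - 2 * D2 U x s y ^ 3

lemma Fu_eq (hU : Lip1 U) (hx : 0 ≤ x) (ht : t < b) :
    Fu U x b t = Lam U x b (fun s y => D1 U x s y ^ 2) t := by
  refine integral_congr_ae (.of_forall fun z => ?_)
  set s := √(b - t)
  set y := √t * z
  have hs : s ≠ 0 := (Real.sqrt_pos.2 (sub_pos.2 ht)).ne'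
  have h := mul_Hd hU hx 0 s y
  simp only [zero_add, Nat.cast_zero, zero_mul, sub_zero] at h
  have h0 := (H_zero_pos hU hx s y).ne'
  show Hd U x 0 s y ^ 2 / H U x 0 s y = H U x 0 s y * (H U x 1 s y / H U x 0 s y / s) ^ 2
  rw [← h]
  field_simp

lemma hasDerivAt_Fu (hU : Lip1 U) (hx : 0 ≤ x) (h0 : 0 < t) (ht : t < b) :
    HasDerivAt (Fu U x b) (gu U x b t) t := by
  have d1 := Bd.d1 hU hx
  have d2 := Bd.d2 hU hx
  have d3 := Bd.d3 hU hx
  have h := hasDerivAt_Lam hU hx (p := fun s y => D1 U x s y ^ 2)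
    (a := fun s y => 2 * D1 U x s y * (D3 U x s y + 2 * D1 U x s y * D2 U x s y))
    (p' := fun s y => 2 * D1 U x s y * D2 U x s y)
    (c := fun s y => 2 * D2 U x s y ^ 2 + 2 * D1 U x s y * D3 U x s y) (d1.pow 2).gd
    (((Bd.const 2).mul d1).mul (d3.add (((Bd.const 2).mul d1).mul d2))).gd
    (((Bd.const 2).mul d1).mul d2).gd
    (((Bd.const 2).mul (d2.pow 2)).add (((Bd.const 2).mul d1).mul d3)).gd
    (fun f g f' g' u hf hg hs => ((hasDerivAt_D1 hU hx hf hg hs).pow 2).congr_deriv (by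
      simp only [Nat.cast_ofNat, Nat.add_one_sub_one, pow_one]; ring))
    (fun s y hs => by
      have hf := hasDerivAt_const y s
      have hg := hasDerivAt_id' y
      exact (((hasDerivAt_D1 hU hx hf hg hs.ne').const_mul 2).mul
        (hasDerivAt_D2 hU hx hf hg hs.ne')).congr_deriv (by ring)) h0 ht
  refine (h.congr_of_eventuallyEq ?_).congr_deriv (integral_congr_ae (.of_forall fun z => by ring))
  filter_upwards [gt_mem_nhds ht] with u hu using Fu_eq hU hx hu

lemma hasDerivAt_gu (hU : Lip1 U) (hx : 0 ≤ x) (h0 : 0 < t) (ht : t < b) :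
    HasDerivAt (gu U x b) (ku U x b t) t := by
  have d1 := Bd.d1 hU hx
  have d2 := Bd.d2 hU hx
  have d3 := Bd.d3 hU hx
  have d4 := Bd.d4 hU hx
  have h := hasDerivAt_Lam hU hx (p := fun s y => D2 U x s y ^ 2)
    (a := fun s y =>
      2 * D2 U x s y * (D4 U x s y + 2 * D2 U x s y ^ 2 + 2 * D1 U x s y * D3 U x s y))
    (p' := fun s y => 2 * D2 U x s y * D3 U x s y)
    (c := fun s y => 2 * D3 U x s y ^ 2 + 2 * D2 U x s y * D4 U x s y) (d2.pow 2).gd
    (((Bd.const 2).mul d2).mul ((d4.add ((Bd.const 2).mul (d2.pow 2))).add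
      (((Bd.const 2).mul d1).mul d3))).gd
    (((Bd.const 2).mul d2).mul d3).gd
    (((Bd.const 2).mul (d3.pow 2)).add (((Bd.const 2).mul d2).mul d4)).gd
    (fun f g f' g' u hf hg hs => ((hasDerivAt_D2 hU hx hf hg hs).pow 2).congr_deriv (by
      simp only [Nat.cast_ofNat, Nat.add_one_sub_one, pow_one]; ring))
    (fun s y hs => by
      have hf := hasDerivAt_const y s
      have hg := hasDerivAt_id' y
      exact (((hasDerivAt_D2 hU hx hf hg hs.ne').const_mul 2).mul
        (hasDerivAt_D3 hU hx hs.ne' y)).congr_deriv (by ring)) h0 ht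
  exact h.congr_deriv (integral_congr_ae (.of_forall fun z => by ring))

lemma H_neg (hU : Prof U) (j : ℕ) (s y : ℝ) : H U x j s (-y) = (-1) ^ j * H U x j s y := by
  have h : ∫ z, z ^ j * exp (x * U (-y + s * z)) ∂(gaussianReal 0 1) =
      ∫ z, (-z) ^ j * exp (x * U (-y + s * -z)) ∂(gaussianReal 0 1) := by
    conv_lhs => rw [show (gaussianReal 0 1) = Measure.map (fun z : ℝ => -z) (gaussianReal 0 1) by rw [gaussianReal_map_neg, neg_zero]]
    exact integral_map measurable_neg.aemeasurable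
      (by have := hU.toLip1.diff.continuous; fun_prop)
  rw [H, h, H, ← integral_const_mul]
  refine integral_congr_ae (.of_forall fun z => ?_)
  simp only [mul_neg, ← neg_add, hU.even, neg_pow z j]
  ring

lemma D1_neg (hU : Prof U) (s y : ℝ) : D1 U x s (-y) = -D1 U x s y := by
  simp only [D1, Mo, H_neg hU, pow_one, pow_zero, one_mul]
  ring

/-- The gap inequality along the level. -/
lemma gap_level (hU : Prof U) (hx : 0 ≤ x) (h0 : 0 < t) (ht : t < b) :
    0 ≤ t ^ 2 * ku U x b t - 2 * t * gu U x b t + 2 * Fu U x b t := by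
  have hL := hU.toLip1
  set s := √(b - t) with hs'
  have hs : 0 < s := Real.sqrt_pos.2 (sub_pos.2 ht)
  have hq : 0 < √t := Real.sqrt_pos.2 h0
  have hq2 : √t ^ 2 = t := Real.sq_sqrt h0.le
  obtain ⟨M1, hM1⟩ := (Bd.d1 hL hx).2 s s hs
  obtain ⟨M2, hM2⟩ := (Bd.d2 hL hx).2 s s hs
  obtain ⟨M3, hM3⟩ := (Bd.d3 hL hx).2 s s hs
  obtain ⟨M4, hM4⟩ := (Bd.d4 hL hx).2 s s hs
  have hg : ∀ y, HasDerivAt (fun u => √t * u) √t y := fun y => by
    simpa using (hasDerivAt_id y).const_mul √t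
  have hf : ∀ y : ℝ, HasDerivAt (fun _ : ℝ => s) 0 y := fun y => hasDerivAt_const y s
  have T : Tilt (fun y => log (H U x 0 s (√t * y))) (fun y => √t * D1 U x s (√t * y))
      (fun y => √t ^ 2 * D2 U x s (√t * y)) (fun y => √t ^ 3 * D3 U x s (√t * y))
      (fun y => √t ^ 4 * D4 U x s (√t * y)) := by
    refine ⟨fun y => ?_, fun y => ?_, fun y => ?_, fun y => ?_, ?_, ?_, fun y => ?_, fun y => ?_,
      fun y hy => ?_⟩
    · refine ((hasDerivAt_H0 hL hx (hf y) (hg y) hs.ne').log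
        (H_zero_pos hL hx _ _).ne').congr_deriv ?_
      rw [zero_mul, zero_mul, zero_add, mul_div_cancel_left₀ _ (H_zero_pos hL hx _ _).ne']
    · exact ((hasDerivAt_D1 hL hx (hf y) (hg y) hs.ne').const_mul √t).congr_deriv (by ring)
    · exact ((hasDerivAt_D2 hL hx (hf y) (hg y) hs.ne').const_mul (√t ^ 2)).congr_deriv (by ring)
    · exact (((hasDerivAt_D3 hL hx hs.ne' (√t * y)).comp y (hg y)).const_mul
        (√t ^ 3)).congr_deriv (by ring)
    · exact continuous_const.mul ((continuous_slice (Bd.d4 hL hx).gd hs).comp (by fun_prop))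
    · refine ⟨√t * |M1| + √t ^ 2 * |M2| + √t ^ 3 * |M3| + √t ^ 4 * |M4|, fun y => ?_⟩
      have e1 := (hM1 s le_rfl le_rfl (√t * y)).trans (le_abs_self _)
      have e2 := (hM2 s le_rfl le_rfl (√t * y)).trans (le_abs_self _)
      have e3 := (hM3 s le_rfl le_rfl (√t * y)).trans (le_abs_self _)
      have e4 := (hM4 s le_rfl le_rfl (√t * y)).trans (le_abs_self _)
      have f1 := mul_le_mul_of_nonneg_left e1 hq.le
      have f2 := mul_le_mul_of_nonneg_left e2 (pow_nonneg hq.le 2)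
      have f3 := mul_le_mul_of_nonneg_left e3 (pow_nonneg hq.le 3)
      have f4 := mul_le_mul_of_nonneg_left e4 (pow_nonneg hq.le 4)
      have n1 : 0 ≤ √t * |M1| := by positivity
      have n2 : 0 ≤ √t ^ 2 * |M2| := by positivity
      have n3 : 0 ≤ √t ^ 3 * |M3| := by positivity
      have n4 : 0 ≤ √t ^ 4 * |M4| := by positivity
      simp only [abs_mul, abs_pow, abs_of_pos hq]
      exact ⟨by linarith, by linarith, by linarith, by linarith⟩
    · rw [mul_neg, D1_neg hU, mul_neg]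
    · exact mul_nonneg (sq_nonneg _) (D2_nonneg hU hx hs _)
    · have h := mul_le_mul_of_nonneg_left (star_step hU hx hs (mul_nonneg hq.le hy)) hq.le
      linarith
  have h := T.gap_integral_nonneg
  have e : ∀ y, exp (log (H U x 0 s (√t * y))) = H U x 0 s (√t * y) := fun y =>
    exp_log (H_zero_pos hL hx _ _)
  simp only [e] at h
  have d2 := Bd.d2 hL hx
  have d3 := Bd.d3 hL hx
  have i1 := integrable_term hL hx ((Bd.d1 hL hx).pow 2).gd h0.le ht
  have i2 := integrable_term hL hx (d2.pow 2).gd h0.le ht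
  have i3 := integrable_term hL hx ((d3.pow 2).sub ((Bd.const 2).mul (d2.pow 3))).gd h0.le ht
  have e' : ∫ y, H U x 0 s (√t * y) * ((√t ^ 3 * D3 U x s (√t * y)) ^ 2
      - 2 * (√t ^ 2 * D2 U x s (√t * y)) ^ 3 - 2 * (√t ^ 2 * D2 U x s (√t * y)) ^ 2
      + 2 * (√t * D1 U x s (√t * y)) ^ 2) ∂(gaussianReal 0 1)
      = t ^ 3 * ku U x b t - 2 * t ^ 2 * gu U x b t + 2 * t * Fu U x b t := by
    rw [Fu_eq hL hx ht, ku, gu]
    simp only [Lam, hs']
    rw [← integral_const_mul, ← integral_const_mul, ← integral_const_mul,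
      ← integral_sub (i3.const_mul _) (i2.const_mul _)]
    refine Eq.trans ?_ (integral_add ((i3.const_mul _).sub (i2.const_mul _)) (i1.const_mul _))
    refine integral_congr_ae (.of_forall fun z => ?_)
    simp only [mul_pow, ← pow_mul, show 3 * 2 = 2 * 3 from rfl,
      show (√t) ^ (2 * 3) = t ^ 3 by rw [pow_mul, hq2], hq2]
    ring
  rw [e'] at h
  exact nonneg_of_mul_nonneg_right (by linarith : 0 ≤ t * (t ^ 2 * ku U x b t
    - 2 * t * gu U x b t + 2 * Fu U x b t)) h0

lemma continuousOn_Fu (hU : Lip1 U) (hc : Continuous (deriv U)) (hx : 0 ≤ x) :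
    ContinuousOn (Fu U x b) (Set.Icc 0 b) := by
  set K := x * x * (exp (x * |U 0|) * ∫ z, exp (x * √b * |z|) ∂(gaussianReal 0 1))
  have hK : ∀ t, 0 ≤ t → t ≤ b → ∀ z, |Hd U x 0 √(b - t) (√t * z) ^ 2 /
      H U x 0 √(b - t) (√t * z)| ≤ K * exp (x * √b * |z|) := by
    intro t h0 h1 z
    set s := √(b - t)
    set y := √t * z
    have hp := H_zero_pos hU hx s y
    have hb : |Hd U x 0 s y| ≤ x * H U x 0 s y := by
      simp only [Hd, H, pow_zero, one_mul, ← integral_const_mul]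
      exact abs_integral_le_integral_abs.trans (integral_mono
        (by simpa using (integrable_Hd hU hx 0 s y).abs)
        (by simpa using (integrable_H hU hx 0 s y).const_mul x)
        fun z => abs_slope_tilt_le hU hx _)
    rw [abs_div, abs_pow, abs_of_pos hp, div_le_iff₀ hp]
    have hs : |s| ≤ √b := by
      rw [abs_of_nonneg (Real.sqrt_nonneg _)]; exact Real.sqrt_le_sqrt (by linarith)
    have hy : exp (x * |y|) ≤ exp (x * √b * |z|) := by
      rw [exp_le_exp, abs_mul, abs_of_nonneg (Real.sqrt_nonneg _), mul_assoc]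
      exact mul_le_mul_of_nonneg_left (mul_le_mul_of_nonneg_right (Real.sqrt_le_sqrt h1)
        (abs_nonneg z)) hx
    calc |Hd U x 0 s y| ^ 2 ≤ (x * H U x 0 s y) ^ 2 := pow_le_pow_left₀ (abs_nonneg _) hb 2
      _ = x * x * H U x 0 s y * H U x 0 s y := by ring
      _ ≤ x * x * ((exp (x * |U 0|) * ∫ z, exp (x * √b * |z|) ∂(gaussianReal 0 1)) * exp (x * √b * |z|)) *
          H U x 0 s y := by
        refine mul_le_mul_of_nonneg_right (mul_le_mul_of_nonneg_left
          ((H0_le hU hx hs y).trans (mul_le_mul_of_nonneg_left hy ?_)) (by positivity)) hp.le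
        exact mul_nonneg (exp_pos _).le (integral_nonneg fun _ => (exp_pos _).le)
      _ = _ := by ring
  have hcont : Continuous fun q : ℝ × ℝ => Hd U x 0 q.1 q.2 ^ 2 / H U x 0 q.1 q.2 :=
    ((continuous_Hd hU hc hx 0).pow 2).div (continuous_H hU hx 0) fun q =>
      (H_zero_pos hU hx q.1 q.2).ne'
  refine continuousOn_of_dominated (fun t _ => Continuous.aestronglyMeasurable
      (hcont.comp (f := fun z => (√(b - t), √t * z)) (by fun_prop)))
    (fun t ht => .of_forall fun z => hK t ht.1 ht.2 z) ((integrable_exp_abs _).const_mul K)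
    (.of_forall fun z => (hcont.comp (f := fun t => (√(b - t), √t * z)) (by fun_prop)).continuousOn)

lemma gu_zero : gu U x b 0 = H U x 0 √b 0 * D2 U x √b 0 ^ 2 := by
  simp [gu, Lam]

lemma Fu_zero (hU : Prof U) (hx : 0 ≤ x) (hb : 0 < b) : Fu U x b 0 = 0 := by
  rw [Fu_eq hU.toLip1 hx hb]
  have h := D1_neg (x := x) hU √b 0
  rw [neg_zero] at h
  simp [Lam, show D1 U x √b 0 = 0 by linarith]

/-- Convexity of `Fu / t` integrates to a bound on a single level. -/
theorem integral_Fu_le (hU : Prof U) (hc : Continuous (deriv U)) (hx : 0 ≤ x) (hb : 0 < b) :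
    ∫ t in (0:ℝ)..b, Fu U x b t ≤
      b ^ 2 * (H U x 0 √b 0 * D2 U x √b 0 ^ 2 / 6 + Fu U x b b / b / 3) := by
  have hL := hU.toLip1
  have hcF := continuousOn_Fu (b := b) hL hc hx
  set g₀ := H U x 0 √b 0 * D2 U x √b 0 ^ 2 with hg₀
  set h := fun t => Fu U x b t / t with hh
  have hcx : ConvexOn ℝ (Set.Ioc 0 b) h := by
    refine convexOn_of_hasDerivWithinAt2_nonneg (convex_Ioc 0 b)
      ((hcF.mono Set.Ioc_subset_Icc_self).div continuousOn_id fun t ht => (ne_of_gt ht.1))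
      (f' := fun t => (gu U x b t * t - Fu U x b t) / t ^ 2)
      (f'' := fun t => (t ^ 2 * ku U x b t - 2 * t * gu U x b t + 2 * Fu U x b t) / t ^ 3)
      ?_ ?_ ?_ <;> rw [interior_Ioc] <;> intro t ht
    · exact (((hasDerivAt_Fu hL hx ht.1 ht.2).div (hasDerivAt_id t) ht.1.ne').congr_deriv
        (by simp)).hasDerivWithinAt
    · have h1 := hasDerivAt_gu hL hx ht.1 ht.2
      have h2 := hasDerivAt_Fu hL hx ht.1 ht.2
      refine (((h1.mul (hasDerivAt_id t)).sub h2).div (hasDerivAt_pow 2 t)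
        (pow_ne_zero 2 ht.1.ne')).hasDerivWithinAt.congr_deriv ?_
      simp only [id_eq, Nat.cast_ofNat, Nat.add_one_sub_one, pow_one, Pi.sub_apply, Pi.mul_apply]
      have := ht.1.ne'
      field_simp
      ring
    · exact div_nonneg (gap_level hU hx ht.1 ht.2) (pow_nonneg ht.1.le 3)
  have hpt : ∀ t ∈ Set.Ioo 0 b, Fu U x b t ≤ t * g₀ + t ^ 2 / b * (Fu U x b b / b - g₀) := by
    intro t ht
    refine le_of_forall_pos_le_add fun δ hδ => ?_
    have hgc := continuousOn_Lam hL hx ((Bd.d2 hL hx).pow 2).gd (t₁ := t) ht.2 0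
      (Set.left_mem_Icc.2 ht.1.le)
    obtain ⟨r, hr, hr'⟩ := Metric.continuousWithinAt_iff.1 hgc (δ / (2 * t))
      (div_pos hδ (mul_pos two_pos ht.1))
    set g := g₀ + δ / (2 * t) with hg
    set q := δ * b / (2 * t * (|h b - g| + 1))
    have hq : 0 < q := by have := ht.1; positivity
    set u := min (min r t) q / 2
    have hu : 0 < u := by have := lt_min (lt_min hr ht.1) hq; positivity
    obtain ⟨m1, m2, m3⟩ : u * 2 ≤ r ∧ u * 2 ≤ t ∧ u * 2 ≤ q := by
      simp only [u, div_mul_cancel₀ _ (two_ne_zero (α := ℝ))]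
      exact ⟨(min_le_left _ _).trans (min_le_left _ _), (min_le_left _ _).trans (min_le_right _ _),
        min_le_right _ _⟩
    have hut : u < t := by linarith
    have hub := hut.trans ht.2
    obtain ⟨ξ, hξ, hξ'⟩ := exists_hasDerivAt_eq_slope (Fu U x b) (gu U x b) hu
      (hcF.mono (Set.Icc_subset_Icc_right hub.le))
      fun v hv => hasDerivAt_Fu hL hx hv.1 (hv.2.trans hub)
    have hξd := hr' (x := ξ) ⟨hξ.1.le, (hξ.2.trans hut).le⟩
      (by rw [dist_zero_right, norm_eq_abs, abs_of_pos hξ.1]; linarith [hξ.2])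
    rw [Real.dist_eq] at hξd
    have hu0 : h u ≤ g := by
      have e : gu U x b ξ = h u := by
        rw [hξ', Fu_zero hU hx hb, sub_zero, sub_zero]
      have e0 : gu U x b 0 = g₀ := gu_zero
      have := (abs_lt.1 hξd).2
      simp only [gu] at e e0
      linarith
    have hbu : 0 < b - u := sub_pos.2 hub
    set c := (t - u) / (b - u)
    have hc1 : h t ≤ (1 - c) * h u + c * h b := by
      have hc2 := hcx.2 ⟨hu, hub.le⟩ ⟨hb, le_rfl⟩
        (show 0 ≤ 1 - c by simp only [c]; rw [sub_nonneg, div_le_one hbu]; linarith [ht.2])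
        (show 0 ≤ c from div_nonneg (by linarith) hbu.le) (by ring)
      simp only [smul_eq_mul] at hc2
      rwa [show (1 - c) * u + c * b = t by simp only [c]; field_simp; ring] at hc2
    have hcb : c ≤ t / b ∧ t / b - u / b ≤ c := by
      constructor
      · rw [div_le_div_iff₀ hbu hb]
        linarith [mul_le_mul_of_nonneg_left ht.2.le hu.le]
      · rw [← sub_div, div_le_div_iff₀ hb hbu]
        linarith [mul_nonneg hu.le (sub_nonneg.2 hut.le)]
    have hg3 := mul_le_mul_of_nonneg_left hu0 (show 0 ≤ 1 - c by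
      linarith [(div_le_one hb).2 ht.2.le, hcb.1])
    have hdiff : (c - t / b) * (h b - g) ≤ u / b * |h b - g| := by
      refine (le_abs_self _).trans ?_
      rw [abs_mul]
      refine mul_le_mul_of_nonneg_right ?_ (abs_nonneg _)
      rw [abs_le]
      constructor <;> linarith [div_nonneg hu.le hb.le, hcb.1, hcb.2]
    have hFt : Fu U x b t = t * h t := (mul_div_cancel₀ _ ht.1.ne').symm
    have hmain : h t ≤ g + t / b * (h b - g) + u / b * |h b - g| := by linarith
    have herr : t * (u / b * |h b - g|) ≤ δ / 2 := by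
      have h5 : u * (|h b - g| + 1) * (2 * t) ≤ δ * b := by
        have h6 : u ≤ q := by linarith
        rw [le_div_iff₀ (by have := ht.1; positivity)] at h6
        linarith
      rw [show t * (u / b * |h b - g|) = u * |h b - g| * (2 * t) / (2 * b) by field_simp,
        div_le_div_iff₀ (by positivity) two_pos]
      linarith [mul_nonneg (mul_nonneg hu.le ht.1.le) (zero_le_one (α := ℝ))]
    have hgt : t * (δ / (2 * t)) = δ / 2 := by field_simp [ht.1.ne']
    have h7 : 0 ≤ t ^ 2 / b * (δ / (2 * t)) := by have := ht.1; positivity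
    rw [hFt]
    calc t * h t ≤ t * (g + t / b * (h b - g) + u / b * |h b - g|) :=
          mul_le_mul_of_nonneg_left hmain ht.1.le
      _ = t * g₀ + t ^ 2 / b * (h b - g₀) + t * (δ / (2 * t)) - t ^ 2 / b * (δ / (2 * t))
          + t * (u / b * |h b - g|) := by simp only [hg]; ring
      _ ≤ _ := by simp only [hh] at hgt ⊢; linarith
  calc ∫ t in (0:ℝ)..b, Fu U x b t
      ≤ ∫ t in (0:ℝ)..b, (g₀ * t + (Fu U x b b / b - g₀) / b * t ^ 2) :=
        intervalIntegral.integral_mono_on_of_le_Ioo hb.le (hcF.intervalIntegrable_of_Icc hb.le)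
          ((by fun_prop : Continuous fun t : ℝ =>
            g₀ * t + (Fu U x b b / b - g₀) / b * t ^ 2).intervalIntegrable _ _)
          fun t ht => (hpt t ht).trans_eq (by ring)
    _ = _ := by
      rw [intervalIntegral.integral_add ((by fun_prop : Continuous fun t : ℝ =>
          g₀ * t).intervalIntegrable _ _) ((by fun_prop : Continuous fun t : ℝ =>
          (Fu U x b b / b - g₀) / b * t ^ 2).intervalIntegrable _ _),
        intervalIntegral.integral_const_mul, intervalIntegral.integral_const_mul, integral_id,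
        integral_pow]
      field_simp
      ring

end Vale.Agent.P146.Gap
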