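import Vale.Agent.P146.Model
import Vale.Agent.P166.Parisi.Formula

/-!
Definitions for the divergence of the free-energy variance at every temperature below criticality.
-/

namespace Vale.Agent.P146.Gap

open MeasureTheory Filter Topology
open scoped ComplexConjugate

/-- The semicircle law, by the properties used here: a probability measure on `[-2, 2]` with right
end `2` whose Stieltjes transform is the root in the unit disc of `y + y⁻¹ = z`. -/
structure IsSC (μ : Measure ℝ) : Prop where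
  prob : IsProbabilityMeasure μ
  supp : μ.support ⊆ Set.Icc (-2) 2
  top : sSup μ.support = 2
  stieltjes : ∀ y : ℂ, ‖y‖ < 1 → y.im < 0 →
    ∫ x : ℝ, ((y + y⁻¹) - (x : ℂ))⁻¹ ∂μ = y

/-- The spectral perturbation `x ↦ x + t Im (z - x)⁻¹`. -/
noncomputable def tiltSpec (z : ℂ) (t x : ℝ) : ℝ := x + t * ((z - (x : ℂ))⁻¹).im

/-- The perturbed coupling `J + t Im (z - J)⁻¹`. -/
noncomputable def tiltCoupling {n : ℕ} (z : ℂ) (t : ℝ) (g : Disorder n) :
    Matrix (Fin n) (Fin n) ℝ :=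
  Matrix.of fun a b => coupling g a b + t * (res z (coupling g) a b).im

/-- The pressure of the perturbed coupling, for the uniform prior. -/
noncomputable def tiltPressure (n : ℕ) (β : ℝ) (z : ℂ) (t : ℝ) (g : Disorder n) : ℝ :=
  (1 / (n : ℝ)) * Real.log ((1 / (2 : ℝ) ^ n) * ∑ σ : Fin n → Bool,
    Real.exp (β / 2 * ∑ a, ∑ b, spins σ a * spins σ b * tiltCoupling z t g a b))

/-- The statement of the spectral module: the semicircle law exists and the perturbed pressures tend
to the variational value of the perturbed law. -/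
def SpectrumStatement : Prop :=
  ∃ μ : Measure ℝ, IsSC μ ∧ ∀ β : ℝ, 0 < β → ∀ z : ℂ, 0 < z.im → ∀ t : ℝ, 0 ≤ t → t ≤ z.im ^ 2 / 2 →
    Tendsto (fun n => ∫ g, tiltPressure n β z t g ∂disorderLaw n) atTop
      (𝓝 (Vale.Agent.P166.Parisi.value (μ.map (tiltSpec z t)) β))

/-- The drop of the R-transform under the perturbation at `z = 2 + O(a²) + i O(a²)`. -/
def PerturbStatement : Prop :=
  ∃ c > (0 : ℝ), ∃ a₀ > (0 : ℝ), ∀ μ : Measure ℝ, IsSC μ →
    (∀ y : ℝ, 0 < y → Vale.Agent.P166.Parisi.rTrans μ y ≤ y ∧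
      (y ≤ 1 → Vale.Agent.P166.Parisi.rTrans μ y = y)) ∧
    ∀ a : ℝ, 0 < a → a ≤ a₀ →
      let w : ℂ := ⟨1 - 2 * a, -a⟩
      ∃ t₀ > (0 : ℝ), ∀ t : ℝ, 0 < t → t ≤ t₀ → ∀ y : ℝ, 0 < y →
        Vale.Agent.P166.Parisi.rTrans (μ.map (tiltSpec (w + w⁻¹) t)) y ≤
          Vale.Agent.P166.Parisi.rTrans μ y - if 1 - a ≤ y then t * (c / a ^ 2) else 0

end Vale.Agent.P146.Gap
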