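import Vale.Agent.P146.Gap.SC
import Vale.Agent.P166.Parisi.Final

/-!
Eigenvalue vectors whose Stieltjes transforms at finitely many points are close to the one of the
semicircle law, and whose entries are at most slightly above two in absolute value, have mean
pressures close to the variational value of the perturbed law.
-/

namespace Vale.Agent.P146.Gap

open MeasureTheory Filter Topology
open Vale.Agent.P166 (Admissible meanP)
open scoped BoundedContinuousFunction

noncomputable section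

/-- The test parameters `-i / (k + 4)`. -/
def testY (k : ℕ) : ℂ := -(((k : ℝ) + 4)⁻¹ : ℝ) * Complex.I

/-- The test points. -/
def testZ (k : ℕ) : ℂ := testY k + (testY k)⁻¹

lemma norm_testY (k : ℕ) : ‖testY k‖ = ((k : ℝ) + 4)⁻¹ := by
  rw [testY, norm_mul, norm_neg, Complex.norm_real, Complex.norm_I, mul_one, Real.norm_eq_abs,
    abs_of_pos (by positivity)]

lemma norm_testY_lt (k : ℕ) : ‖testY k‖ < 1 := by
  rw [norm_testY]
  exact inv_lt_one_of_one_lt₀ (by linarith [(Nat.cast_nonneg k : (0 : ℝ) ≤ k)])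

lemma testY_im (k : ℕ) : (testY k).im < 0 := by
  rw [testY, Complex.mul_im, Complex.neg_re, Complex.neg_im, Complex.ofReal_re, Complex.ofReal_im,
    Complex.I_re, Complex.I_im]
  have : (0 : ℝ) < ((k : ℝ) + 4)⁻¹ := by positivity
  linarith

lemma testZ_im (k : ℕ) : (testZ k).im = (k : ℝ) + 4 - ((k : ℝ) + 4)⁻¹ := by
  simp [testZ, testY, Complex.inv_im, Complex.normSq]
  field_simp
  ring

lemma testZ_im_ge (k : ℕ) : (k : ℝ) + 3 ≤ (testZ k).im := by
  rw [testZ_im]
  have : ((k : ℝ) + 4)⁻¹ ≤ 1 := inv_le_one_of_one_le₀ (by linarith [(Nat.cast_nonneg k : (0 : ℝ) ≤ k)])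
  linarith

/-- The Stieltjes transform of an eigenvalue vector. -/
def stj {n : ℕ} (lam : Fin n → ℝ) (z : ℂ) : ℂ := (∑ i, (z - (lam i : ℂ))⁻¹) / n

/-- Eigenvalue vectors close to the semicircle law at level `m`. -/
def NearSC (m n : ℕ) (lam : Fin n → ℝ) : Prop :=
  (∀ i, |lam i| ≤ 2 + 1 / ((m : ℝ) + 1)) ∧
    ∀ k < m, ‖stj lam (testZ k) - testY k‖ ≤ 1 / ((m : ℝ) + 1)

lemma NearSC.abs_le {m n : ℕ} {lam : Fin n → ℝ} (h : NearSC m n lam) (i : Fin n) :
    |lam i| ≤ 3 := by
  refine (h.1 i).trans ?_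
  have : 1 / ((m : ℝ) + 1) ≤ 1 :=
    (div_le_one (by positivity)).2 (by linarith [(Nat.cast_nonneg m : (0 : ℝ) ≤ m)])
  linarith

/-- One step of the expansion of the resolvent at infinity. -/
lemma expand {z : ℂ} (hz : z ≠ 0) {x : ℝ} (hx : z - (x : ℂ) ≠ 0) (p : ℕ) :
    z ^ (p + 1) * (z - (x : ℂ))⁻¹ =
      (∑ j ∈ Finset.range (p + 1), z ^ (p - j) * (x : ℂ) ^ j) + (x : ℂ) ^ (p + 1) * (z - x)⁻¹ := by
  have h := geom_sum₂_mul (x : ℂ) z (p + 1)
  simp only [Nat.add_sub_cancel] at h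
  field_simp
  rw [Finset.sum_congr rfl fun j _ => mul_comm (z ^ (p - j)) ((x : ℂ) ^ j)]
  linear_combination h

lemma muSC_ae : ∀ᵐ x ∂muSC, |x| ≤ 2 := by
  filter_upwards [Measure.support_mem_ae (μ := muSC)] with x hx
  exact abs_le.2 (muSC_support_subset hx)

lemma norm_inv_shift_le {z : ℂ} {R : ℝ} (hR : 0 < R) (hz : R ≤ z.im) (x : ℝ) :
    ‖(z - (x : ℂ))⁻¹‖ ≤ R⁻¹ := by
  rw [norm_inv]
  refine inv_anti₀ hR (hz.trans ?_)
  have h := Complex.abs_im_le_norm (z - (x : ℂ))
  simp only [Complex.sub_im, Complex.ofReal_im, sub_zero] at h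
  exact (le_abs_self _).trans h

lemma integrable_muSC {E : Type*} [NormedAddCommGroup E] {f : ℝ → E} (hf : Continuous f) :
    Integrable f muSC := by
  obtain ⟨C, hC⟩ := (isCompact_Icc (a := (-2 : ℝ)) (b := 2)).exists_bound_of_continuousOn
    hf.continuousOn
  exact Integrable.of_bound hf.aestronglyMeasurable C
    (muSC_ae.mono fun x hx => hC x (abs_le.1 hx))

section limits

variable {l : Filter ℕ} {lam : ∀ n, Fin n → ℝ} {m : ℕ → ℕ}

/-- The moments converge. -/
lemma tendsto_moment (hm : Tendsto m l atTop) (hnear : ∀ᶠ n in l, NearSC (m n) n (lam n)) (p : ℕ) :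
    Tendsto (fun n : ℕ => (∑ i, (lam n i : ℂ) ^ p) / n) l (𝓝 (∫ x, (x : ℂ) ^ p ∂muSC)) := by
  induction p using Nat.strong_induction_on with
  | _ p ih =>
  rw [Metric.tendsto_nhds]
  intro ε hε
  obtain ⟨k, hk⟩ := exists_nat_gt (4 * 3 ^ (p + 1) / ε)
  set z := testZ k
  have hR : (0 : ℝ) < (k : ℝ) + 3 := by positivity
  have hzi : (k : ℝ) + 3 ≤ z.im := testZ_im_ge k
  have hz0 : z ≠ 0 := fun h => by simp [h] at hzi; linarith
  have hzx : ∀ x : ℝ, z - (x : ℂ) ≠ 0 := fun x h => by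
    have := congrArg Complex.im h
    simp at this
    linarith
  have hrem : 2 * (3 ^ (p + 1) / ((k : ℝ) + 3)) < ε / 2 := by
    rw [div_lt_iff₀ hε] at hk
    rw [mul_div_assoc', div_lt_div_iff₀ hR two_pos]
    nlinarith
  -- the transform converges
  have hS : Tendsto (fun n => stj (lam n) z) l (𝓝 (testY k)) := by
    rw [tendsto_iff_norm_sub_tendsto_zero]
    refine squeeze_zero' (.of_forall fun _ => norm_nonneg _) ?_
      ((tendsto_one_div_add_atTop_nhds_zero_nat (𝕜 := ℝ)).comp hm)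
    filter_upwards [hnear, hm.eventually (eventually_gt_atTop k)] with n hn hmn
    exact hn.2 k hmn
  -- the lower moments
  set μj : ℕ → ℂ := fun j => ∫ x, (x : ℂ) ^ j ∂muSC
  have hlow : Tendsto (fun n : ℕ => z ^ (p + 1) * stj (lam n) z -
      ∑ j ∈ Finset.range p, z ^ (p - j) * ((∑ i, (lam n i : ℂ) ^ j) / n)) l
      (𝓝 (z ^ (p + 1) * testY k - ∑ j ∈ Finset.range p, z ^ (p - j) * μj j)) :=
    (hS.const_mul _).sub (tendsto_finsetSum _ fun j hj =>
      (ih j (Finset.mem_range.1 hj)).const_mul _)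
  -- the remainders are small
  have hb : ∀ x : ℝ, |x| ≤ 3 → ‖(x : ℂ) ^ (p + 1) * (z - x)⁻¹‖ ≤ 3 ^ (p + 1) / ((k : ℝ) + 3) := by
    intro x hx
    rw [norm_mul, norm_pow, Complex.norm_real, Real.norm_eq_abs, div_eq_mul_inv]
    exact mul_le_mul (pow_le_pow_left₀ (abs_nonneg x) hx _) (norm_inv_shift_le hR hzi x)
      (norm_nonneg _) (by positivity)
  have hμ : z ^ (p + 1) * testY k - ∑ j ∈ Finset.range p, z ^ (p - j) * μj j =
      μj p + ∫ x, (x : ℂ) ^ (p + 1) * (z - x)⁻¹ ∂muSC := by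
    have hy : ∫ x : ℝ, (z - (x : ℂ))⁻¹ ∂muSC = testY k :=
      muSC_stieltjes _ (norm_testY_lt k) (testY_im k)
    have hi : ∀ j, Integrable (fun x : ℝ => z ^ (p - j) * (x : ℂ) ^ j) muSC := fun j =>
      integrable_muSC (by fun_prop)
    have hi2 : Integrable (fun x : ℝ => (x : ℂ) ^ (p + 1) * (z - x)⁻¹) muSC :=
      integrable_muSC ((by fun_prop : Continuous fun x : ℝ => (x : ℂ) ^ (p + 1)).mul
        ((continuous_const.sub Complex.continuous_ofReal).inv₀ hzx))
    rw [← hy, ← integral_const_mul, integral_congr_ae (.of_forall fun x => expand hz0 (hzx x) p),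
      integral_add (integrable_finsetSum _ fun j _ => hi j) hi2,
      integral_finsetSum _ fun j _ => hi j, Finset.sum_range_succ]
    simp only [integral_const_mul, μj, Nat.sub_self, pow_zero, one_mul]
    ring
  have hμb : ‖∫ x, (x : ℂ) ^ (p + 1) * (z - x)⁻¹ ∂muSC‖ ≤ 3 ^ (p + 1) / ((k : ℝ) + 3) := by
    refine (norm_integral_le_of_norm_le_const (C := 3 ^ (p + 1) / ((k : ℝ) + 3)) ?_).trans
      (le_of_eq ?_)
    · exact muSC_ae.mono fun x hx => hb x (by linarith)
    · simp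
  filter_upwards [hnear, Metric.tendsto_nhds.1 hlow (ε / 2) (half_pos hε)] with n hn hlow
  have hemp : z ^ (p + 1) * stj (lam n) z -
      ∑ j ∈ Finset.range p, z ^ (p - j) * ((∑ i, (lam n i : ℂ) ^ j) / n) =
        (∑ i, (lam n i : ℂ) ^ p) / n + (∑ i, (lam n i : ℂ) ^ (p + 1) * (z - lam n i)⁻¹) / n := by
    simp only [stj, ← mul_div_assoc, Finset.mul_sum, expand hz0 (hzx _), Finset.sum_add_distrib]
    rw [Finset.sum_comm, Finset.sum_range_succ, add_div, add_div]
    simp only [Nat.sub_self, pow_zero, one_mul, Finset.sum_div]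
    ring
  have hnb : ‖(∑ i, (lam n i : ℂ) ^ (p + 1) * (z - lam n i)⁻¹) / n‖ ≤
      3 ^ (p + 1) / ((k : ℝ) + 3) := by
    rw [norm_div, Complex.norm_natCast]
    refine div_le_of_le_mul₀ (Nat.cast_nonneg n) (by positivity)
      ((norm_sum_le _ _).trans ((Finset.sum_le_sum fun i _ => hb _ (hn.abs_le i)).trans ?_))
    simp [mul_comm]
  rw [hemp, hμ, dist_eq_norm] at hlow
  rw [dist_eq_norm]
  set A := (∑ i, (lam n i : ℂ) ^ p) / n
  set B := (∑ i, (lam n i : ℂ) ^ (p + 1) * (z - lam n i)⁻¹) / n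
  set D := ∫ x, (x : ℂ) ^ (p + 1) * (z - x)⁻¹ ∂muSC
  calc ‖A - μj p‖ = ‖(A + B - (μj p + D)) - B + D‖ := by congr 1; ring
    _ ≤ ‖A + B - (μj p + D)‖ + ‖B‖ + ‖D‖ :=
        (norm_add_le _ _).trans (add_le_add (norm_sub_le _ _) le_rfl)
    _ < ε := by linarith

/-- Averages of continuous functions converge. -/
lemma tendsto_avg (hl : l ≤ atTop) (hm : Tendsto m l atTop)
    (hnear : ∀ᶠ n in l, NearSC (m n) n (lam n)) {f : ℝ → ℝ} (hf : Continuous f) :
    Tendsto (fun n : ℕ => (1 / (n : ℝ)) * ∑ i, f (lam n i)) l (𝓝 (∫ x, f x ∂muSC)) := by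
  rw [Metric.tendsto_nhds]
  intro ε hε
  obtain ⟨P, hP⟩ := exists_polynomial_near_of_continuousOn (-3) 3 f hf.continuousOn (ε / 4)
    (by positivity)
  have hmom : ∀ p : ℕ, Tendsto (fun n : ℕ => (1 / (n : ℝ)) * ∑ i, lam n i ^ p) l
      (𝓝 (∫ x, x ^ p ∂muSC)) := fun p => by
    have h := Complex.continuous_re.tendsto _ |>.comp (tendsto_moment hm hnear p)
    have e : (∫ x, (x : ℂ) ^ p ∂muSC).re = ∫ x, x ^ p ∂muSC := by
      rw [integral_congr_ae (.of_forall fun x => (Complex.ofReal_pow x p).symm)]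
      rw [integral_complex_ofReal, Complex.ofReal_re]
    rw [e] at h
    refine h.congr fun n => ?_
    simp only [Function.comp, Complex.div_natCast_re, Complex.re_sum, ← Complex.ofReal_pow,
      Complex.ofReal_re]
    rw [one_div_mul_eq_div]
  have hpoly : Tendsto (fun n : ℕ => (1 / (n : ℝ)) * ∑ i, P.eval (lam n i)) l
      (𝓝 (∫ x, P.eval x ∂muSC)) := by
    simp only [Polynomial.eval_eq_sum_range, Finset.mul_sum]
    rw [integral_finsetSum _ fun j _ => integrable_muSC (by fun_prop)]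
    refine (tendsto_finsetSum _ fun j _ => ?_).congr fun n => Finset.sum_comm
    rw [integral_const_mul]
    simp only [mul_left_comm (1 / ((_ : ℕ) : ℝ)) (P.coeff j), ← Finset.mul_sum]
    exact (hmom j).const_mul _
  have hint : |(∫ x, P.eval x ∂muSC) - ∫ x, f x ∂muSC| ≤ ε / 4 := by
    rw [← integral_sub (integrable_muSC P.continuous) (integrable_muSC hf), ← Real.norm_eq_abs]
    refine (norm_integral_le_of_norm_le_const ?_).trans (le_of_eq (by simp : ε / 4 * _ = ε / 4))
    exact muSC_ae.mono fun x hx => (hP x ⟨by linarith [(abs_le.1 hx).1],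
      by linarith [(abs_le.1 hx).2]⟩).le
  filter_upwards [hnear, Metric.tendsto_nhds.1 hpoly (ε / 4) (by positivity),
    hl (eventually_gt_atTop 0)] with n hn hp hn0
  have hn0' : (0 : ℝ) < n := Nat.cast_pos.2 hn0
  have hd : |(1 / (n : ℝ)) * ∑ i, P.eval (lam n i) - (1 / (n : ℝ)) * ∑ i, f (lam n i)| ≤
      ε / 4 := by
    rw [← mul_sub, ← Finset.sum_sub_distrib, abs_mul, abs_of_pos (by positivity),
      one_div_mul_eq_div, div_le_iff₀ hn0']
    refine (Finset.abs_sum_le_sum_abs _ _).trans ((Finset.sum_le_sum fun i _ =>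
      (hP _ (abs_le.1 (hn.abs_le i))).le).trans ?_)
    simp [mul_comm]
  rw [Real.dist_eq] at hp ⊢
  set A := (1 / (n : ℝ)) * ∑ i, P.eval (lam n i)
  rw [abs_lt] at hp ⊢
  rw [abs_le] at hd hint
  constructor <;> linarith

/-- The largest entry converges to `2`, also after negation. -/
lemma eventually_exists_gt (hl : l ≤ atTop) (hm : Tendsto m l atTop)
    (hnear : ∀ᶠ n in l, NearSC (m n) n (lam n)) {s a : ℝ} (hs : s = 1 ∨ s = -1) (ha : a < 2) :
    ∀ᶠ n in l, ∃ i, a < s * lam n i := by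
  set f : ℝ → ℝ := fun x => max 0 (s * x - a) with hfdef
  have hfc : Continuous f := by fun_prop
  have hmem : s * 2 ∈ muSC.support := by
    rcases hs with rfl | rfl
    · simpa using two_mem_support
    · simpa using neg_two_mem_support
  have hpos : 0 < ∫ x, f x ∂muSC := by
    rw [integral_pos_iff_support_of_nonneg (f := f) (fun x => le_max_left _ _)
      (integrable_muSC hfc)]
    refine lt_of_lt_of_le ?_ (measure_mono (s := {x | a < s * x}) fun x hx => ?_)
    · refine (Measure.mem_support_iff_forall _).1 hmem _ ?_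
      refine (isOpen_lt continuous_const (continuous_const.mul continuous_id)).mem_nhds ?_
      rcases hs with rfl | rfl <;> simp <;> linarith
    · simp only [Set.mem_ofPred_eq] at hx
      simp only [Function.mem_support, hfdef, ne_eq]
      intro h
      have := le_max_right 0 (s * x - a)
      linarith
  filter_upwards [(tendsto_avg hl hm hnear hfc).eventually (eventually_gt_nhds hpos)] with n hn
  by_contra hno
  push Not at hno
  have : ∀ i, f (lam n i) = 0 := fun i => max_eq_left (by linarith [hno i])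
  simp [this] at hn

lemma tendsto_extremes (hl : l ≤ atTop) (hm : Tendsto m l atTop)
    (hnear : ∀ᶠ n in l, NearSC (m n) n (lam n)) :
    Tendsto (fun n => ⨅ i, lam n i) l (𝓝 (-2)) ∧ Tendsto (fun n => ⨆ i, lam n i) l (𝓝 2) := by
  have hsmall : ∀ e : ℝ, 0 < e → ∀ᶠ n in l, ∀ i, |lam n i| < 2 + e := fun e he => by
    filter_upwards [hnear, ((tendsto_one_div_add_atTop_nhds_zero_nat (𝕜 := ℝ)).comp hm).eventually
      (eventually_lt_nhds he)] with n hn hn' i
    simp only [Function.comp] at hn'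
    linarith [hn.1 i]
  refine ⟨tendsto_order.2 ⟨fun a ha => ?_, fun a ha => ?_⟩,
    tendsto_order.2 ⟨fun a ha => ?_, fun a ha => ?_⟩⟩
  · filter_upwards [hsmall ((-2 - a) / 2) (by linarith), hl (eventually_gt_atTop 0)] with n hn hn0
    have : Nonempty (Fin n) := ⟨⟨0, hn0⟩⟩
    exact lt_of_lt_of_le (show a < -2 - (-2 - a) / 2 by linarith)
      (le_ciInf fun i => by linarith [(abs_lt.1 (hn i)).1])
  · filter_upwards [eventually_exists_gt hl hm hnear (a := -a) (.inr rfl) (by linarith)] with n hn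
    obtain ⟨i, hi⟩ := hn
    exact lt_of_le_of_lt (ciInf_le (Set.finite_range _).bddBelow i) (by linarith)
  · filter_upwards [eventually_exists_gt hl hm hnear (.inl rfl) ha] with n hn
    obtain ⟨i, hi⟩ := hn
    exact lt_of_lt_of_le (by linarith) (le_ciSup (Set.finite_range _).bddAbove i)
  · filter_upwards [hsmall ((a - 2) / 2) (by linarith), hl (eventually_gt_atTop 0)] with n hn hn0
    have : Nonempty (Fin n) := ⟨⟨0, hn0⟩⟩
    exact lt_of_le_of_lt (ciSup_le fun i => ((abs_lt.1 (hn i)).2).le) (by linarith)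

end limits

/-! ### The image under the perturbation -/

variable {z : ℂ} {t : ℝ}

lemma tiltSpec_continuous (hz : z.im ≠ 0) : Continuous (tiltSpec z t) := by
  refine continuous_id.add (continuous_const.mul (Complex.continuous_im.comp
    ((continuous_const.sub Complex.continuous_ofReal).inv₀ fun x h => hz ?_)))
  simpa using congrArg Complex.im h

lemma tiltSpec_strictMono (hz : 0 < z.im) (ht0 : 0 ≤ t) (ht : t ≤ z.im ^ 2 / 2) :
    StrictMono (tiltSpec z t) := by
  intro a b hab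
  have hne : ∀ x : ℝ, z - (x : ℂ) ≠ 0 := fun x h => hz.ne' (by simpa using congrArg Complex.im h)
  have h : |((z - (b : ℂ))⁻¹).im - ((z - (a : ℂ))⁻¹).im| ≤ (b - a) * (z.im⁻¹ * z.im⁻¹) := by
    rw [← Complex.sub_im]
    refine (Complex.abs_im_le_norm _).trans ?_
    rw [inv_sub_inv' (hne b) (hne a), norm_mul, norm_mul,
      show (z - (a : ℂ)) - (z - (b : ℂ)) = ((b - a : ℝ) : ℂ) by push_cast; ring, Complex.norm_real,
      Real.norm_eq_abs, abs_of_pos (sub_pos.2 hab)]
    calc _ ≤ z.im⁻¹ * (b - a) * z.im⁻¹ :=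
          mul_le_mul (mul_le_mul_of_nonneg_right (norm_inv_shift_le hz le_rfl b) (sub_pos.2 hab).le)
            (norm_inv_shift_le hz le_rfl a) (norm_nonneg _)
            (mul_nonneg (inv_nonneg.2 hz.le) (sub_pos.2 hab).le)
      _ = _ := by ring
  have h2 : t * ((b - a) * (z.im⁻¹ * z.im⁻¹)) ≤ (b - a) / 2 := by
    rw [show t * ((b - a) * (z.im⁻¹ * z.im⁻¹)) = (b - a) * (t / z.im ^ 2) by field_simp,
      show (b - a) / 2 = (b - a) * (1 / 2) by ring]
    refine mul_le_mul_of_nonneg_left ?_ (sub_pos.2 hab).le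
    rw [div_le_iff₀ (by positivity)]
    linarith
  have h3 : t * ((z - (a : ℂ))⁻¹).im - t * ((z - (b : ℂ))⁻¹).im ≤ (b - a) / 2 := by
    rw [← mul_sub]
    exact (mul_le_mul_of_nonneg_left (by linarith [(abs_le.1 h).1]) ht0).trans h2
  simp only [tiltSpec]
  linarith

lemma map_support_facts {f : ℝ → ℝ} (hc : Continuous f) (hf : Monotone f) :
    IsCompact (muSC.map f).support ∧ sInf (muSC.map f).support = f (-2) ∧
      sSup (muSC.map f).support = f 2 := by
  have hsub : (muSC.map f).support ⊆ Set.Icc (f (-2)) (f 2) := by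
    refine Measure.support_subset_of_isClosed isClosed_Icc
      ((ae_map_iff hc.aemeasurable measurableSet_Icc).2 (muSC_ae.mono fun x hx => ?_))
    exact ⟨hf (abs_le.1 hx).1, hf (abs_le.1 hx).2⟩
  have hmem : ∀ x ∈ muSC.support, f x ∈ (muSC.map f).support := fun x hx => by
    rw [Measure.mem_support_iff_forall] at hx ⊢
    intro U hU
    obtain ⟨V, hVU, hV, hxV⟩ := mem_nhds_iff.1 hU
    refine lt_of_lt_of_le ?_ (measure_mono hVU)
    rw [Measure.map_apply hc.measurable hV.measurableSet]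
    exact hx _ ((hV.preimage hc).mem_nhds hxV)
  exact ⟨isCompact_Icc.of_isClosed_subset Measure.isClosed_support hsub,
    IsLeast.csInf_eq ⟨hmem _ neg_two_mem_support, fun y hy => (hsub hy).1⟩,
    IsGreatest.csSup_eq ⟨hmem _ two_mem_support, fun y hy => (hsub hy).2⟩⟩

lemma admissible_map {Λ : ∀ n, Fin n → ℝ} (hΛ : Admissible muSC Λ) {f : ℝ → ℝ} (hc : Continuous f)
    (hf : Monotone f) : Admissible (muSC.map f) fun n i => f (Λ n i) := by
  obtain ⟨_, hinf, hsup⟩ := map_support_facts hc hf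
  refine ⟨fun g => ?_, ?_, ?_⟩
  · rw [integral_map hc.aemeasurable g.continuous.aestronglyMeasurable]
    exact hΛ.1 (g.compContinuous ⟨f, hc⟩)
  · rw [hinf]
    refine ((hc.tendsto _).comp (muSC_sInf ▸ hΛ.2.1)).congr' ?_
    filter_upwards [eventually_gt_atTop 0] with n hn
    have : Nonempty (Fin n) := ⟨⟨0, hn⟩⟩
    exact hf.map_ciInf_of_continuousAt hc.continuousAt (Set.finite_range _).bddBelow
  · rw [hsup]
    refine ((hc.tendsto _).comp (muSC_sSup ▸ hΛ.2.2)).congr' ?_
    filter_upwards [eventually_gt_atTop 0] with n hn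
    have : Nonempty (Fin n) := ⟨⟨0, hn⟩⟩
    exact hf.map_ciSup_of_continuousAt hc.continuousAt (Set.finite_range _).bddAbove

/-- Vectors near the semicircle law have mean pressures near the variational value. -/
theorem meanP_near (hz : 0 < z.im) (ht0 : 0 ≤ t) (ht : t ≤ z.im ^ 2 / 2) {β : ℝ} (hβ : 0 ≤ β)
    {ε : ℝ} (hε : 0 < ε) :
    ∃ m N : ℕ, ∀ n ≥ N, ∀ lam : Fin n → ℝ, NearSC m n lam →
      |meanP β (fun i => tiltSpec z t (lam i)) -
        Vale.Agent.P166.Parisi.value (muSC.map (tiltSpec z t)) β| ≤ ε := by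
  classical
  set L := Vale.Agent.P166.Parisi.value (muSC.map (tiltSpec z t)) β
  by_contra hcon
  push Not at hcon
  have hfreq : ∀ m, ∃ᶠ n in atTop, ∃ lam : Fin n → ℝ, NearSC m n lam ∧
      ε < |meanP β (fun i => tiltSpec z t (lam i)) - L| := fun m =>
    frequently_atTop.2 fun N => by
      obtain ⟨n, hn, h⟩ := hcon m N
      exact ⟨n, hn, h⟩
  obtain ⟨φ, hφ, hbad⟩ := extraction_forall_of_frequently hfreq
  choose lamj hnear hbig using hbad
  obtain ⟨Λ₀, hΛ₀⟩ := (Vale.Agent.P166.Parisi.parisi_formula muSC muSC_isCompact).1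
  set T := Set.range φ
  set m : ℕ → ℕ := fun n => Function.invFun φ n
  have hφm : ∀ j, m (φ j) = j := Function.leftInverse_invFun hφ.injective
  have hex : ∀ n, ∃ lam : Fin n → ℝ, (n ∉ T → lam = Λ₀ n) ∧ (n ∈ T → NearSC (m n) n lam ∧
      ε < |meanP β (fun i => tiltSpec z t (lam i)) - L|) := fun n => by
    by_cases h : n ∈ T
    · obtain ⟨j, rfl⟩ := h
      exact ⟨lamj j, fun h => absurd ⟨j, rfl⟩ h, fun _ => by rw [hφm]; exact ⟨hnear j, hbig j⟩⟩
    · exact ⟨Λ₀ n, fun _ => rfl, fun h' => absurd h' h⟩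
  choose Λ hout hin using hex
  have hmT : Tendsto m (atTop ⊓ 𝓟 T) atTop := by
    refine tendsto_atTop.2 fun M => eventually_inf_principal.2 ?_
    filter_upwards [eventually_ge_atTop (φ M)] with n hn hT
    obtain ⟨j, rfl⟩ := hT
    rw [hφm]
    exact hφ.le_iff_le.1 hn
  have hnT : ∀ᶠ n in atTop ⊓ 𝓟 T, NearSC (m n) n (Λ n) :=
    eventually_inf_principal.2 (.of_forall fun n hn => (hin n hn).1)
  have hcomb : ∀ {F : ∀ n, (Fin n → ℝ) → ℝ} {c : ℝ}, Tendsto (fun n => F n (Λ₀ n)) atTop (𝓝 c) →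
      Tendsto (fun n => F n (Λ n)) (atTop ⊓ 𝓟 T) (𝓝 c) →
      Tendsto (fun n => F n (Λ n)) atTop (𝓝 c) := fun {F c} h0 hT => by
    rw [← inf_top_eq (atTop : Filter ℕ), ← principal_univ, ← Set.union_compl_self T,
      ← sup_principal, inf_sup_left, tendsto_sup]
    refine ⟨hT, (h0.mono_left inf_le_left).congr' ?_⟩
    exact eventually_inf_principal.2 (.of_forall fun n hn => (congrArg (F n) (hout n hn)).symm)
  have hadm : Admissible muSC Λ := by
    refine ⟨fun f => hcomb (F := fun n v => (1 / (n : ℝ)) * ∑ i, f (v i)) (hΛ₀.1 f) (tendsto_avg inf_le_left hmT hnT f.continuous),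
      hcomb (F := fun n v => ⨅ i, v i) hΛ₀.2.1 ?_, hcomb (F := fun n v => ⨆ i, v i) hΛ₀.2.2 ?_⟩
    · rw [muSC_sInf]; exact (tendsto_extremes inf_le_left hmT hnT).1
    · rw [muSC_sSup]; exact (tendsto_extremes inf_le_left hmT hnT).2
  have hmono := (tiltSpec_strictMono hz ht0 ht).monotone
  have hc := tiltSpec_continuous (t := t) hz.ne'
  have : IsProbabilityMeasure (muSC.map (tiltSpec z t)) :=
    Measure.isProbabilityMeasure_map hc.aemeasurable
  have hlim := ((Vale.Agent.P166.Parisi.parisi_formula _ (map_support_facts hc hmono).1).2 β hβ _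
    (admissible_map hadm hc hmono)).1
  obtain ⟨j, hj⟩ := (Metric.tendsto_nhds.1 (hlim.comp hφ.tendsto_atTop) ε hε).exists
  have h := (hin (φ j) ⟨j, rfl⟩).2
  rw [Function.comp_apply, Real.dist_eq] at hj
  linarith

end

end Vale.Agent.P146.Gap
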