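import Vale.Agent.P146.Gap.Convex

/-!
The free energy of one level as a function of its exponent.
-/

namespace Vale.Agent.P146.Gap

open MeasureTheory ProbabilityTheory Real Filter Topology

/-- The tilted integral. -/
noncomputable def Zt (V f : ℝ → ℝ) (ξ : ℝ) : ℝ := ∫ z, f z * exp (ξ * V z) ∂(gaussianReal 0 1)

variable {V f : ℝ → ℝ} {S ξ : ℝ}

lemma gr_exp_tilt (hV : Continuous V) (hb : ∀ z, |V z| ≤ S * |z|) (ξ : ℝ) :
    Gr fun z => exp (ξ * V z) := by
  refine ⟨by fun_prop, 1, |ξ| * S, fun z => ?_⟩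
  rw [abs_exp, one_mul, exp_le_exp, mul_assoc]
  exact (le_abs_self _).trans ((abs_mul _ _).le.trans
    (mul_le_mul_of_nonneg_left (hb z) (abs_nonneg ξ)))

lemma gr_lin (hV : Continuous V) (hb : ∀ z, |V z| ≤ S * |z|) : Gr V := by
  refine ⟨hV, |S|, 1, fun z => (hb z).trans ?_⟩
  rw [one_mul]
  exact mul_le_mul (le_abs_self S) (by linarith [add_one_le_exp |z|]) (abs_nonneg z) (abs_nonneg S)

lemma hasDerivAt_Zt (hV : Continuous V) (hb : ∀ z, |V z| ≤ S * |z|) (hf : Gr f) (ξ : ℝ) :
    HasDerivAt (Zt V f) (Zt V (fun z => f z * V z) ξ) ξ := by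
  have hg := hf.mul (gr_lin hV hb)
  obtain ⟨hgc, C, k, hC⟩ := hg
  refine (hasDerivAt_integral_of_dominated_loc_of_deriv_le (𝕜 := ℝ) (μ := (gaussianReal 0 1))
    (F := fun u z => f z * exp (u * V z)) (F' := fun u z => f z * V z * exp (u * V z))
    (bound := fun z => C * exp ((k + (|ξ| + 1) * S) * |z|)) (Metric.ball_mem_nhds ξ one_pos)
    (.of_forall fun u => ((hf.mul (gr_exp_tilt hV hb u)).1).aestronglyMeasurable)
    (hf.mul (gr_exp_tilt hV hb ξ)).integrable
    (((hf.mul (gr_lin hV hb)).mul (gr_exp_tilt hV hb ξ)).1).aestronglyMeasurable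
    (.of_forall fun z u hu => ?_) ((integrable_exp_abs _).const_mul C)
    (.of_forall fun z u _ => ?_)).2
  · rw [Metric.mem_ball, Real.dist_eq] at hu
    rw [norm_eq_abs, abs_mul, abs_exp, add_mul, exp_add, ← mul_assoc C, mul_assoc (|ξ| + 1)]
    refine mul_le_mul (hC z) (exp_le_exp.2 ((le_abs_self _).trans ((abs_mul _ _).le.trans
      (mul_le_mul ?_ (hb z) (abs_nonneg _) (by positivity))))) (exp_pos _).le
      ((abs_nonneg _).trans (hC z))
    linarith [abs_sub_abs_le_abs_sub u ξ]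
  · exact (((hasDerivAt_id u).mul_const (V z)).exp.const_mul (f z)).congr_deriv (by simp; ring)

lemma Zt_one_pos (hV : Continuous V) (hb : ∀ z, |V z| ≤ S * |z|) (ξ : ℝ) :
    0 < Zt V (fun _ => 1) ξ := by
  simp only [Zt, one_mul]
  exact integral_exp_pos (gr_exp_tilt hV hb ξ).integrable

/-- The constant of `ratio_lip`. -/
noncomputable def tiltConst (S : ℝ) : ℝ :=
  6 * (∫ z, exp ((1 + S) * |z|) ∂(gaussianReal 0 1)) / ∫ z, exp (-S * |z|) ∂(gaussianReal 0 1)

lemma abs_ratio_le (hV : Continuous V) (hS : 0 ≤ S) (hb : ∀ z, |V z| ≤ S * |z|) {g : ℝ → ℝ}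
    (hg : Gr g) {A : ℝ} {j : ℕ} (hj : j ≤ 3) (hgb : ∀ z, |g z| ≤ A * |z| ^ j)
    (h0 : 0 ≤ ξ) (h1 : ξ ≤ 1) : |Zt V g ξ / Zt V (fun _ => 1) ξ| ≤ A * tiltConst S := by
  have hA : 0 ≤ A := by simpa using (abs_nonneg _).trans (hgb 1)
  have hv : ∀ z, |ξ * V z| ≤ S * |z| := fun z => by
    rw [abs_mul, abs_of_nonneg h0]
    exact (mul_le_of_le_one_left (abs_nonneg _) h1).trans (hb z)
  have hnum : |Zt V g ξ| ≤ A * (6 * ∫ z, exp ((1 + S) * |z|) ∂(gaussianReal 0 1)) := by
    rw [← integral_const_mul, ← integral_const_mul]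
    refine abs_integral_le_integral_abs.trans (integral_mono (hg.mul (gr_exp_tilt hV hb ξ)).integrable.abs
      (((integrable_exp_abs _).const_mul _).const_mul _) fun z => ?_)
    simp only
    rw [abs_mul, abs_exp, add_mul, exp_add, one_mul]
    calc |g z| * exp (ξ * V z) ≤ (A * (6 * exp |z|)) * exp (S * |z|) := by
          refine mul_le_mul ((hgb z).trans (mul_le_mul_of_nonneg_left ?_ hA))
            (exp_le_exp.2 ((le_abs_self _).trans (hv z))) (exp_pos _).le (by positivity)
          refine (abs_pow_le_exp j z).trans (mul_le_mul_of_nonneg_right ?_ (exp_pos _).le)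
          exact_mod_cast (Nat.factorial_le hj).trans_eq (by rfl)
      _ = _ := by ring
  have hden : ∫ z, exp (-S * |z|) ∂(gaussianReal 0 1) ≤ Zt V (fun _ => 1) ξ := by
    refine integral_mono (integrable_exp_abs _) ((gr_const 1).mul (gr_exp_tilt hV hb ξ)).integrable
      fun z => ?_
    rw [one_mul, exp_le_exp, neg_mul]
    linarith [(abs_le.1 (hv z)).1]
  have hp : 0 < ∫ z, exp (-S * |z|) ∂(gaussianReal 0 1) := integral_exp_pos (integrable_exp_abs _)
  rw [abs_div, abs_of_pos (Zt_one_pos hV hb ξ), tiltConst, mul_div_assoc']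
  exact div_le_div₀ (mul_nonneg hA (mul_nonneg (by norm_num)
    (integral_nonneg fun _ => (exp_pos _).le))) hnum hp hden

lemma tiltConst_nonneg (S : ℝ) : 0 ≤ tiltConst S :=
  div_nonneg (mul_nonneg (by norm_num) (integral_nonneg fun _ => (exp_pos _).le))
    (integral_nonneg fun _ => (exp_pos _).le)

/-- Tilted averages are Lipschitz in the exponent. -/
lemma ratio_lip (hV : Continuous V) (hS : 0 ≤ S) (hb : ∀ z, |V z| ≤ S * |z|) (hf : Gr f)
    (hfb : ∀ z, |f z| ≤ |z| ^ 2) {a c : ℝ} (ha : 0 ≤ a) (hac : a ≤ c) (hc : c ≤ 1) :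
    |Zt V f c / Zt V (fun _ => 1) c - Zt V f a / Zt V (fun _ => 1) a| ≤
      S * (tiltConst S + tiltConst S ^ 2) * (c - a) := by
  set Z := Zt V fun _ => 1
  have hd : ∀ u ∈ Set.Icc a c, HasDerivWithinAt (fun u => Zt V f u / Z u)
      (Zt V (fun z => f z * V z) u / Z u - Zt V f u / Z u * (Zt V (fun z => 1 * V z) u / Z u))
      (Set.Icc a c) u := fun u _ =>
    (((hasDerivAt_Zt hV hb hf u).div (hasDerivAt_Zt hV hb (gr_const 1) u)
      (Zt_one_pos hV hb u).ne').congr_deriv (by
        have := (Zt_one_pos hV hb u).ne'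
        simp only [Z]
        field_simp)).hasDerivWithinAt
  have h := Convex.norm_image_sub_le_of_norm_hasDerivWithin_le hd
    (C := S * (tiltConst S + tiltConst S ^ 2)) (fun u hu => ?_) (convex_Icc a c)
    (Set.left_mem_Icc.2 hac) (Set.right_mem_Icc.2 hac)
  · simpa [norm_eq_abs, abs_of_nonneg (sub_nonneg.2 hac)] using h
  · have u0 := ha.trans hu.1
    have u1 := hu.2.trans hc
    have e1 := abs_ratio_le hV hS hb (hf.mul (gr_lin hV hb)) (A := S) (j := 3) le_rfl
      (fun z => by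
        rw [abs_mul, pow_succ, mul_left_comm]
        exact mul_le_mul (hfb z) (hb z) (abs_nonneg _) (by positivity)) u0 u1
    have e2 := abs_ratio_le hV hS hb hf (A := 1) (j := 2) (by norm_num)
      (fun z => by simpa using hfb z) u0 u1
    have e3 := abs_ratio_le hV hS hb ((gr_const 1).mul (gr_lin hV hb)) (A := S) (j := 1)
      (by norm_num) (fun z => by simpa using hb z) u0 u1
    rw [norm_eq_abs]
    refine (abs_sub _ _).trans ?_
    rw [abs_mul]
    have := mul_le_mul e2 e3 (abs_nonneg _) (by simpa using tiltConst_nonneg S)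
    linarith

/-- The free energy of one level, up to the value at the centre. -/
noncomputable def Tl (U : ℝ → ℝ) (b ξ : ℝ) : ℝ :=
  ξ⁻¹ * log (∫ z, exp (ξ * U (√b * z)) ∂(gaussianReal 0 1))

/-- The tilted second derivative at the centre. -/
noncomputable def G1 (U : ℝ → ℝ) (b ξ : ℝ) : ℝ :=
  (∫ z, z * deriv U (√b * z) * exp (ξ * U (√b * z)) ∂(gaussianReal 0 1)) /
    (√b * ∫ z, exp (ξ * U (√b * z)) ∂(gaussianReal 0 1))

/-- The tilted mean squared slope at the end of the level. -/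
noncomputable def F1 (U : ℝ → ℝ) (b ξ : ℝ) : ℝ :=
  (∫ z, deriv U (√b * z) ^ 2 * exp (ξ * U (√b * z)) ∂(gaussianReal 0 1)) / ∫ z, exp (ξ * U (√b * z)) ∂(gaussianReal 0 1)

variable {U : ℝ → ℝ} {x b : ℝ}

/-- The entropy density along the level. -/
noncomputable def Ph (U : ℝ → ℝ) (x b t : ℝ) : ℝ :=
  ∫ z, H U x 0 √(b - t) (√t * z) * log (H U x 0 √(b - t) (√t * z)) ∂(gaussianReal 0 1)

lemma abs_log_H_le (hU : Lip1 U) (hx : 0 ≤ x) (S : ℝ) :
    ∃ M, ∀ s, |s| ≤ S → ∀ y, |log (H U x 0 s y)| ≤ M * exp |y| := by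
  set P := ∫ z, exp (x * S * |z|) ∂(gaussianReal 0 1)
  set Q := ∫ z, exp (-(x * S) * |z|) ∂(gaussianReal 0 1)
  refine ⟨x * |U 0| + x + |log P| + |log Q|, fun s hs y => ?_⟩
  have hP : 0 < P := integral_exp_pos (integrable_exp_abs _)
  have hQ : 0 < Q := integral_exp_pos (integrable_exp_abs _)
  have hH := H_zero_pos hU hx s y
  have hi := integrable_H hU hx 0 s y
  have h1 : H U x 0 s y ≤ exp (x * U y) * P := by
    rw [← integral_const_mul]
    refine integral_mono hi ((integrable_exp_abs _).const_mul _) fun z => ?_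
    rw [pow_zero, one_mul]
    exact (tilt_le hU hx s y z).trans (mul_le_mul_of_nonneg_left (exp_le_exp.2
      (mul_le_mul_of_nonneg_right (mul_le_mul_of_nonneg_left hs hx) (abs_nonneg z))) (exp_pos _).le)
  have h2 : exp (x * U y) * Q ≤ H U x 0 s y := by
    rw [← integral_const_mul]
    refine integral_mono ((integrable_exp_abs _).const_mul _) hi fun z => ?_
    rw [pow_zero, one_mul]
    exact (mul_le_mul_of_nonneg_left (exp_le_exp.2 (mul_le_mul_of_nonneg_right (neg_le_neg
      (mul_le_mul_of_nonneg_left hs hx)) (abs_nonneg z))) (exp_pos _).le).trans (tilt_ge hU hx s y z)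
  have l1 := log_le_log hH h1
  have l2 := log_le_log (mul_pos (exp_pos _) hQ) h2
  rw [log_mul (exp_pos _).ne' hP.ne', log_exp] at l1
  rw [log_mul (exp_pos _).ne' hQ.ne', log_exp] at l2
  have hU' : |x * U y| ≤ x * |U 0| + x * |y| := by
    rw [abs_mul, abs_of_nonneg hx, ← mul_add]
    refine mul_le_mul_of_nonneg_left ?_ hx
    have := hU.lip y 0
    rw [sub_zero] at this
    linarith [abs_sub_abs_le_abs_sub (U y) (U 0)]
  have he := one_le_exp (abs_nonneg y)
  have h3 : x * |U 0| + |log P| + |log Q| ≤ (x * |U 0| + |log P| + |log Q|) * exp |y| :=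
    le_mul_of_one_le_right (by positivity) he
  have h4 : x * |y| ≤ x * exp |y| :=
    mul_le_mul_of_nonneg_left (by linarith [add_one_le_exp |y|]) hx
  rw [abs_le]
  constructor <;>
    linarith [abs_le.1 hU', le_abs_self (log P), neg_abs_le (log Q), abs_nonneg (log P),
      abs_nonneg (log Q)]

lemma gd_log_H (hU : Lip1 U) (hx : 0 ≤ x) : Gd fun s y => log (H U x 0 s y) := by
  refine ⟨((continuous_H hU hx 0).log fun q => (H_zero_pos hU hx q.1 q.2).ne').continuousOn,
    fun s₀ S h => ?_⟩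
  obtain ⟨M, hM⟩ := abs_log_H_le hU hx S
  exact ⟨M, 1, zero_le_one, fun s h1 h2 y => by
    rw [one_mul]; exact hM s (by rwa [abs_of_pos (h.trans_le h1)]) y⟩

lemma hasDerivAt_Ph (hU : Lip1 U) (hx : 0 ≤ x) {t : ℝ} (h0 : 0 < t) (ht : t < b) :
    HasDerivAt (Ph U x b) (Fu U x b t / 2) t := by
  have d1 := Bd.d1 hU hx
  have d2 := Bd.d2 hU hx
  have h := hasDerivAt_Lam hU hx (p := fun s y => log (H U x 0 s y))
    (a := fun s y => D2 U x s y + D1 U x s y ^ 2) (p' := D1 U x) (c := D2 U x) (gd_log_H hU hx)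
    (d2.add (d1.pow 2)).gd d1.gd d2.gd
    (fun f g f' g' u hf hg hs => ((hasDerivAt_H0 hU hx hf hg hs).log
      (H_zero_pos hU hx _ _).ne').congr_deriv (mul_div_cancel_left₀ _ (H_zero_pos hU hx _ _).ne'))
    (fun s y hs => (hasDerivAt_D1 hU hx (hasDerivAt_const y s) (hasDerivAt_id' y)
      hs.ne').congr_deriv (by ring)) h0 ht
  refine h.congr_deriv ?_
  rw [Fu_eq hU hx ht, Lam, Lam, ← integral_div]
  exact integral_congr_ae (.of_forall fun z => by ring)

lemma continuousOn_Ph (hU : Lip1 U) (hx : 0 ≤ x) : ContinuousOn (Ph U x b) (Set.Icc 0 b) := by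
  obtain ⟨M, hM⟩ := abs_log_H_le hU hx √b
  set K := exp (x * |U 0|) * ∫ z, exp (x * √b * |z|) ∂(gaussianReal 0 1)
  have hK : 0 ≤ K := mul_nonneg (exp_pos _).le (integral_nonneg fun _ => (exp_pos _).le)
  have hcont : Continuous fun q : ℝ × ℝ => H U x 0 q.1 q.2 * log (H U x 0 q.1 q.2) :=
    (continuous_H hU hx 0).mul
      ((continuous_H hU hx 0).log fun q => (H_zero_pos hU hx q.1 q.2).ne')
  refine continuousOn_of_dominated (bound := fun z => K * M * exp ((x + 1) * √b * |z|))
    (fun t _ => Continuous.aestronglyMeasurable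
      (hcont.comp (f := fun z => (√(b - t), √t * z)) (by fun_prop)))
    (fun t ht => .of_forall fun z => ?_) ((integrable_exp_abs _).const_mul _)
    (.of_forall fun z => (hcont.comp (f := fun t => (√(b - t), √t * z)) (by fun_prop)).continuousOn)
  have hs : |√(b - t)| ≤ √b := by
    rw [abs_of_nonneg (Real.sqrt_nonneg _)]; exact Real.sqrt_le_sqrt (by linarith [ht.1])
  have hy : |√t * z| ≤ √b * |z| := by
    rw [abs_mul, abs_of_nonneg (Real.sqrt_nonneg _)]
    exact mul_le_mul_of_nonneg_right (Real.sqrt_le_sqrt ht.2) (abs_nonneg z)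
  have h1 := hM _ hs (√t * z)
  rw [norm_eq_abs, abs_mul, abs_of_pos (H_zero_pos hU hx _ _), add_mul, add_mul, exp_add, one_mul,
    show ∀ a c d e : ℝ, a * c * (d * e) = (a * d) * (c * e) from fun _ _ _ _ => by ring]
  refine mul_le_mul ((H0_le hU hx hs _).trans (mul_le_mul_of_nonneg_left (exp_le_exp.2 ?_) hK))
    (h1.trans (mul_le_mul_of_nonneg_left (exp_le_exp.2 hy) ?_)) (abs_nonneg _)
    (mul_nonneg hK (exp_pos _).le)
  · rw [mul_assoc]; exact mul_le_mul_of_nonneg_left hy hx
  · exact nonneg_of_mul_nonneg_left ((abs_nonneg _).trans h1) (exp_pos _)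

lemma integral_Fu_eq (hU : Lip1 U) (hc : Continuous (deriv U)) (hx : 0 ≤ x) (hb : 0 < b) :
    ∫ t in (0:ℝ)..b, Fu U x b t = 2 * (Ph U x b b - Ph U x b 0) := by
  have h := intervalIntegral.integral_eq_sub_of_hasDerivAt_of_le hb.le (continuousOn_Ph hU hx)
    (fun t ht => hasDerivAt_Ph hU hx ht.1 ht.2)
    (((continuousOn_Fu hU hc hx).intervalIntegrable_of_Icc hb.le).div_const 2)
  rw [intervalIntegral.integral_div] at h
  linarith

/-- A drop of the exponent gains at most the convexity bound. -/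
theorem Tl_sub_le (hU : Prof U) (hc : Continuous (deriv U)) (hlin : ∀ v, |deriv U v| ≤ |v|)
    (hx : 0 < x) {w : ℝ} (hw : 0 < w) (hxw : x + w ≤ 1) (hb : 0 < b) {B : ℝ} (hbB : b ≤ B) :
    Tl U b (x + w) - Tl U b x ≤ w * b ^ 2 / 2 *
      (G1 U b x ^ 2 / 6 + F1 U b x / b / 3 +
        √B * (tiltConst √B + tiltConst √B ^ 2) * (tiltConst √B + 1) * w) := by
  have hL := hU.toLip1
  set S := √B
  have hS : 0 ≤ S := Real.sqrt_nonneg _
  have hq : 0 < √b := Real.sqrt_pos.2 hb
  set V := fun z => U (√b * z) - U 0 with hV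
  have hVc : Continuous V := by have := hL.diff.continuous; fun_prop
  have hVb : ∀ z, |V z| ≤ S * |z| := fun z => by
    refine (hL.lip _ _).trans ?_
    rw [sub_zero, abs_mul, abs_of_pos hq]
    exact mul_le_mul_of_nonneg_right (Real.sqrt_le_sqrt hbB) (abs_nonneg z)
  set Z := Zt V fun _ => 1 with hZd
  have hZ := fun u => Zt_one_pos hVc hVb u
  have he : ∀ u z, exp (u * U (√b * z)) = exp (u * U 0) * exp (u * V z) := fun u z => by
    rw [← exp_add]; congr 1; simp only [hV]; ring
  have hI : ∀ u (f : ℝ → ℝ), ∫ z, f z * exp (u * U (√b * z)) ∂(gaussianReal 0 1) = exp (u * U 0) * Zt V f u :=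
    fun u f => by
      rw [Zt, ← integral_const_mul]
      exact integral_congr_ae (.of_forall fun z => by simp only [he]; ring)
  have hI1 : ∀ u, ∫ z, exp (u * U (√b * z)) ∂(gaussianReal 0 1) = exp (u * U 0) * Z u := fun u => by
    simpa using hI u fun _ => 1
  set g := fun z => z * deriv U (√b * z) / √b with hg
  set f := fun z => deriv U (√b * z) ^ 2 / b with hf
  have gd : Gr fun z => deriv U (√b * z) := gr_bdd (by fun_prop) fun z => hL.slope _
  have gg : Gr g := by simpa [hg, div_eq_mul_inv] using (gr_id.mul gd).mul (gr_const _)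
  have gf : Gr f := by simpa [hf, div_eq_mul_inv] using (gd.pow 2).mul (gr_const _)
  have hgb : ∀ z, |g z| ≤ |z| ^ 2 := fun z => by
    simp only [hg]
    rw [abs_div, abs_mul, abs_of_pos hq, div_le_iff₀ hq, sq, mul_assoc]
    refine mul_le_mul_of_nonneg_left ((hlin _).trans ?_) (abs_nonneg z)
    rw [abs_mul, abs_of_pos hq, mul_comm]
  have hfb : ∀ z, |f z| ≤ |z| ^ 2 := fun z => by
    simp only [hf]
    rw [abs_div, abs_pow, abs_of_pos hb, div_le_iff₀ hb]
    refine (pow_le_pow_left₀ (abs_nonneg _) (hlin _) 2).trans_eq ?_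
    rw [abs_mul, abs_of_pos hq, mul_pow, Real.sq_sqrt hb.le, mul_comm]
  have hG1 : ∀ u, G1 U b u = Zt V g u / Z u := fun u => by
    have := hZ u
    have := hq.ne'
    rw [G1, hI u fun z => z * deriv U (√b * z), hI1]
    simp only [Zt, hg, div_mul_eq_mul_div, integral_div]
    rw [mul_left_comm √b, mul_div_mul_left _ _ (exp_pos _).ne', div_div]
  have hF1 : ∀ u, F1 U b u / b = Zt V f u / Z u := fun u => by
    have := hZ u
    rw [F1, hI u fun z => deriv U (√b * z) ^ 2, hI1]
    simp only [Zt, hf, div_mul_eq_mul_div, integral_div]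
    field_simp
  have hT : ∀ u, Tl U b u = u⁻¹ * (u * U 0 + log (Z u)) := fun u => by
    rw [Tl, hI1, log_mul (exp_pos _).ne' (hZ u).ne', log_exp]
  set T' := fun u => (u * (Zt V (fun z => 1 * V z) u / Z u) - log (Z u)) / u ^ 2
  have hTd : ∀ u, 0 < u → HasDerivAt (Tl U b) (T' u) u := fun u hu => by
    have h := (hasDerivAt_inv hu.ne').mul (((hasDerivAt_id u).mul_const (U 0)).add
      ((hasDerivAt_Zt hVc hVb (gr_const 1) u).log (hZ u).ne'))
    refine (h.congr_deriv ?_).congr_of_eventuallyEq (.of_forall hT)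
    simp only [T', hZd, id_eq, Pi.add_apply]
    have := hZ u
    field_simp
    ring
  obtain ⟨u, hu, hu'⟩ := exists_hasDerivAt_eq_slope (Tl U b) T' (by linarith : x < x + w)
    (fun v hv => (hTd v (hx.trans_le hv.1)).continuousAt.continuousWithinAt)
    fun v hv => hTd v (hx.trans hv.1)
  have hu0 : 0 < u := hx.trans hu.1
  have hu1 : u ≤ 1 := hu.2.le.trans hxw
  rw [add_sub_cancel_left, eq_div_iff hw.ne'] at hu'
  rw [← hu', mul_comm]
  -- the derivative is the integrated mean squared slope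
  have hH0 : H U u 0 √b 0 = exp (u * U 0) * Z u := by
    simp only [H, pow_zero, one_mul, zero_add]; exact hI1 u
  have hP0 : Ph U u b 0 = exp (u * U 0) * Z u * (u * U 0 + log (Z u)) := by
    rw [show Ph U u b 0 = H U u 0 √b 0 * log (H U u 0 √b 0) by simp [Ph], hH0,
      log_mul (exp_pos _).ne' (hZ u).ne', log_exp]
  have hH1 : ∀ y, H U u 0 0 y = exp (u * U y) := fun y => by simp [H]
  have hPb : Ph U u b b = exp (u * U 0) * (u * Zt V (fun z => 1 * V z) u + u * U 0 * Z u) := by
    rw [show Ph U u b b = ∫ z, exp (u * U (√b * z)) * (u * U (√b * z)) ∂(gaussianReal 0 1) by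
      simp [Ph, hH1]]
    rw [hZd]
    simp only [Zt]
    rw [← integral_const_mul, ← integral_const_mul, ← integral_add
      ((((gr_const 1).mul (gr_lin hVc hVb)).mul (gr_exp_tilt hVc hVb u)).integrable.const_mul _)
      (((gr_const 1).mul (gr_exp_tilt hVc hVb u)).integrable.const_mul _), ← integral_const_mul]
    refine integral_congr_ae (.of_forall fun z => ?_)
    simp only [he, hV]
    ring
  have hint := integral_Fu_le hU hc hu0.le hb
  rw [integral_Fu_eq hL hc hu0.le hb, hP0, hPb, hH0] at hint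
  have hD2 : D2 U u √b 0 = u * G1 U b u := by
    have h1 : H U u 1 √b 0 = 0 := by
      have := H_neg (x := u) hU 1 √b 0
      rw [neg_zero, pow_one] at this
      linarith
    have h2 := mul_Hd hL hu0.le 1 √b 0
    simp only [Nat.reduceAdd, Nat.cast_one, one_mul, Nat.sub_self] at h2
    have h3 : Hd U u 1 √b 0 =
        u * ∫ z, z * deriv U (√b * z) * exp (u * U (√b * z)) ∂(gaussianReal 0 1) := by
      simp only [Hd, pow_one, zero_add, ← integral_const_mul]
      exact integral_congr_ae (.of_forall fun z => by ring)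
    have h4 : H U u 0 √b 0 = ∫ z, exp (u * U (√b * z)) ∂(gaussianReal 0 1) := by simp [H]
    have := H_zero_pos hL hu0.le √b 0
    rw [G1, ← h4, mul_div_assoc', ← h3, D2, Mo, Mo, h1, show H U u 2 √b 0 =
      √b * Hd U u 1 √b 0 + H U u 0 √b 0 by linarith]
    field_simp
    ring
  have hFb : Fu U u b b / b = u ^ 2 * exp (u * U 0) * Z u * (F1 U b u / b) := by
    have h2 : F1 U b u * (exp (u * U 0) * Z u) =
        ∫ z, deriv U (√b * z) ^ 2 * exp (u * U (√b * z)) ∂(gaussianReal 0 1) := by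
      rw [← hI1, F1, div_mul_cancel₀]
      rw [hI1]
      exact (mul_pos (exp_pos _) (hZ u)).ne'
    rw [show u ^ 2 * exp (u * U 0) * Z u * (F1 U b u / b) =
      u ^ 2 * (F1 U b u * (exp (u * U 0) * Z u)) / b by ring, h2, ← integral_const_mul]
    congr 1
    refine integral_congr_ae (.of_forall fun z => ?_)
    have := (exp_pos (u * U (√b * z))).ne'
    simp only [sub_self, Real.sqrt_zero, Hd, H, zero_mul, add_zero, pow_zero, one_mul,
      integral_const, probReal_univ, one_smul]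
    field_simp
  rw [hD2, hFb] at hint
  have key : T' u ≤ b ^ 2 / 2 * (G1 U b u ^ 2 / 6 + F1 U b u / b / 3) := by
    simp only [T']
    have := hZ u
    rw [div_le_iff₀ (pow_pos hu0 2)]
    refine le_of_mul_le_mul_left ?_ (mul_pos two_pos (mul_pos (exp_pos (u * U 0)) (hZ u)))
    refine le_of_eq_of_le ?_ (hint.trans_eq (by ring))
    simp only [hZd]
    field_simp
    ring
  refine (mul_le_mul_of_nonneg_left key hw.le).trans ?_
  rw [← mul_assoc, ← mul_div_assoc]
  refine mul_le_mul_of_nonneg_left ?_ (by positivity)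
  set C := S * (tiltConst S + tiltConst S ^ 2)
  have hC : 0 ≤ C := by have := tiltConst_nonneg S; positivity
  have hlg := ratio_lip hVc hS hVb gg hgb hx.le hu.1.le hu1
  have hlf := ratio_lip hVc hS hVb gf hfb hx.le hu.1.le hu1
  have bnd : ∀ v, 0 ≤ v → v ≤ 1 → |G1 U b v| ≤ tiltConst S := fun v v0 v1 => by
    rw [hG1]
    simpa using abs_ratio_le hVc hS hVb gg (A := 1) (j := 2) (by norm_num)
      (fun z => by simpa using hgb z) v0 v1
  rw [← hG1, ← hG1] at hlg
  rw [← hF1, ← hF1] at hlf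
  have hd : u - x ≤ w := by linarith [hu.2]
  have a1 : F1 U b u / b ≤ F1 U b x / b + C * w := by
    linarith [(abs_le.1 hlf).2, mul_le_mul_of_nonneg_left hd hC]
  have a2 : G1 U b u ^ 2 ≤ G1 U b x ^ 2 + 2 * tiltConst S * (C * w) := by
    have e : |G1 U b u + G1 U b x| ≤ 2 * tiltConst S := by
      linarith [abs_add_le (G1 U b u) (G1 U b x), bnd u hu0.le hu1, bnd x hx.le (by linarith)]
    have := mul_le_mul e (hlg.trans (mul_le_mul_of_nonneg_left hd hC)) (abs_nonneg _)
      (mul_nonneg two_pos.le (tiltConst_nonneg S))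
    rw [← abs_mul] at this
    linarith [le_abs_self ((G1 U b u + G1 U b x) * (G1 U b u - G1 U b x))]
  have := mul_nonneg (mul_nonneg hC (tiltConst_nonneg S)) hw.le
  have := mul_nonneg hC hw.le
  linarith

end Vale.Agent.P146.Gap
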