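import Vale.Agent.P157.Parisi.CalcGauss
import Vale.Agent.P157.GaussLaw
import Vale.Agent.P166.Parisi.GaussPoincare

/-!
The smooth maximum of finitely many Gaussian linear forms: comparison by the increments and the
variance bound.
-/

namespace Vale.Agent.P146.Gap

open MeasureTheory ProbabilityTheory Real Filter Topology Finset
open Vale.Agent.P157 (gauss map_gauss_eq)
open Vale.Agent.P157.Parisi (Tame GradOf tame_of_bound tame_of_bounded tame_sum tame_const
  tame_coord gauss_ibp l1 l1_nonneg abs_le_exp_l1 integrable_exp_l1)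

variable {ι κ X : Type} [Fintype ι] [Fintype κ] [Fintype X] [Nonempty X]

/-- `θ⁻¹ log ∑ exp (θ w)`. -/
noncomputable def lse (θ : ℝ) (w : X → ℝ) : ℝ := θ⁻¹ * log (∑ x, exp (θ * w x))

lemma le_lse {θ : ℝ} (hθ : 0 < θ) (w : X → ℝ) (x : X) : w x ≤ lse θ w := by
  rw [lse, inv_mul_eq_div, le_div_iff₀ hθ, mul_comm,
    Real.le_log_iff_exp_le (sum_pos (fun y _ => exp_pos _) univ_nonempty)]
  exact single_le_sum (f := fun y => exp (θ * w y)) (fun y _ => (exp_pos _).le) (mem_univ x)

lemma lse_le {θ : ℝ} (hθ : 0 < θ) {w : X → ℝ} {M : ℝ} (h : ∀ x, w x ≤ M) :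
    lse θ w ≤ M + log (Fintype.card X) / θ := by
  have h1 : ∑ x, exp (θ * w x) ≤ (Fintype.card X : ℝ) * exp (θ * M) :=
    (sum_le_sum fun x _ => exp_le_exp.2 (mul_le_mul_of_nonneg_left (h x) hθ.le)).trans_eq (by simp)
  have h2 := Real.log_le_log (sum_pos (fun y _ => exp_pos _) univ_nonempty) h1
  rw [Real.log_mul (by exact_mod_cast Fintype.card_ne_zero) (exp_pos _).ne', Real.log_exp] at h2
  rw [lse, inv_mul_eq_div, div_le_iff₀ hθ, add_mul, div_mul_cancel₀ _ hθ.ne']
  linarith

lemma continuous_lse (θ : ℝ) : Continuous (lse θ : (X → ℝ) → ℝ) :=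
  continuous_const.mul ((continuous_finsetSum _ fun x _ => by fun_prop).log
    fun w => (sum_pos (fun y _ => exp_pos _) univ_nonempty).ne')

/-- The linear forms at `z`. -/
def linForms (v : X → ι → ℝ) (z : ι → ℝ) (x : X) : ℝ := ∑ k, z k * v x k

lemma continuous_linForms (v : X → ι → ℝ) : Continuous (linForms v) := by
  unfold linForms; fun_prop

/-- The Gibbs weights. -/
noncomputable def wgt (θ : ℝ) (v : X → ι → ℝ) (x : X) (z : ι → ℝ) : ℝ :=
  exp (θ * linForms v z x) / ∑ y, exp (θ * linForms v z y)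

lemma wgt_nonneg (θ : ℝ) (v : X → ι → ℝ) (x : X) (z : ι → ℝ) : 0 ≤ wgt θ v x z :=
  div_nonneg (exp_pos _).le (sum_nonneg fun y _ => (exp_pos _).le)

lemma sum_wgt (θ : ℝ) (v : X → ι → ℝ) (z : ι → ℝ) : ∑ x, wgt θ v x z = 1 := by
  simp only [wgt, ← sum_div]
  exact div_self (sum_pos (fun y _ => exp_pos _) univ_nonempty).ne'

lemma wgt_le_one (θ : ℝ) (v : X → ι → ℝ) (x : X) (z : ι → ℝ) : wgt θ v x z ≤ 1 :=
  (single_le_sum (fun y _ => wgt_nonneg θ v y z) (mem_univ x)).trans_eq (sum_wgt θ v z)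

lemma tame_wgt (θ : ℝ) (v : X → ι → ℝ) (x : X) : Tame (wgt θ v x) := by
  refine tame_of_bounded ?_ (C := 1) fun z => by
    rw [abs_of_nonneg (wgt_nonneg θ v x z)]; exact wgt_le_one θ v x z
  have := continuous_linForms v
  unfold wgt
  exact (by fun_prop : Continuous fun z => exp (θ * linForms v z x)).div
    (continuous_finsetSum _ fun y _ => by fun_prop)
    fun z => (sum_pos (fun y _ => exp_pos _) univ_nonempty).ne'

/-- The mean coefficient. -/
noncomputable def avgCoef (θ : ℝ) (v : X → ι → ℝ) (k : ι) (z : ι → ℝ) : ℝ :=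
  ∑ y, wgt θ v y z * v y k

lemma hasDerivAt_linForms (v : X → ι → ℝ) (z u : ι → ℝ) (x : X) :
    HasDerivAt (fun t : ℝ => linForms v (fun i => z i + t * u i) x) (∑ k, u k * v x k) 0 := by
  simp only [linForms]
  exact HasDerivAt.fun_sum fun k _ =>
    ((((hasDerivAt_id (0:ℝ)).mul_const (u k)).const_add (z k)).mul_const (v x k)).congr_deriv
      (by simp)

lemma gradOf_lse {θ : ℝ} (hθ : θ ≠ 0) (v : X → ι → ℝ) :
    GradOf (fun z => lse θ (linForms v z)) (avgCoef θ v) := by
  intro z u
  have hS := (sum_pos (fun y _ => exp_pos (θ * linForms v z y)) univ_nonempty).ne'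
  have h := ((HasDerivAt.fun_sum (u := univ) fun x _ =>
    ((hasDerivAt_linForms v z u x).const_mul θ).exp).log (by simpa using hS)).const_mul θ⁻¹
  refine h.congr_deriv ?_
  simp only [zero_mul, add_zero, avgCoef, wgt, sum_div, mul_sum]
  rw [sum_comm]
  refine sum_congr rfl fun y _ => sum_congr rfl fun k _ => ?_
  field_simp

lemma gradOf_wgt (θ : ℝ) (v : X → ι → ℝ) (x : X) :
    GradOf (wgt θ v x) (fun k z => θ * wgt θ v x z * (v x k - avgCoef θ v k z)) := by
  intro z u
  have hS := (sum_pos (fun y _ => exp_pos (θ * linForms v z y)) univ_nonempty).ne'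
  have hd := fun y => ((hasDerivAt_linForms v z u y).const_mul θ).exp
  have h := (hd x).fun_div (HasDerivAt.fun_sum (u := univ) fun y _ => hd y) (by simpa using hS)
  simp only [wgt]
  refine h.congr_deriv ?_
  have e : ∀ (q : X → ℝ) (c : ℝ), ∑ k, u k * (c * (v x k - ∑ y, q y * v y k)) =
      c * (∑ k, u k * v x k - ∑ y, q y * ∑ k, u k * v y k) := fun q c => by
    simp only [mul_sub, mul_sum, sum_sub_distrib]
    congr 1
    · exact sum_congr rfl fun k _ => by ring
    · rw [sum_comm]
      exact sum_congr rfl fun y _ => sum_congr rfl fun k _ => by ring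
  simp only [avgCoef, wgt]
  rw [e]
  have e2 : ∑ y, exp (θ * linForms v z y) * (θ * ∑ k, u k * v y k) =
      θ * ∑ y, exp (θ * linForms v z y) * ∑ k, u k * v y k := by
    rw [mul_sum univ (fun y => exp (θ * linForms v z y) * ∑ k, u k * v y k) θ]
    exact sum_congr rfl fun y _ => by ring
  simp only [zero_mul, add_zero, div_mul_eq_mul_div, ← sum_div]
  rw [e2]
  field_simp

lemma abs_avgCoef_le (θ : ℝ) (v : X → ι → ℝ) (k : ι) (z : ι → ℝ) :
    |avgCoef θ v k z| ≤ ∑ y, |v y k| := by
  refine (abs_sum_le_sum_abs _ _).trans (sum_le_sum fun y _ => ?_)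
  rw [abs_mul, abs_of_nonneg (wgt_nonneg θ v y z)]
  exact mul_le_of_le_one_left (abs_nonneg _) (wgt_le_one θ v y z)

lemma tame_avgCoef (θ : ℝ) (v : X → ι → ℝ) (k : ι) : Tame (avgCoef θ v k) := by
  have h := tame_sum (ι := ι) univ (f := fun y z => v y k * wgt θ v y z)
    fun y _ => (tame_wgt θ v y).const_mul _
  unfold avgCoef
  simpa [mul_comm] using h

lemma abs_lse_le {θ : ℝ} (hθ : 0 < θ) (v : X → ι → ℝ) (z : ι → ℝ) :
    |lse θ (linForms v z)| ≤ (∑ x, ∑ k, |v x k| + |log (Fintype.card X) / θ|) * exp (l1 z) := by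
  set S := ∑ x, ∑ k, |v x k| with hS
  have hl : ∀ x, |linForms v z x| ≤ S * exp (l1 z) := fun x => by
    refine le_trans ?_ (mul_le_mul_of_nonneg_right (single_le_sum (f := fun x => ∑ k, |v x k|)
      (fun y _ => sum_nonneg fun k _ => abs_nonneg _) (mem_univ x)) (exp_pos _).le)
    rw [linForms, sum_mul]
    refine (abs_sum_le_sum_abs _ _).trans (sum_le_sum fun k _ => ?_)
    rw [abs_mul, mul_comm]
    exact mul_le_mul_of_nonneg_left (abs_le_exp_l1 z k) (abs_nonneg _)
  obtain ⟨x₀⟩ := (inferInstance : Nonempty X)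
  have h1 := lse_le hθ (w := linForms v z) fun x => (le_abs_self _).trans (hl x)
  have h2 := le_lse hθ (linForms v z) x₀
  have h3 := (abs_le.1 (hl x₀)).1
  have h4 : |log (Fintype.card X) / θ| ≤ |log (Fintype.card X) / θ| * exp (l1 z) :=
    le_mul_of_one_le_right (abs_nonneg _) (one_le_exp (l1_nonneg z))
  rw [abs_le]
  constructor <;> linarith [le_abs_self (log (Fintype.card X) / θ),
    abs_nonneg (log (Fintype.card X) / θ)]

lemma tame_lse {θ : ℝ} (hθ : 0 < θ) (v : X → ι → ℝ) : Tame fun z => lse θ (linForms v z) :=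
  tame_of_bound ((continuous_lse θ).comp (continuous_linForms v))
    (C := ∑ x, ∑ k, |v x k| + |log (Fintype.card X) / θ|) (k := 1)
    (fun z => by rw [one_mul]; exact abs_lse_le hθ v z)

/-- The variance of the smooth maximum. -/
lemma variance_lse_le {θ : ℝ} (hθ : 0 < θ) (v : X → ι → ℝ) {V : ℝ}
    (hV : ∀ x, ∑ k, v x k ^ 2 ≤ V) :
    variance (fun z => lse θ (linForms v z)) (gauss ι) ≤ Real.pi ^ 2 / 8 * V := by
  classical
  set C := ∑ x, ∑ k, |v x k| + |log (Fintype.card X) / θ|
  have hC : ∀ i z, |avgCoef θ v i z| ≤ C * exp (1 * ∑ k, |z k|) := fun i z => by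
    refine (abs_avgCoef_le θ v i z).trans ?_
    refine le_trans ?_ (le_mul_of_one_le_right ?_ (one_le_exp ?_))
    · refine le_add_of_le_of_nonneg ?_ (abs_nonneg _)
      exact sum_le_sum fun y _ => single_le_sum (f := fun k => |v y k|) (fun _ _ => abs_nonneg _)
        (mem_univ i)
    · positivity
    · rw [one_mul]; exact sum_nonneg fun _ _ => abs_nonneg _
  refine (Vale.Agent.P166.Parisi.GaussPoincare.gauss_poincare (f := fun z => lse θ (linForms v z))
    (g := avgCoef θ v) (fun y u => gradOf_lse hθ.ne' v y u)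
    (fun i => (tame_avgCoef θ v i).1) zero_le_one (C := C)
    (fun z => by rw [one_mul]; exact abs_lse_le hθ v z) hC).trans
    (mul_le_mul_of_nonneg_left ?_ (by positivity))
  rw [← integral_finsetSum _ fun i _ => (tame_avgCoef θ v i).sq.integrable]
  refine (integral_mono (integrable_finsetSum _ fun i _ => (tame_avgCoef θ v i).sq.integrable)
    (integrable_const V) fun z => ?_).trans_eq (by simp)
  calc ∑ k, avgCoef θ v k z ^ 2 ≤ ∑ k, ∑ y, wgt θ v y z * v y k ^ 2 := sum_le_sum fun k _ => by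
        have h0 : 0 ≤ ∑ y, wgt θ v y z * (v y k - avgCoef θ v k z) ^ 2 :=
          sum_nonneg fun y _ => mul_nonneg (wgt_nonneg θ v y z) (sq_nonneg _)
        have e : ∀ y, wgt θ v y z * (v y k - avgCoef θ v k z) ^ 2 = wgt θ v y z * v y k ^ 2 -
            2 * avgCoef θ v k z * (wgt θ v y z * v y k) + avgCoef θ v k z ^ 2 * wgt θ v y z :=
          fun y => by ring
        simp only [e, sum_add_distrib, sum_sub_distrib, ← mul_sum, sum_wgt,
          show ∑ y, wgt θ v y z * v y k = avgCoef θ v k z from rfl] at h0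
        linarith
    _ = ∑ y, wgt θ v y z * ∑ k, v y k ^ 2 := by
        rw [sum_comm]; simp only [mul_sum]
    _ ≤ ∑ y, wgt θ v y z * V :=
        sum_le_sum fun y _ => mul_le_mul_of_nonneg_left (hV y) (wgt_nonneg θ v y z)
    _ = V := by rw [← sum_mul, sum_wgt, one_mul]

/-- The interpolating coefficients. -/
noncomputable def interp (a : X → ι → ℝ) (b : X → κ → ℝ) (u : ℝ) (x : X) : ι ⊕ κ → ℝ :=
  Sum.elim (fun i => cos u * a x i) fun k => sin u * b x k

/-- Their derivatives. -/
noncomputable def interp' (a : X → ι → ℝ) (b : X → κ → ℝ) (u : ℝ) (x : X) : ι ⊕ κ → ℝ :=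
  Sum.elim (fun i => -sin u * a x i) fun k => cos u * b x k

lemma hasDerivAt_interp (a : X → ι → ℝ) (b : X → κ → ℝ) (u : ℝ) (x : X) (k : ι ⊕ κ) :
    HasDerivAt (fun u => interp a b u x k) (interp' a b u x k) u := by
  rcases k with i | k
  · exact (hasDerivAt_cos u).mul_const _
  · exact (hasDerivAt_sin u).mul_const _

lemma integral_lse_congr {θ : ℝ} {a : X → ι → ℝ} {b : X → κ → ℝ}
    (h : ∀ s : X → ℝ, ∑ i, (∑ x, s x * a x i) ^ 2 = ∑ k, (∑ x, s x * b x k) ^ 2) :
    ∫ z, lse θ (linForms a z) ∂gauss ι = ∫ z, lse θ (linForms b z) ∂gauss κ := by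
  have e := congrArg (fun ν : Measure (X → ℝ) => ∫ w, lse θ w ∂ν) (map_gauss_eq a b h)
  rw [integral_map (Measurable.aemeasurable (by fun_prop)) (continuous_lse θ).aestronglyMeasurable,
    integral_map (Measurable.aemeasurable (by fun_prop)) (continuous_lse θ).aestronglyMeasurable] at e
  exact e

/-- Comparison by the increments. -/
theorem lse_compare {θ : ℝ} (hθ : 0 < θ) (a : X → ι → ℝ) (b : X → κ → ℝ)
    (h : ∀ x y, ∑ i, (a x i - a y i) ^ 2 ≤ ∑ k, (b x k - b y k) ^ 2) :
    ∫ z, lse θ (linForms a z) ∂gauss ι ≤ ∫ z, lse θ (linForms b z) ∂gauss κ := by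
  classical
  set v := interp a b with hv
  set E := fun u => ∫ z, lse θ (linForms (v u) z) ∂gauss (ι ⊕ κ) with hE
  set C := ∑ x, (∑ i, |a x i| + ∑ k, |b x k|) with hC
  set D := fun u z => ∑ x, wgt θ (v u) x z * ∑ k, z k * interp' a b u x k with hD
  have hb' : ∀ u x, ∑ k, |interp' a b u x k| ≤ ∑ i, |a x i| + ∑ k, |b x k| := fun u x => by
    rw [Fintype.sum_sum_type]
    refine add_le_add (sum_le_sum fun i _ => ?_) (sum_le_sum fun k _ => ?_) <;>
      simp only [interp', Sum.elim_inl, Sum.elim_inr, abs_mul, abs_neg]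
    exacts [mul_le_of_le_one_left (abs_nonneg _) (abs_sin_le_one u),
      mul_le_of_le_one_left (abs_nonneg _) (abs_cos_le_one u)]
  have hDt : ∀ u, Tame (D u) := fun u => tame_sum univ fun x _ =>
    (tame_wgt θ (v u) x).mul (tame_sum univ fun k _ => by
      simpa [mul_comm] using (tame_coord k).const_mul (interp' a b u x k))
  have hDb : ∀ u z, |D u z| ≤ C * exp (1 * l1 z) := fun u z => by
    rw [one_mul, hC, sum_mul]
    refine (abs_sum_le_sum_abs _ _).trans (sum_le_sum fun x _ => ?_)
    rw [abs_mul, abs_of_nonneg (wgt_nonneg _ _ _ _)]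
    refine (mul_le_of_le_one_left (abs_nonneg _) (wgt_le_one _ _ _ _)).trans ?_
    refine le_trans ?_ (mul_le_mul_of_nonneg_right (hb' u x) (exp_pos _).le)
    rw [sum_mul]
    refine (abs_sum_le_sum_abs _ _).trans (sum_le_sum fun k _ => ?_)
    rw [abs_mul, mul_comm]
    exact mul_le_mul_of_nonneg_left (abs_le_exp_l1 z k) (abs_nonneg _)
  have hder : ∀ u, HasDerivAt E (∫ z, D u z ∂gauss (ι ⊕ κ)) u := fun u => by
    refine (hasDerivAt_integral_of_dominated_loc_of_deriv_le (𝕜 := ℝ)
      (F := fun u z => lse θ (linForms (v u) z)) (F' := D)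
      (bound := fun z => C * exp (1 * l1 z)) (Metric.ball_mem_nhds u one_pos)
      (.of_forall fun w => (tame_lse hθ (v w)).1.aestronglyMeasurable)
      (tame_lse hθ (v u)).integrable (hDt u).1.aestronglyMeasurable
      (.of_forall fun z w _ => by rw [norm_eq_abs]; exact hDb w z)
      ((integrable_exp_l1 1).const_mul C) (.of_forall fun z w _ => ?_)).2
    have hl : ∀ x, HasDerivAt (fun w => linForms (v w) z x) (∑ k, z k * interp' a b w x k) w :=
      fun x => by
        simp only [linForms]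
        exact HasDerivAt.fun_sum fun k _ => (hasDerivAt_interp a b w x k).const_mul (z k)
    have hS := (sum_pos (fun y _ => exp_pos (θ * linForms (v w) z y)) univ_nonempty).ne'
    have hl2 := ((HasDerivAt.fun_sum (u := univ) fun x _ => ((hl x).const_mul θ).exp).log
      hS).const_mul θ⁻¹
    refine hl2.congr_deriv ?_
    simp only [hD, wgt, sum_div, mul_sum]
    refine sum_congr rfl fun x _ => sum_congr rfl fun k _ => ?_
    field_simp
  have hpos : ∀ u ∈ Set.Ioo 0 (π / 2), 0 ≤ ∫ z, D u z ∂gauss (ι ⊕ κ) := fun u hu => by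
    set p := wgt θ (v u)
    set d := interp' a b u
    have hti : ∀ x k, Integrable (fun z => z k * p x z) (gauss (ι ⊕ κ)) := fun x k =>
      ((tame_coord k).mul (tame_wgt θ (v u) x)).integrable
    have htG : ∀ x k, Tame fun z => θ * p x z * (v u x k - avgCoef θ (v u) k z) := fun x k =>
      ((tame_wgt θ (v u) x).const_mul θ).mul
        ((tame_const (v u x k)).sub (tame_avgCoef θ (v u) k))
    have h1 : ∫ z, D u z ∂gauss (ι ⊕ κ) =
        ∫ z, θ * ∑ x, ∑ y, p x z * p y z * ∑ k, d x k * (v u x k - v u y k) ∂gauss (ι ⊕ κ) := by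
      have e : ∀ z, D u z = ∑ x, ∑ k, d x k * (z k * p x z) := fun z => by
        simp only [hD, p, d, mul_sum]
        exact sum_congr rfl fun x _ => sum_congr rfl fun k _ => by ring
      simp only [e]
      rw [integral_finsetSum _ fun x _ => integrable_finsetSum _ fun k _ => (hti x k).const_mul _]
      have hibp : ∀ x k, ∫ z, z k * p x z ∂gauss (ι ⊕ κ) =
          ∫ z, θ * p x z * (v u x k - avgCoef θ (v u) k z) ∂gauss (ι ⊕ κ) := fun x k =>
        gauss_ibp (tame_wgt θ (v u) x) (fun i => htG x i) (gradOf_wgt θ (v u) x) k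
      have hstep : ∀ x, ∫ z, ∑ k, d x k * (z k * p x z) ∂gauss (ι ⊕ κ) =
          ∫ z, ∑ k, d x k * (θ * p x z * (v u x k - avgCoef θ (v u) k z)) ∂gauss (ι ⊕ κ) :=
        fun x => by
          rw [integral_finsetSum _ fun k _ => (hti x k).const_mul _,
            integral_finsetSum _ fun k _ => ((htG x k).const_mul _).integrable]
          exact sum_congr rfl fun k _ => by rw [integral_const_mul, integral_const_mul, hibp]
      rw [sum_congr rfl fun x _ => hstep x, ← integral_finsetSum _ fun x _ =>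
        integrable_finsetSum _ fun k _ => ((htG x k).const_mul _).integrable]
      refine integral_congr_ae (.of_forall fun z => ?_)
      simp only [mul_sum]
      refine sum_congr rfl fun x _ => ?_
      rw [sum_comm]
      refine sum_congr rfl fun k _ => ?_
      simp only [avgCoef]
      calc d x k * (θ * p x z * (v u x k - ∑ y, p y z * v u y k))
          = d x k * (θ * p x z * ∑ y, p y z * (v u x k - v u y k)) := by
            simp only [mul_sub, sum_sub_distrib, ← sum_mul, p, sum_wgt, one_mul]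
        _ = _ := by simp only [mul_sum]; exact sum_congr rfl fun y _ => by ring
    rw [h1]
    refine integral_nonneg fun z => mul_nonneg hθ.le ?_
    have hsc : 0 ≤ sin u * cos u := mul_nonneg (sin_nonneg_of_nonneg_of_le_pi hu.1.le
      (by linarith [hu.2, pi_pos])) (cos_nonneg_of_mem_Icc ⟨by linarith [hu.1, pi_pos], hu.2.le⟩)
    have hk : ∀ x y, ∑ k, d x k * (v u x k - v u y k) + ∑ k, d y k * (v u y k - v u x k) =
        sin u * cos u * (∑ k, (b x k - b y k) ^ 2 - ∑ i, (a x i - a y i) ^ 2) := fun x y => by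
      simp only [Fintype.sum_sum_type, d, hv, interp, interp', Sum.elim_inl, Sum.elim_inr]
      rw [mul_sub, mul_sum, mul_sum, add_add_add_comm, ← sum_add_distrib, ← sum_add_distrib,
        sub_eq_neg_add, ← sum_neg_distrib]
      exact congrArg₂ (· + ·) (sum_congr rfl fun i _ => by ring)
        (sum_congr rfl fun k _ => by ring)
    set W := fun x y => p x z * p y z * ∑ k, d x k * (v u x k - v u y k)
    have hsym : 2 * ∑ x, ∑ y, W x y = ∑ x, ∑ y, (W x y + W y x) := by
      simp only [sum_add_distrib]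
      rw [sum_comm (f := fun x y => W y x), two_mul]
    have : 0 ≤ 2 * ∑ x, ∑ y, W x y := by
      rw [hsym]
      refine sum_nonneg fun x _ => sum_nonneg fun y _ => ?_
      have e : W x y + W y x = p x z * p y z *
          (sin u * cos u * (∑ k, (b x k - b y k) ^ 2 - ∑ i, (a x i - a y i) ^ 2)) := by
        simp only [W, ← hk x y]; ring
      rw [e]
      exact mul_nonneg (mul_nonneg (wgt_nonneg _ _ _ _) (wgt_nonneg _ _ _ _))
        (mul_nonneg hsc (sub_nonneg.2 (h x y)))
    exact nonneg_of_mul_nonneg_right this two_pos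
  have hmono : MonotoneOn E (Set.Icc 0 (π / 2)) := by
    refine monotoneOn_of_hasDerivWithinAt_nonneg (convex_Icc _ _)
      (fun u _ => (hder u).continuousAt.continuousWithinAt)
      (fun u _ => (hder u).hasDerivWithinAt) fun u hu => hpos u ?_
    rwa [interior_Icc] at hu
  have hm := hmono (Set.left_mem_Icc.2 (by positivity)) (Set.right_mem_Icc.2 (by positivity))
    (by positivity)
  have e0 : E 0 = ∫ z, lse θ (linForms a z) ∂gauss ι :=
    integral_lse_congr fun s => by simp [hv, interp, Fintype.sum_sum_type]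
  have e1 : E (π / 2) = ∫ z, lse θ (linForms b z) ∂gauss κ :=
    integral_lse_congr fun s => by simp [hv, interp, Fintype.sum_sum_type]
  linarith

end Vale.Agent.P146.Gap
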