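import Vale.Agent.P146.Gap.Defs
import Vale.Agent.P146.Stats
import Vale.Agent.P166.HaarTools
import Vale.Agent.P166.Parisi.Haar
import Vale.Agent.P157.GaussLaw
import Vale.Agent.P146.Gap.SmoothMax

/-!
The Gaussian orthogonal completion of the coupling matrix: symmetry, conjugation, spectral form of
the perturbed matrix and the averaging of its pressure over the orthogonal group.
-/

namespace Vale.Agent.P146.Gap

open MeasureTheory ProbabilityTheory Matrix Finset
open Vale.Agent.P157 (gauss map_gauss_eq)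
open Vale.Agent.P166 (ON haarON)

noncomputable section

variable {n : ℕ} {z : ℂ} {W W' : Matrix (Fin n) (Fin n) ℝ}

/-- The quadratic form of a matrix at a spin configuration. -/
def formAt (W : Matrix (Fin n) (Fin n) ℝ) (σ : Fin n → Bool) : ℝ :=
  ∑ a, ∑ b, spins σ a * spins σ b * W a b

/-- The pressure of a coupling matrix, for the uniform prior. -/
def matPressure (β : ℝ) (W : Matrix (Fin n) (Fin n) ℝ) : ℝ :=
  (1 / (n : ℝ)) * Real.log ((1 / (2 : ℝ) ^ n) * ∑ σ : Fin n → Bool,
    Real.exp (β / 2 * formAt W σ))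

/-- The imaginary part of the resolvent. -/
def imRes (z : ℂ) (W : Matrix (Fin n) (Fin n) ℝ) : Matrix (Fin n) (Fin n) ℝ :=
  (res z W).map Complex.im

/-- The perturbed matrix. -/
def tilt (z : ℂ) (t : ℝ) (W : Matrix (Fin n) (Fin n) ℝ) : Matrix (Fin n) (Fin n) ℝ :=
  W + t • imRes z W

lemma tiltPressure_mat (β : ℝ) (z : ℂ) (t : ℝ) (g : Disorder n) :
    tiltPressure n β z t g = matPressure β (tilt z t (coupling g)) := by
  simp [tiltPressure, matPressure, formAt, tiltCoupling, tilt, imRes]

/-- Pressures of close matrices are close. -/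
lemma matPressure_sub_le {β C : ℝ} (hβ : 0 ≤ β) (hC : ∀ σ, formAt W σ ≤ formAt W' σ + C) :
    matPressure β W ≤ matPressure β W' + β / 2 * C / n := by
  have h1 : (1 / (2 : ℝ) ^ n) * ∑ σ : Fin n → Bool, Real.exp (β / 2 * formAt W σ) ≤
      Real.exp (β / 2 * C) *
        ((1 / (2 : ℝ) ^ n) * ∑ σ : Fin n → Bool, Real.exp (β / 2 * formAt W' σ)) := by
    rw [mul_left_comm, Finset.mul_sum _ _ (Real.exp _)]
    refine mul_le_mul_of_nonneg_left (sum_le_sum fun σ _ => ?_) (by positivity)
    rw [← Real.exp_add]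
    exact Real.exp_le_exp.2 (by nlinarith [mul_le_mul_of_nonneg_left (hC σ) (half_pos one_pos).le])
  have h2 := Real.log_le_log (by positivity) h1
  rw [Real.log_mul (Real.exp_ne_zero _) (ne_of_gt (by positivity)), Real.log_exp] at h2
  have h3 := mul_le_mul_of_nonneg_left h2 (by positivity : (0 : ℝ) ≤ 1 / (n : ℝ))
  unfold matPressure
  refine h3.trans (le_of_eq ?_)
  ring

lemma abs_matPressure_sub {β C : ℝ} (hβ : 0 ≤ β) (hC : ∀ σ, |formAt W σ - formAt W' σ| ≤ C) :
    |matPressure β W - matPressure β W'| ≤ β / 2 * C / n := by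
  have h1 := matPressure_sub_le (W := W) (W' := W') hβ (C := C) fun σ => by
    linarith [(abs_le.1 (hC σ)).2]
  have h2 := matPressure_sub_le (W := W') (W' := W) hβ (C := C) fun σ => by
    linarith [(abs_le.1 (hC σ)).1]
  exact abs_le.2 ⟨by linarith, by linarith⟩

/-! ### Conjugation -/

/-- Conjugation by an orthogonal matrix. -/
def conjBy (V : ON n) (W : Matrix (Fin n) (Fin n) ℝ) : Matrix (Fin n) (Fin n) ℝ :=
  (V : Matrix (Fin n) (Fin n) ℝ) * W * (V : Matrix (Fin n) (Fin n) ℝ)ᵀ

lemma conjBy_isSymm (V : ON n) (hW : W.IsSymm) : (conjBy V W).IsSymm := by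
  unfold Matrix.IsSymm conjBy
  rw [transpose_mul, transpose_mul, transpose_transpose, hW.eq, mul_assoc]

lemma orth_transpose_mul (V : ON n) :
    (V : Matrix (Fin n) (Fin n) ℝ)ᵀ * (V : Matrix (Fin n) (Fin n) ℝ) = 1 :=
  (mem_orthogonalGroup_iff' (n := Fin n) (R := ℝ)).1 V.2

lemma orth_mul_transpose (V : ON n) :
    (V : Matrix (Fin n) (Fin n) ℝ) * (V : Matrix (Fin n) (Fin n) ℝ)ᵀ = 1 :=
  (mem_orthogonalGroup_iff (n := Fin n) (R := ℝ)).1 V.2

lemma conjBy_conjBy (V V' : ON n) (W : Matrix (Fin n) (Fin n) ℝ) :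
    conjBy V (conjBy V' W) = conjBy (V * V') W := by
  simp [conjBy, mul_assoc, transpose_mul]

lemma res_conjBy (V : ON n) (hW : W.IsSymm) (hz : z.im ≠ 0) :
    res z (conjBy V W) = (V : Matrix (Fin n) (Fin n) ℝ).map Complex.ofRealHom * res z W *
      ((V : Matrix (Fin n) (Fin n) ℝ).map Complex.ofRealHom)ᵀ := by
  set Vc := (V : Matrix (Fin n) (Fin n) ℝ).map Complex.ofRealHom with hVc
  have h1 : Vc * Vcᵀ = 1 := by
    rw [hVc, ← transpose_map, ← Matrix.map_mul, orth_mul_transpose]; simp
  have h2 : Vcᵀ * Vc = 1 := by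
    rw [hVc, ← transpose_map, ← Matrix.map_mul, orth_transpose_mul]; simp
  have hs : shiftMat z (conjBy V W) = Vc * shiftMat z W * Vcᵀ := by
    rw [shiftMat, shiftMat, mul_sub, sub_mul, Matrix.mul_smul, Matrix.smul_mul, mul_one, h1, hVc,
      ← transpose_map]
    congr 1
    rw [show (fun r : ℝ => (r : ℂ)) = Complex.ofRealHom from rfl, ← Matrix.map_mul,
      ← Matrix.map_mul]
    rfl
  rw [res, hs]
  refine inv_eq_right_inv ?_
  simp only [mul_assoc]
  rw [← mul_assoc Vcᵀ Vc, h2, one_mul, ← mul_assoc (shiftMat z W),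
    shiftMat_mul_res hW hz, one_mul, h1]

lemma map_im_mul_left (V : Matrix (Fin n) (Fin n) ℝ) (R : Matrix (Fin n) (Fin n) ℂ) :
    (V.map Complex.ofRealHom * R).map Complex.im = V * R.map Complex.im := by
  ext i j
  simp [Matrix.mul_apply, Complex.mul_im]

lemma map_im_mul_right (V : Matrix (Fin n) (Fin n) ℝ) (R : Matrix (Fin n) (Fin n) ℂ) :
    (R * V.map Complex.ofRealHom).map Complex.im = R.map Complex.im * V := by
  ext i j
  simp [Matrix.mul_apply, Complex.mul_im]

lemma tilt_conjBy (V : ON n) (hW : W.IsSymm) (hz : z.im ≠ 0) (t : ℝ) :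
    tilt z t (conjBy V W) = conjBy V (tilt z t W) := by
  have : imRes z (conjBy V W) = conjBy V (imRes z W) := by
    rw [imRes, res_conjBy V hW hz, ← transpose_map, map_im_mul_right, map_im_mul_left, conjBy, imRes]
  rw [tilt, this, tilt, conjBy, conjBy, conjBy, mul_add, add_mul, Matrix.mul_smul, Matrix.smul_mul]

lemma res_diagonal (d : Fin n → ℝ) (hz : z.im ≠ 0) :
    res z (diagonal d) = diagonal fun i => (z - (d i : ℂ))⁻¹ := by
  refine inv_eq_right_inv ?_
  have hne : ∀ i, z - (d i : ℂ) ≠ 0 := fun i h => hz (by simpa using congrArg Complex.im h)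
  rw [shiftMat, diagonal_map (by simp)]
  ext i j
  by_cases h : i = j
  · subst h
    simp [hne i, Matrix.mul_diagonal]
  · simp [h, Matrix.mul_diagonal]

lemma tilt_diagonal (d : Fin n → ℝ) (hz : z.im ≠ 0) (t : ℝ) :
    tilt z t (diagonal d) = diagonal fun i => tiltSpec z t (d i) := by
  ext i j
  rw [tilt, imRes, res_diagonal d hz]
  by_cases h : i = j
  · subst h; simp [tiltSpec]
  · simp [h]

/-- The spectral decomposition. -/
lemma exists_spectral (hW : W.IsSymm) :
    ∃ (Q : ON n) (d : Fin n → ℝ), W = conjBy Q (diagonal d) := by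
  have hH : W.IsHermitian := by
    ext i j
    simp [hW.apply i j]
  refine ⟨hH.eigenvectorUnitary, hH.eigenvalues, ?_⟩
  conv_lhs => rw [hH.spectral_theorem, Unitary.conjStarAlgAut_apply]
  simp [conjBy, Matrix.star_eq_conjTranspose]

lemma matPressure_conjBy_diagonal (β : ℝ) (V : ON n) (d : Fin n → ℝ) :
    matPressure β (conjBy V (diagonal d)) = Vale.Agent.P166.pressure β d V⁻¹ := by
  have hinv : ((V⁻¹ : ON n) : Matrix (Fin n) (Fin n) ℝ) = (V : Matrix (Fin n) (Fin n) ℝ)ᵀ := rfl
  unfold matPressure Vale.Agent.P166.pressure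
  congr 2
  congr 1
  refine sum_congr rfl fun σ _ => ?_
  congr 2
  rw [hinv, transpose_transpose, formAt, conjBy]
  have hs : Vale.Agent.P166.spin σ = spins σ := by
    funext i; simp [Vale.Agent.P166.spin, spins, spin]
  rw [hs]
  simp only [dotProduct, mulVec, Finset.mul_sum]
  exact sum_congr rfl fun a _ => sum_congr rfl fun b _ => by ring

/-- Averaging over the orthogonal group gives the mean pressure at the perturbed eigenvalues. -/
lemma integral_tilt_conjBy (β : ℝ) (hz : z.im ≠ 0) (t : ℝ) (Q : ON n) (d : Fin n → ℝ) :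
    ∫ V, matPressure β (tilt z t (conjBy V (conjBy Q (diagonal d)))) ∂haarON n =
      Vale.Agent.P166.meanP β (fun i => tiltSpec z t (d i)) := by
  have hd : (diagonal d).IsSymm := by simp [Matrix.IsSymm]
  have e : ∀ V : ON n, matPressure β (tilt z t (conjBy V (conjBy Q (diagonal d)))) =
      Vale.Agent.P166.pressure β (fun i => tiltSpec z t (d i)) (V * Q)⁻¹ := fun V => by
    rw [conjBy_conjBy, tilt_conjBy _ hd hz, tilt_diagonal d hz, matPressure_conjBy_diagonal]
  simp only [e]
  rw [integral_mul_right_eq_self (fun U => Vale.Agent.P166.pressure β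
      (fun i => tiltSpec z t (d i)) U⁻¹) Q,
    Vale.Agent.P166.Parisi.integral_transpose (Vale.Agent.P166.continuous_pressure β _)]
  rfl

/-! ### The completed ensemble -/

/-- The index set of the completed ensemble. -/
abbrev GIdx (n : ℕ) : Type := Fin n × Fin n ⊕ Fin n

/-- The off-diagonal disorder. -/
def offDis (x : GIdx n → ℝ) : Disorder n := fun i j => x (Sum.inl (i, j))

/-- The diagonal entries. -/
def diagVec (x : GIdx n → ℝ) : Fin n → ℝ := fun i => Real.sqrt (2 / n) * x (Sum.inr i)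

/-- The completed matrix. -/
def goe (x : GIdx n → ℝ) : Matrix (Fin n) (Fin n) ℝ := coupling (offDis x) + diagonal (diagVec x)

lemma goe_isSymm (x : GIdx n → ℝ) : (goe x).IsSymm :=
  (coupling_isSymm _).add (by simp [Matrix.IsSymm])

lemma continuous_goe (a b : Fin n) : Continuous fun x : GIdx n → ℝ => goe x a b := by
  unfold goe
  simp only [Matrix.add_apply, Matrix.diagonal_apply, coupling, Matrix.of_apply]
  refine (continuous_const.mul ?_).add ?_
  · exact (continuous_sym a b).comp (by unfold offDis; fun_prop)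
  · by_cases h : a = b
    · subst h; simp only [if_true]; unfold diagVec; fun_prop
    · simp only [if_neg h]; fun_prop

/-- The coefficient of a coordinate in an entry. -/
def goeCoef (l : Fin n × Fin n) : GIdx n → ℝ :=
  Sum.elim
    (fun p => if p.1 < p.2 then
      (Real.sqrt n)⁻¹ * ((if p = l then 1 else 0) + (if (p.2, p.1) = l then 1 else 0)) else 0)
    fun i => if (i, i) = l then Real.sqrt (2 / n) else 0

lemma goe_eq_sum (x : GIdx n → ℝ) (l : Fin n × Fin n) :
    goe x l.1 l.2 = ∑ k, x k * goeCoef l k := by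
  obtain ⟨a, b⟩ := l
  rw [Fintype.sum_sum_type]
  simp only [goeCoef, Sum.elim_inl, Sum.elim_inr, goe, Matrix.add_apply, coupling, Matrix.of_apply,
    sym, offDis]
  rcases lt_trichotomy a b with h | h | h
  · have h1 : ∀ i : Fin n, (i, i) ≠ (a, b) := fun i e => h.ne ((by simp only [Prod.mk.injEq] at e; exact e.1 ▸ e.2))
    simp only [h1, if_false, mul_zero, sum_const_zero, add_zero, if_pos h,
      Matrix.diagonal_apply_ne _ h.ne]
    rw [sum_eq_single (a, b) (fun p _ hp => ?_) (fun hh => absurd (mem_univ _) hh)]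
    · have : ((b, a) : Fin n × Fin n) ≠ (a, b) := fun e => h.ne' (by simp_all)
      simp [h, this]; ring
    · by_cases hlt : p.1 < p.2
      · have : (p.2, p.1) ≠ (a, b) := fun e => by
          simp only [Prod.mk.injEq] at e; exact absurd (e.1 ▸ e.2 ▸ hlt) h.not_gt
        simp [hlt, hp, this]
      · simp [hlt]
  · subst h
    rw [sum_eq_zero, zero_add, sum_eq_single a (fun i _ hi => ?_)
      (fun hh => absurd (mem_univ _) hh)]
    · simp [diagVec]; ring
    · simp [hi]
    · intro p _
      by_cases hlt : p.1 < p.2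
      · have h1 : p ≠ (a, a) := fun e => hlt.ne (by simp [e])
        have h2 : (p.2, p.1) ≠ (a, a) := fun e => hlt.ne (by simp_all)
        simp [hlt, h1, h2]
      · simp [hlt]
  · have h1 : ∀ i : Fin n, (i, i) ≠ (a, b) := fun i e => h.ne' ((by simp only [Prod.mk.injEq] at e; exact e.1 ▸ e.2))
    simp only [h1, if_false, mul_zero, sum_const_zero, add_zero, if_neg h.not_gt, if_pos h,
      Matrix.diagonal_apply_ne _ h.ne']
    rw [sum_eq_single (b, a) (fun p _ hp => ?_) (fun hh => absurd (mem_univ _) hh)]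
    · have : ((b, a) : Fin n × Fin n) ≠ (a, b) := fun e => h.ne (by simp_all)
      simp [h, this]; ring
    · by_cases hlt : p.1 < p.2
      · have : p ≠ (a, b) := fun e => by subst e; exact absurd hlt h.not_gt
        have h2 : (p.2, p.1) ≠ (a, b) := fun e => hp (by simp only [Prod.mk.injEq] at e; exact Prod.ext e.2 e.1)
        simp [hlt, this, h2]
      · simp [hlt]

/-- The variance of a linear functional of the completed matrix. -/
lemma sum_goeCoef_sq (S : Matrix (Fin n) (Fin n) ℝ) :
    ∑ k, (∑ l : Fin n × Fin n, S l.1 l.2 * goeCoef l k) ^ 2 =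
      (1 / (2 * n)) * trace ((S + Sᵀ)ᵀ * (S + Sᵀ)) := by
  set M := S + Sᵀ
  rw [Fintype.sum_sum_type, Fintype.sum_prod_type]
  have hinl : ∀ i j : Fin n, (∑ l : Fin n × Fin n, S l.1 l.2 * goeCoef l (Sum.inl (i, j))) ^ 2 =
      if i < j then (1 / (n : ℝ)) * M i j ^ 2 else 0 := fun i j => by
    simp only [goeCoef, Sum.elim_inl]
    split_ifs
    · have e : ∀ l : Fin n × Fin n, S l.1 l.2 * ((Real.sqrt n)⁻¹ *
          ((if (i, j) = l then 1 else 0) + (if (j, i) = l then 1 else 0))) =
          (if (i, j) = l then (Real.sqrt n)⁻¹ * S l.1 l.2 else 0) +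
            (if (j, i) = l then (Real.sqrt n)⁻¹ * S l.1 l.2 else 0) := fun l => by
        split_ifs <;> ring
      simp only [e, sum_add_distrib, sum_ite_eq, mem_univ, if_true, M, Matrix.add_apply,
        transpose_apply]
      rw [← mul_add, mul_pow, inv_pow, Real.sq_sqrt (Nat.cast_nonneg n), one_div]
    · simp
  have hinr : ∀ i : Fin n, (∑ l : Fin n × Fin n, S l.1 l.2 * goeCoef l (Sum.inr i)) ^ 2 =
      (1 / (2 * n)) * M i i ^ 2 := fun i => by
    simp only [goeCoef, Sum.elim_inr, mul_ite, mul_zero, sum_ite_eq, mem_univ, if_true, M,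
      Matrix.add_apply, transpose_apply]
    rw [mul_pow, Real.sq_sqrt (by positivity)]
    ring
  simp only [hinl, hinr]
  have hdiag : ∀ i : Fin n, (1 / (2 * n : ℝ)) * M i i ^ 2 =
      ∑ j, if i = j then (1 / (2 * n : ℝ)) * M i j ^ 2 else 0 := fun i => by simp
  simp only [hdiag, ← sum_add_distrib]
  rw [trace]
  simp only [diag_apply, Matrix.mul_apply, transpose_apply, mul_sum]
  have hM : ∀ i j, M j i = M i j := fun i j => by simp [M, add_comm]
  set T := fun i j : Fin n => (if i < j then (1 / (n : ℝ)) * M i j ^ 2 else 0) +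
    (if i = j then (1 / (2 * n : ℝ)) * M i j ^ 2 else 0)
  have h2 : 2 * ∑ i, ∑ j, T i j = ∑ i, ∑ j, (T i j + T j i) := by
    simp only [sum_add_distrib]
    rw [sum_comm (f := fun i j => T j i), two_mul]
  have h3 : ∀ i j, T i j + T j i = 2 * (1 / (2 * (n : ℝ)) * (M j i * M j i)) := fun i j => by
    simp only [T, hM i j]
    rcases lt_trichotomy i j with h | h | h
    · simp [h, h.ne, h.ne', h.not_gt]; ring
    · subst h; simp; ring
    · simp [h, h.ne, h.ne', h.not_gt]; ring
  simp only [h3, ← mul_sum] at h2 ⊢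
  simp only [T] at h2
  linarith

/-- The entries of the completed matrix have the same joint law after a conjugation. -/
lemma goe_conj_law (V : ON n) :
    (gauss (GIdx n)).map (fun x (l : Fin n × Fin n) => conjBy V (goe x) l.1 l.2) =
      (gauss (GIdx n)).map (fun x (l : Fin n × Fin n) => goe x l.1 l.2) := by
  set U := (V : Matrix (Fin n) (Fin n) ℝ)
  set b : Fin n × Fin n → GIdx n → ℝ :=
    fun l k => ∑ m : Fin n × Fin n, U l.1 m.1 * U l.2 m.2 * goeCoef m k
  have e1 : (fun (x : GIdx n → ℝ) (l : Fin n × Fin n) => conjBy V (goe x) l.1 l.2) =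
      fun x l => ∑ k, x k * b l k := by
    funext x l
    simp only [b, mul_sum, conjBy, Matrix.mul_apply, transpose_apply, sum_mul]
    conv_rhs => rw [sum_comm, Fintype.sum_prod_type]
    rw [sum_comm]
    refine sum_congr rfl fun c _ => sum_congr rfl fun d _ => ?_
    rw [show goe x c d = ∑ k, x k * goeCoef (c, d) k from goe_eq_sum x (c, d), mul_sum, sum_mul]
    exact sum_congr rfl fun k _ => by ring
  have e2 : (fun (x : GIdx n → ℝ) (l : Fin n × Fin n) => goe x l.1 l.2) =
      fun x l => ∑ k, x k * goeCoef l k := by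
    funext x l; exact goe_eq_sum x l
  rw [e1, e2]
  refine map_gauss_eq b goeCoef fun s => ?_
  set S : Matrix (Fin n) (Fin n) ℝ := Matrix.of fun a c => s (a, c)
  set S' := Uᵀ * S * U
  have hb : ∀ k, ∑ l, s l * b l k = ∑ m : Fin n × Fin n, S' m.1 m.2 * goeCoef m k := fun k => by
    simp only [b, mul_sum]
    rw [sum_comm]
    refine sum_congr rfl fun m _ => ?_
    simp only [S', Matrix.mul_apply, transpose_apply, sum_mul, Fintype.sum_prod_type, S,
      Matrix.of_apply]
    rw [sum_comm]
    exact sum_congr rfl fun _ _ => sum_congr rfl fun _ _ => by ring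
  simp only [hb]
  rw [sum_goeCoef_sq S',
    show ∑ k, (∑ l, s l * goeCoef l k) ^ 2 =
      ∑ k, (∑ l : Fin n × Fin n, S l.1 l.2 * goeCoef l k) ^ 2 from rfl, sum_goeCoef_sq S]
  congr 1
  have hsum : S' + S'ᵀ = Uᵀ * (S + Sᵀ) * U := by
    simp only [S', transpose_mul, transpose_transpose, mul_add, add_mul, mul_assoc]
  rw [hsum]
  set M := S + Sᵀ
  calc trace ((Uᵀ * M * U)ᵀ * (Uᵀ * M * U))
      = trace (Uᵀ * (Mᵀ * ((U * Uᵀ) * (M * U)))) := by
        simp only [transpose_mul, transpose_transpose, mul_assoc]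
    _ = trace (Uᵀ * (Mᵀ * M) * U) := by rw [orth_mul_transpose V, one_mul]; simp only [mul_assoc]
    _ = trace (U * Uᵀ * (Mᵀ * M)) := trace_mul_cycle _ _ _
    _ = trace (Mᵀ * M) := by rw [orth_mul_transpose V, one_mul]

/-- Integrals of functions of the completed matrix are invariant under conjugation. -/
lemma integral_goe_conj (V : ON n) {F : Matrix (Fin n) (Fin n) ℝ → ℝ}
    (hF : Measurable fun e : Fin n × Fin n → ℝ => F (Matrix.of fun a b => e (a, b))) :
    ∫ x, F (conjBy V (goe x)) ∂gauss (GIdx n) = ∫ x, F (goe x) ∂gauss (GIdx n) := by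
  have hm : ∀ a b, Measurable fun x : GIdx n → ℝ => goe x a b := fun a b =>
    (continuous_goe a b).measurable
  have hm1 : Measurable fun x (l : Fin n × Fin n) => conjBy V (goe x) l.1 l.2 :=
    measurable_pi_lambda _ fun l => by
      simp only [conjBy, Matrix.mul_apply]
      fun_prop (disch := assumption)
  have hm2 : Measurable fun (x : GIdx n → ℝ) (l : Fin n × Fin n) => goe x l.1 l.2 :=
    measurable_pi_lambda _ fun l => hm l.1 l.2
  have h := congrArg (fun ν : Measure (Fin n × Fin n → ℝ) =>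
    ∫ e, F (Matrix.of fun a b => e (a, b)) ∂ν) (goe_conj_law V)
  rwa [integral_map hm1.aemeasurable hF.aestronglyMeasurable,
    integral_map hm2.aemeasurable hF.aestronglyMeasurable] at h

end

end Vale.Agent.P146.Gap
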