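import Vale.Agent.P157.Parisi.CalcGauss

/-!
The Gaussian extension `H j s y = ∫ zʲ exp (x U (y + s z))` of a tilt by a Lipschitz profile, the
logarithmic derivatives of `H 0` in the space variable and their derivatives in the scale.
-/

namespace Vale.Agent.P146.Gap

open MeasureTheory ProbabilityTheory Real Filter Topology

/-- Differentiable profiles with slope at most `1`. -/
structure Lip1 (U : ℝ → ℝ) : Prop where
  diff : Differentiable ℝ U
  slope : ∀ v, |deriv U v| ≤ 1

lemma Lip1.lip {U : ℝ → ℝ} (hU : Lip1 U) (a b : ℝ) : |U a - U b| ≤ |a - b| := by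
  have h : LipschitzWith 1 U := lipschitzWith_of_nnnorm_deriv_le hU.diff fun v => by
    rw [← NNReal.coe_le_coe, coe_nnnorm, Real.norm_eq_abs, NNReal.coe_one]
    exact hU.slope v
  simpa [Real.dist_eq] using h.dist_le_mul a b

lemma abs_pow_le_exp (j : ℕ) (z : ℝ) : |z| ^ j ≤ j.factorial * exp |z| := by
  have h := Real.pow_div_factorial_le_exp (x := |z|) (abs_nonneg z) j
  rw [div_le_iff₀ (by exact_mod_cast j.factorial_pos)] at h
  linarith

lemma integrable_exp_abs (k : ℝ) : Integrable (fun z => exp (k * |z|)) (gaussianReal 0 1) := by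
  refine Integrable.mono' ((integrable_exp_mul_gaussianReal k).add
    (integrable_exp_mul_gaussianReal (-k))) (by fun_prop) (.of_forall fun z => ?_)
  rw [norm_eq_abs, abs_exp]
  rcases abs_choice z with h | h <;> rw [h]
  · exact le_add_of_nonneg_right (exp_pos _).le
  · rw [mul_neg, ← neg_mul]; exact le_add_of_nonneg_left (exp_pos _).le

lemma integrable_of_exp_bound {f : ℝ → ℝ} (hf : AEStronglyMeasurable f (gaussianReal 0 1)) {C k : ℝ}
    (h : ∀ z, |f z| ≤ C * exp (k * |z|)) : Integrable f (gaussianReal 0 1) :=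
  ((integrable_exp_abs k).const_mul C).mono' hf (.of_forall fun z => by simpa using h z)

/-- The moments of the tilt. -/
noncomputable def H (U : ℝ → ℝ) (x : ℝ) (j : ℕ) (s y : ℝ) : ℝ :=
  ∫ z, z ^ j * exp (x * U (y + s * z)) ∂(gaussianReal 0 1)

/-- The moments of the tilt times the slope. -/
noncomputable def Hd (U : ℝ → ℝ) (x : ℝ) (j : ℕ) (s y : ℝ) : ℝ :=
  ∫ z, z ^ j * (x * deriv U (y + s * z) * exp (x * U (y + s * z))) ∂(gaussianReal 0 1)

/-- The normalised moments. -/
noncomputable def Mo (U : ℝ → ℝ) (x : ℝ) (j : ℕ) (s y : ℝ) : ℝ := H U x j s y / H U x 0 s y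

variable {U : ℝ → ℝ} {x : ℝ}

lemma tilt_le (hU : Lip1 U) (hx : 0 ≤ x) (s y z : ℝ) :
    exp (x * U (y + s * z)) ≤ exp (x * U y) * exp (x * |s| * |z|) := by
  rw [← exp_add, exp_le_exp, mul_assoc x, ← abs_mul, ← mul_add]
  refine mul_le_mul_of_nonneg_left ?_ hx
  have := (abs_le.1 (hU.lip (y + s * z) y)).2
  rw [add_sub_cancel_left] at this
  linarith

lemma tilt_ge (hU : Lip1 U) (hx : 0 ≤ x) (s y z : ℝ) :
    exp (x * U y) * exp (-(x * |s|) * |z|) ≤ exp (x * U (y + s * z)) := by
  rw [← exp_add, exp_le_exp, neg_mul, mul_assoc x, ← abs_mul, ← mul_neg, ← mul_add]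
  refine mul_le_mul_of_nonneg_left ?_ hx
  have := (abs_le.1 (hU.lip (y + s * z) y)).1
  rw [add_sub_cancel_left] at this
  linarith

lemma integrable_H (hU : Lip1 U) (hx : 0 ≤ x) (j : ℕ) (s y : ℝ) :
    Integrable (fun z => z ^ j * exp (x * U (y + s * z))) (gaussianReal 0 1) := by
  have hc := hU.diff.continuous
  refine integrable_of_exp_bound (by fun_prop)
    (C := j.factorial * exp (x * U y)) (k := 1 + x * |s|) fun z => ?_
  rw [abs_mul, abs_pow, abs_exp, add_mul, exp_add, one_mul]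
  calc |z| ^ j * exp (x * U (y + s * z))
      ≤ (j.factorial * exp |z|) * (exp (x * U y) * exp (x * |s| * |z|)) :=
        mul_le_mul (abs_pow_le_exp j z) (tilt_le hU hx s y z) (exp_pos _).le (by positivity)
    _ = _ := by ring

lemma H_zero_pos (hU : Lip1 U) (hx : 0 ≤ x) (s y : ℝ) : 0 < H U x 0 s y := by
  have h := integrable_H hU hx 0 s y
  simp only [H, pow_zero, one_mul] at h ⊢
  exact integral_exp_pos h

lemma abs_slope_tilt_le (hU : Lip1 U) (hx : 0 ≤ x) (v : ℝ) :
    |x * deriv U v * exp (x * U v)| ≤ x * exp (x * U v) := by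
  rw [abs_mul, abs_exp, abs_mul, abs_of_nonneg hx]
  exact mul_le_mul_of_nonneg_right (mul_le_of_le_one_right hx (hU.slope v)) (exp_pos _).le

lemma integrable_Hd (hU : Lip1 U) (hx : 0 ≤ x) (j : ℕ) (s y : ℝ) :
    Integrable (fun z => z ^ j * (x * deriv U (y + s * z) * exp (x * U (y + s * z)))) (gaussianReal 0 1) := by
  have hc := hU.diff.continuous
  refine ((integrable_H hU hx j s y).norm.const_mul x).mono'
    ((measurable_id.pow_const j).mul (((measurable_deriv U).comp (by fun_prop)).const_mul x |>.mul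
      (by fun_prop))).aestronglyMeasurable (.of_forall fun z => ?_)
  simp only [norm_mul, norm_eq_abs, abs_exp]
  rw [abs_of_nonneg hx]
  have := hU.slope (y + s * z)
  have h0 : 0 ≤ |z ^ j| * exp (x * U (y + s * z)) := by positivity
  nlinarith [mul_le_mul_of_nonneg_left this (mul_nonneg hx h0)]

/-- Integration by parts. -/
lemma mul_Hd (hU : Lip1 U) (hx : 0 ≤ x) (j : ℕ) (s y : ℝ) :
    s * Hd U x j s y = H U x (j + 1) s y - j * H U x (j - 1) s y := by
  have hd : ∀ z, HasDerivAt (fun z => z ^ j * exp (x * U (y + s * z)))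
      ((j : ℝ) * z ^ (j - 1) * exp (x * U (y + s * z))
        + s * (z ^ j * (x * deriv U (y + s * z) * exp (x * U (y + s * z))))) z := by
    intro z
    have h1 : HasDerivAt (fun z => U (y + s * z)) (deriv U (y + s * z) * s) z :=
      (hU.diff (y + s * z)).hasDerivAt.comp z
        (by simpa using ((hasDerivAt_id z).const_mul s).const_add y)
    exact ((hasDerivAt_pow j z).mul (h1.const_mul x).exp).congr_deriv (by ring)
  have e : ∀ z, z * (z ^ j * exp (x * U (y + s * z))) = z ^ (j + 1) * exp (x * U (y + s * z)) :=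
    fun z => by ring
  have i1 : Integrable (fun z => (j : ℝ) * z ^ (j - 1) * exp (x * U (y + s * z))) (gaussianReal 0 1) := by
    simpa only [mul_assoc] using (integrable_H hU hx (j - 1) s y).const_mul (j : ℝ)
  have i2 := (integrable_Hd hU hx j s y).const_mul s
  have h := Vale.Agent.P157.Parisi.gaussianReal_ibp hd (integrable_H hU hx j s y)
    ((integrable_H hU hx (j + 1) s y).congr (.of_forall fun z => (e z).symm)) (i1.add i2)
  simp only [e] at h
  rw [integral_add i1 i2, integral_const_mul] at h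
  simp only [mul_assoc] at h
  rw [integral_const_mul] at h
  simp only [H, Hd, mul_assoc]
  linarith

/-- Derivative of the moments along a curve. -/
lemma hasDerivAt_H (hU : Lip1 U) (hx : 0 ≤ x) (j : ℕ) {f g : ℝ → ℝ} {f' g' t : ℝ}
    (hf : HasDerivAt f f' t) (hg : HasDerivAt g g' t) :
    HasDerivAt (fun u => H U x j (f u) (g u))
      (f' * Hd U x (j + 1) (f t) (g t) + g' * Hd U x j (f t) (g t)) t := by
  set p : ℝ × ℝ := (f t, g t)
  set F' : ℝ × ℝ → ℝ → ℝ × ℝ →L[ℝ] ℝ := fun q z =>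
    (z ^ j * (x * deriv U (q.2 + q.1 * z) * exp (x * U (q.2 + q.1 * z)))) •
      (z • ContinuousLinearMap.fst ℝ ℝ ℝ + ContinuousLinearMap.snd ℝ ℝ ℝ) with hF'
  have hc := hU.diff.continuous
  have hint : Integrable (F' p) (gaussianReal 0 1) := by
    have a := (integrable_Hd hU hx (j + 1) p.1 p.2).smul_const (ContinuousLinearMap.fst ℝ ℝ ℝ)
    have b := (integrable_Hd hU hx j p.1 p.2).smul_const (ContinuousLinearMap.snd ℝ ℝ ℝ)
    refine (a.add b).congr (.of_forall fun z => ?_)
    simp only [hF', Pi.add_apply, smul_add, smul_smul]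
    congr 2
    ring
  have key : HasFDerivAt (fun q : ℝ × ℝ => H U x j q.1 q.2) (∫ z, F' p z ∂(gaussianReal 0 1)) p := by
    refine hasFDerivAt_integral_of_dominated_of_fderiv_le (𝕜 := ℝ) (F := fun q z =>
        z ^ j * exp (x * U (q.2 + q.1 * z))) (F' := F')
      (bound := fun z => x * j.factorial * exp (x * (|p.2| + 1) + x * |U 0|) *
        (exp (((x * (|p.1| + 1)) + 2) * |z|)))
      (Metric.ball_mem_nhds p one_pos) (.of_forall fun q => by fun_prop)
      (integrable_H hU hx j p.1 p.2) hint.aestronglyMeasurable (.of_forall fun z q hq => ?_)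
      ((integrable_exp_abs _).const_mul _) (.of_forall fun z q _ => ?_)
    · rw [Metric.mem_ball, Prod.dist_eq, max_lt_iff, Real.dist_eq, Real.dist_eq] at hq
      simp only [hF', norm_smul, norm_eq_abs]
      have hl : ‖z • ContinuousLinearMap.fst ℝ ℝ ℝ + ContinuousLinearMap.snd ℝ ℝ ℝ‖ ≤ exp |z| := by
        refine ContinuousLinearMap.opNorm_le_bound _ (exp_pos _).le fun v => ?_
        simp only [ContinuousLinearMap.add_apply, ContinuousLinearMap.smul_apply,
          ContinuousLinearMap.coe_fst', ContinuousLinearMap.coe_snd', smul_eq_mul, norm_eq_abs]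
        have h1 : |v.1| ≤ ‖v‖ := by simpa using norm_fst_le v
        have h2 : |v.2| ≤ ‖v‖ := by simpa using norm_snd_le v
        have h3 := abs_add_le (z * v.1) v.2
        rw [abs_mul] at h3
        nlinarith [add_one_le_exp |z|, abs_nonneg z, norm_nonneg v]
      have he : exp (x * U (q.2 + q.1 * z)) ≤
          exp (x * (|p.2| + 1) + x * |U 0|) * exp (x * (|p.1| + 1) * |z|) := by
        rw [← exp_add, exp_le_exp]
        have h1 := (abs_le.1 (hU.lip (q.2 + q.1 * z) 0)).2
        have h2 := abs_add_le q.2 (q.1 * z)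
        have h3 : |q.2| ≤ |p.2| + 1 := by linarith [abs_sub_abs_le_abs_sub q.2 p.2, hq.2]
        have h4 : |q.1| ≤ |p.1| + 1 := by linarith [abs_sub_abs_le_abs_sub q.1 p.1, hq.1]
        rw [abs_mul] at h2
        rw [sub_zero] at h1
        have h5 := mul_le_mul_of_nonneg_right h4 (abs_nonneg z)
        have h6 := le_abs_self (U 0)
        rw [mul_assoc, ← mul_add, ← mul_add]
        exact mul_le_mul_of_nonneg_left (by linarith) hx
      calc |z ^ j * (x * deriv U (q.2 + q.1 * z) * exp (x * U (q.2 + q.1 * z)))| * _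
          ≤ ((j.factorial * exp |z|) * (x * (exp (x * (|p.2| + 1) + x * |U 0|) *
              exp (x * (|p.1| + 1) * |z|)))) * exp |z| := by
            rw [abs_mul, abs_pow]
            refine mul_le_mul (mul_le_mul (abs_pow_le_exp j z)
              ((abs_slope_tilt_le hU hx _).trans (mul_le_mul_of_nonneg_left he hx)) (abs_nonneg _)
              (by positivity)) hl (norm_nonneg (_ : ℝ × ℝ →L[ℝ] ℝ)) (by positivity)
        _ = _ := by
            rw [show exp ((x * (|p.1| + 1) + 2) * |z|) =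
              exp (x * (|p.1| + 1) * |z|) * exp |z| * exp |z| by rw [← exp_add, ← exp_add]; ring_nf]
            ring
    · have h1 : HasFDerivAt (fun q : ℝ × ℝ => q.2 + q.1 * z)
          (z • ContinuousLinearMap.fst ℝ ℝ ℝ + ContinuousLinearMap.snd ℝ ℝ ℝ) q := by
        have := (hasFDerivAt_snd (𝕜 := ℝ) (E := ℝ) (F := ℝ) (p := q)).add
          ((hasFDerivAt_fst (𝕜 := ℝ) (E := ℝ) (F := ℝ) (p := q)).mul_const z)
        exact this.congr_fderiv (by rw [add_comm])
      have h2 := ((hU.diff (q.2 + q.1 * z)).hasDerivAt.comp_hasFDerivAt q h1).const_mul x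
      refine (h2.exp.const_mul (z ^ j)).congr_fderiv ?_
      simp only [hF', smul_smul]
      congr 1
      simp only [Function.comp_apply]
      ring
  have h : HasDerivAt (fun u => H U x j (f u) (g u)) ((∫ z, F' p z ∂(gaussianReal 0 1)) (f', g')) t :=
    key.comp_hasDerivAt (f := fun u => (f u, g u)) t (hf.prodMk hg)
  refine h.congr_deriv ?_
  rw [ContinuousLinearMap.integral_apply hint]
  simp only [hF', ContinuousLinearMap.smul_apply, ContinuousLinearMap.add_apply,
    ContinuousLinearMap.coe_fst', ContinuousLinearMap.coe_snd', smul_eq_mul]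
  rw [show (fun z => z ^ j * (x * deriv U (p.2 + p.1 * z) * exp (x * U (p.2 + p.1 * z))) *
      (z * f' + g')) = fun z => f' * (z ^ (j + 1) * (x * deriv U (p.2 + p.1 * z) *
        exp (x * U (p.2 + p.1 * z)))) + g' * (z ^ j * (x * deriv U (p.2 + p.1 * z) *
        exp (x * U (p.2 + p.1 * z)))) from funext fun z => by ring,
    integral_add ((integrable_Hd hU hx (j + 1) p.1 p.2).const_mul _)
      ((integrable_Hd hU hx j p.1 p.2).const_mul _), integral_const_mul, integral_const_mul]
  rfl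

/-- Derivative of the normalised moments along a curve. -/
lemma hasDerivAt_Mo (hU : Lip1 U) (hx : 0 ≤ x) (j : ℕ) {f g : ℝ → ℝ} {f' g' t : ℝ}
    (hf : HasDerivAt f f' t) (hg : HasDerivAt g g' t) (hs : f t ≠ 0) :
    HasDerivAt (fun u => Mo U x j (f u) (g u))
      (f' / f t * (Mo U x (j + 2) (f t) (g t) - (j + 1) * Mo U x j (f t) (g t)
          - Mo U x j (f t) (g t) * (Mo U x 2 (f t) (g t) - 1))
        + g' / f t * (Mo U x (j + 1) (f t) (g t) - j * Mo U x (j - 1) (f t) (g t)
          - Mo U x j (f t) (g t) * Mo U x 1 (f t) (g t))) t := by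
  have h0 := (H_zero_pos hU hx (f t) (g t)).ne'
  refine ((hasDerivAt_H hU hx j hf hg).div (hasDerivAt_H hU hx 0 hf hg) h0).congr_deriv ?_
  have e : ∀ i, Hd U x i (f t) (g t) =
      (H U x (i + 1) (f t) (g t) - i * H U x (i - 1) (f t) (g t)) / f t := fun i => by
    rw [← mul_Hd hU hx i (f t) (g t), mul_div_cancel_left₀ _ hs]
  simp only [e, Mo, Nat.add_sub_cancel, Nat.cast_zero, zero_mul, sub_zero, Nat.cast_add,
    Nat.cast_one, zero_add, Nat.cast_ofNat, show j + 1 + 1 = j + 2 from rfl, Nat.sub_self]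
  field_simp
  ring

/-- Bound of the normalised moments at scales at most `S`. -/
noncomputable def moBound (x S : ℝ) (j : ℕ) : ℝ :=
  j.factorial * (∫ z, exp ((1 + x * S) * |z|) ∂(gaussianReal 0 1)) / ∫ z, exp (-(x * S) * |z|) ∂(gaussianReal 0 1)

lemma abs_Mo_le (hU : Lip1 U) (hx : 0 ≤ x) {S s : ℝ} (hs : |s| ≤ S) (j : ℕ) (y : ℝ) :
    |Mo U x j s y| ≤ moBound x S j := by
  have hc := hU.diff.continuous
  set E := exp (x * U y) with hE
  have hden : E * ∫ z, exp (-(x * S) * |z|) ∂(gaussianReal 0 1) ≤ H U x 0 s y := by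
    rw [← integral_const_mul]
    refine integral_mono ((integrable_exp_abs _).const_mul _) (integrable_H hU hx 0 s y) fun z => ?_
    rw [pow_zero, one_mul]
    refine le_trans (mul_le_mul_of_nonneg_left (exp_le_exp.2 ?_) (exp_pos _).le)
      (tilt_ge hU hx s y z)
    exact mul_le_mul_of_nonneg_right (neg_le_neg (mul_le_mul_of_nonneg_left hs hx)) (abs_nonneg z)
  have hnum : |H U x j s y| ≤ E * ((j.factorial : ℝ) * ∫ z, exp ((1 + x * S) * |z|) ∂(gaussianReal 0 1)) := by
    rw [← integral_const_mul, ← integral_const_mul]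
    refine (abs_integral_le_integral_abs).trans (integral_mono (integrable_H hU hx j s y).abs
      (((integrable_exp_abs _).const_mul _).const_mul _) fun z => ?_)
    simp only [abs_mul, abs_pow, abs_exp]
    calc |z| ^ j * exp (x * U (y + s * z))
        ≤ (j.factorial * exp |z|) * (E * exp (x * S * |z|)) := by
          refine mul_le_mul (abs_pow_le_exp j z) ((tilt_le hU hx s y z).trans ?_) (exp_pos _).le
            (by positivity)
          exact mul_le_mul_of_nonneg_left (exp_le_exp.2 (mul_le_mul_of_nonneg_right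
            (mul_le_mul_of_nonneg_left hs hx) (abs_nonneg z))) (exp_pos _).le
      _ = _ := by rw [add_mul, one_mul, exp_add]; ring
  have hp : 0 < ∫ z, exp (-(x * S) * |z|) ∂(gaussianReal 0 1) := integral_exp_pos (integrable_exp_abs _)
  rw [Mo, abs_div, abs_of_pos (H_zero_pos hU hx s y), moBound,
    div_le_div_iff₀ (H_zero_pos hU hx s y) hp]
  calc |H U x j s y| * _ ≤ E * ((j.factorial : ℝ) * ∫ z, exp ((1 + x * S) * |z|) ∂(gaussianReal 0 1)) *
        ∫ z, exp (-(x * S) * |z|) ∂(gaussianReal 0 1) := mul_le_mul_of_nonneg_right hnum hp.le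
    _ = (j.factorial : ℝ) * (∫ z, exp ((1 + x * S) * |z|) ∂(gaussianReal 0 1)) *
        (E * ∫ z, exp (-(x * S) * |z|) ∂(gaussianReal 0 1)) := by ring
    _ ≤ _ := mul_le_mul_of_nonneg_left hden
        (mul_nonneg (by positivity) (integral_nonneg fun z => (exp_pos _).le))

/-- First logarithmic derivative. -/
noncomputable def D1 (U : ℝ → ℝ) (x s y : ℝ) : ℝ := Mo U x 1 s y / s

/-- Second logarithmic derivative. -/
noncomputable def D2 (U : ℝ → ℝ) (x s y : ℝ) : ℝ :=
  (Mo U x 2 s y - 1 - Mo U x 1 s y ^ 2) / s ^ 2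

/-- Third logarithmic derivative. -/
noncomputable def D3 (U : ℝ → ℝ) (x s y : ℝ) : ℝ :=
  (Mo U x 3 s y - 3 * Mo U x 1 s y * Mo U x 2 s y + 2 * Mo U x 1 s y ^ 3) / s ^ 3

/-- Fourth logarithmic derivative. -/
noncomputable def D4 (U : ℝ → ℝ) (x s y : ℝ) : ℝ :=
  (Mo U x 4 s y - 4 * Mo U x 3 s y * Mo U x 1 s y - 3 * Mo U x 2 s y ^ 2
    + 12 * Mo U x 2 s y * Mo U x 1 s y ^ 2 - 6 * Mo U x 1 s y ^ 4) / s ^ 4

variable {f g : ℝ → ℝ} {f' g' t : ℝ}

/-- The heat equation of `H 0`. -/
lemma hasDerivAt_H0 (hU : Lip1 U) (hx : 0 ≤ x) (hf : HasDerivAt f f' t) (hg : HasDerivAt g g' t)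
    (hs : f t ≠ 0) :
    HasDerivAt (fun u => H U x 0 (f u) (g u))
      (H U x 0 (f t) (g t) * (f' * f t * (D2 U x (f t) (g t) + D1 U x (f t) (g t) ^ 2)
        + g' * D1 U x (f t) (g t))) t := by
  refine (hasDerivAt_H hU hx 0 hf hg).congr_deriv ?_
  have e : ∀ i, Hd U x i (f t) (g t) =
      (H U x (i + 1) (f t) (g t) - i * H U x (i - 1) (f t) (g t)) / f t := fun i => by
    rw [← mul_Hd hU hx i (f t) (g t), mul_div_cancel_left₀ _ hs]
  have h0 := (H_zero_pos hU hx (f t) (g t)).ne'
  simp only [e, D1, D2, Mo, zero_add, Nat.cast_one, one_mul, Nat.sub_self, Nat.cast_zero,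
    zero_mul, sub_zero]
  field_simp
  ring

lemma hasDerivAt_D1 (hU : Lip1 U) (hx : 0 ≤ x) (hf : HasDerivAt f f' t) (hg : HasDerivAt g g' t)
    (hs : f t ≠ 0) :
    HasDerivAt (fun u => D1 U x (f u) (g u))
      (f' * f t * (D3 U x (f t) (g t) + 2 * D1 U x (f t) (g t) * D2 U x (f t) (g t))
        + g' * D2 U x (f t) (g t)) t := by
  refine ((hasDerivAt_Mo hU hx 1 hf hg hs).div hf hs).congr_deriv ?_
  simp only [D1, D2, D3, Nat.sub_self, Nat.cast_one]
  rw [show Mo U x 0 (f t) (g t) = 1 from div_self (H_zero_pos hU hx _ _).ne']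
  field_simp
  ring

lemma hasDerivAt_D2 (hU : Lip1 U) (hx : 0 ≤ x) (hf : HasDerivAt f f' t) (hg : HasDerivAt g g' t)
    (hs : f t ≠ 0) :
    HasDerivAt (fun u => D2 U x (f u) (g u))
      (f' * f t * (D4 U x (f t) (g t) + 2 * D2 U x (f t) (g t) ^ 2
          + 2 * D1 U x (f t) (g t) * D3 U x (f t) (g t))
        + g' * D3 U x (f t) (g t)) t := by
  refine ((((hasDerivAt_Mo hU hx 2 hf hg hs).sub_const 1).sub
    ((hasDerivAt_Mo hU hx 1 hf hg hs).pow 2)).div (hf.pow 2) (pow_ne_zero 2 hs)).congr_deriv ?_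
  simp only [D1, D2, D3, D4, Nat.sub_self, Nat.cast_one, Nat.cast_ofNat, Nat.reduceAdd,
    Nat.reduceSub, Pi.pow_apply, Pi.sub_apply, pow_one]
  rw [show Mo U x 0 (f t) (g t) = 1 from div_self (H_zero_pos hU hx _ _).ne']
  field_simp
  ring

lemma hasDerivAt_D3 (hU : Lip1 U) (hx : 0 ≤ x) {s : ℝ} (hs : s ≠ 0) (y : ℝ) :
    HasDerivAt (fun u => D3 U x s u) (D4 U x s y) y := by
  have hM := fun j => hasDerivAt_Mo hU hx j (hasDerivAt_const y s) (hasDerivAt_id y) hs
  refine ((((hM 3).sub (((hM 1).const_mul 3).mul (hM 2))).add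
    (((hM 1).pow 3).const_mul 2)).div_const (s ^ 3)).congr_deriv ?_
  simp only [D4, id_eq, Nat.sub_self, Nat.cast_one, Nat.cast_ofNat, Nat.reduceAdd, Nat.reduceSub,
    zero_div, zero_mul, zero_add]
  rw [show Mo U x 0 s y = 1 from div_self (H_zero_pos hU hx _ _).ne']
  field_simp
  ring

end Vale.Agent.P146.Gap
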