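import Vale.Agent.P146.Gap.Exponent
import Vale.Agent.P166.Parisi.Spin
import Vale.Agent.P157.Parisi.EnergyApprox

/-!
The profiles of the one-spin recursion and the two identities at the first positive level.
-/

namespace Vale.Agent.P146.Gap

open MeasureTheory ProbabilityTheory Real Filter Topology Finset
open Vale.Agent.P157.Parisi (lvl gaussStep descend cascade IsPath isingField Nest Leaf move)
open Vale.Agent.P157 (gauss)
open Vale.Agent.P166.Parisi (oneSpin spinNest spinLeaf spinLaw spinPath cumVar qTail)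
open Vale.Agent.P166.Parisi.SpinAux (spinNest_good spinLeaf_good logZ_spin)

attribute [local instance] Vale.Agent.P166.Parisi.spinLaw_prob

variable {U : ℝ → ℝ} {m : ℝ}

lemma abs_Hd_zero_le (hU : Lip1 U) (hm : 0 ≤ m) (s y : ℝ) :
    |Hd U m 0 s y| ≤ m * H U m 0 s y := by
  simp only [Hd, H, pow_zero, one_mul, ← integral_const_mul]
  exact abs_integral_le_integral_abs.trans (integral_mono
    (by simpa using (integrable_Hd hU hm 0 s y).abs)
    (by simpa using (integrable_H hU hm 0 s y).const_mul m)
    fun z => abs_slope_tilt_le hU hm _)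

/-- A step of the recursion keeps the class of profiles. -/
lemma prof_step (hU : Prof U) (hm : 0 < m) {s : ℝ} (hs : 0 < s) :
    Prof fun y => m⁻¹ * log (H U m 0 s y) := by
  have hL := hU.toLip1
  have hd : ∀ y, HasDerivAt (fun y => m⁻¹ * log (H U m 0 s y)) (m⁻¹ * D1 U m s y) y := fun y =>
    (((hasDerivAt_H0 hL hm.le (hasDerivAt_const y s) (hasDerivAt_id' y) hs.ne').log
      (H_zero_pos hL hm.le _ _).ne').const_mul m⁻¹).congr_deriv (by
        simp only [zero_mul, zero_add, one_mul]
        rw [mul_div_cancel_left₀ _ (H_zero_pos hL hm.le _ _).ne'])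
  have he : deriv (fun y => m⁻¹ * log (H U m 0 s y)) = fun y => m⁻¹ * D1 U m s y :=
    funext fun y => (hd y).deriv
  have hd1 : ∀ y, HasDerivAt (fun y => D1 U m s y) (D2 U m s y) y := fun y =>
    (hasDerivAt_D1 hL hm.le (hasDerivAt_const y s) (hasDerivAt_id' y) hs.ne').congr_deriv (by ring)
  refine ⟨⟨fun y => (hd y).differentiableAt, fun y => ?_⟩, fun y => ?_, ?_, ?_⟩
  · have h := mul_Hd hL hm.le 0 s y
    simp only [zero_add, Nat.cast_zero, zero_mul, sub_zero] at h
    rw [he, abs_mul, abs_inv, abs_of_pos hm, inv_mul_le_iff₀ hm, mul_one]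
    have h0 := H_zero_pos hL hm.le s y
    rw [D1, Mo, ← h, mul_div_assoc, mul_div_cancel_left₀ _ hs.ne', abs_div, abs_of_pos h0,
      div_le_iff₀ h0]
    exact abs_Hd_zero_le hL hm.le s y
  · simp only [H_neg hU, pow_zero, one_mul]
  · rw [he]
    exact monotone_of_hasDerivAt_nonneg (fun y => (hd1 y).const_mul m⁻¹) fun y =>
      mul_nonneg (inv_nonneg.2 hm.le) (D2_nonneg hU hm.le hs y)
  · intro a b ha hab
    rw [he]
    have hanti : AntitoneOn (fun y => D1 U m s y / y) (Set.Ioi 0) := by
      have hq : ∀ y ∈ Set.Ioi (0:ℝ), HasDerivAt (fun y => D1 U m s y / y)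
          ((D2 U m s y * y - D1 U m s y * 1) / y ^ 2) y :=
        fun y hy => (hd1 y).div (hasDerivAt_id y) (ne_of_gt hy)
      refine antitoneOn_of_deriv_nonpos (convex_Ioi 0)
        (fun y hy => (hq y hy).continuousAt.continuousWithinAt)
        (fun y hy => (hq y (by simpa using hy)).differentiableAt.differentiableWithinAt)
        fun y hy => ?_
      rw [interior_Ioi] at hy
      rw [(hq y hy).deriv]
      refine div_nonpos_of_nonpos_of_nonneg ?_ (sq_nonneg _)
      linarith [star_step hU hm.le hs (le_of_lt (Set.mem_Ioi.1 hy))]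
    have h := hanti ha (ha.trans_le hab) hab
    simp only at h
    rw [div_le_div_iff₀ (ha.trans_le hab) ha] at h
    rw [mul_assoc, mul_assoc]
    exact mul_le_mul_of_nonneg_left h (inv_nonneg.2 hm.le)

/-- Gaussian increments compose by adding the variances. -/
lemma gauss_compose {g : ℝ → ℝ} (hg : Continuous g) {C k : ℝ}
    (hC : ∀ v, |g v| ≤ C * exp (k * |v|)) {a c : ℝ} (ha : 0 ≤ a) (hc : 0 ≤ c) :
    ∫ z, (∫ w, g (√a * z + √c * w) ∂(gaussianReal 0 1)) ∂(gaussianReal 0 1) = ∫ z, g (√(a + c) * z) ∂(gaussianReal 0 1) := by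
  have hi : Integrable g ((gaussianReal 0 a.toNNReal) ∗ (gaussianReal 0 c.toNNReal)) := by
    rw [gaussianReal_conv_gaussianReal, add_zero, ← Real.toNNReal_add ha hc,
      ← Vale.Agent.P157.Parisi.gauss_map_sqrt (add_nonneg ha hc),
      integrable_map_measure hg.aestronglyMeasurable (by fun_prop)]
    refine integrable_of_exp_bound (C := C) (k := k * √(a + c)) (by fun_prop) fun z => ?_
    refine (hC _).trans_eq ?_
    rw [abs_mul, abs_of_nonneg (Real.sqrt_nonneg _), mul_assoc]
  have h := integral_conv hi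
  rw [gaussianReal_conv_gaussianReal, add_zero, ← Real.toNNReal_add ha hc,
    ← Vale.Agent.P157.Parisi.gauss_map_sqrt (add_nonneg ha hc),
    ← Vale.Agent.P157.Parisi.gauss_map_sqrt ha, ← Vale.Agent.P157.Parisi.gauss_map_sqrt hc,
    integral_map (by fun_prop) hg.aestronglyMeasurable] at h
  have hin : ∀ x, ∫ z, g (x + z) ∂((gaussianReal 0 1).map fun z => √c * z) = ∫ w, g (x + √c * w) ∂(gaussianReal 0 1) :=
    fun x => integral_map (by fun_prop) (by fun_prop)
  simp only [hin] at h
  have hm : Measurable fun x => ∫ w, g (x + √c * w) ∂(gaussianReal 0 1) :=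
    ((hg.comp (by fun_prop : Continuous fun p : ℝ × ℝ => p.1 + √c * p.2)).measurable
      |>.stronglyMeasurable.integral_prod_right').measurable
  rw [integral_map (by fun_prop) hm.aestronglyMeasurable] at h
  exact h.symm

variable {K : ℕ} {e : ℕ → ℝ}

/-- The profile at level `k`. -/
noncomputable def prof (K : ℕ) (e : ℕ → ℝ) (k : ℕ) : ℝ → ℝ :=
  descend K (cumVar K e) (fun y => log (cosh y)) (K - k)

lemma prof_top (K : ℕ) (e : ℕ → ℝ) : prof K e K = fun y => log (cosh y) := by simp [prof, descend]

lemma prof_pred {k : ℕ} (hk : k < K) :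
    prof K e k = gaussStep (lvl K (k + 1)) (e (k + 1) ^ 2) (prof K e (k + 1)) := by
  have h1 : K - k = (K - (k + 1)) + 1 := by omega
  have h2 : cumVar K e (k + 1) - cumVar K e k = e (k + 1) ^ 2 := by
    rw [Vale.Agent.P166.Parisi.SpinAux.cumVar_of_le (show k + 1 ≤ K by omega),
      Vale.Agent.P166.Parisi.SpinAux.cumVar_of_le hk.le, sum_range_succ _ (k + 1)]
    ring
  rw [prof, h1, descend, show K - (K - (k + 1)) = k + 1 by omega, Nat.add_sub_cancel, h2]
  rfl

lemma lvl_succ_pos (K k : ℕ) : 0 < lvl K (k + 1) := by unfold lvl; positivity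

lemma prof_congr {e' : ℕ → ℝ} {k : ℕ} (hk : k ≤ K) (h : ∀ i, k < i → i ≤ K → e i ^ 2 = e' i ^ 2) :
    prof K e k = prof K e' k := by
  induction hk using Nat.decreasingInduction with
  | self => rw [prof_top, prof_top]
  | of_succ k hk ih =>
    rw [prof_pred hk, prof_pred hk, h (k + 1) (by omega) hk,
      ih fun i h1 h2 => h i (by omega) h2]

lemma prof_prof (e : ℕ → ℝ) {k : ℕ} (hk : k ≤ K) : Prof (prof K e k) := by
  induction hk using Nat.decreasingInduction with
  | self => rw [prof_top]; exact prof_logcosh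
  | of_succ k hk ih =>
    rw [prof_pred hk]
    have hl := lvl_succ_pos K k
    rcases eq_or_ne (e (k + 1)) 0 with h0 | h0
    · convert ih using 1
      funext y
      rw [h0, zero_pow two_ne_zero, Vale.Agent.P166.Parisi.SpinAux.gaussStep_zero hl.ne']
    · convert prof_step ih hl (s := |e (k + 1)|) (abs_pos.2 h0) using 1
      funext y
      simp [gaussStep, H, Real.sqrt_sq_eq_abs]

lemma nest_u_eq (he : e (K + 1) = 0) {k : ℕ} (hk : k ≤ K) :
    (spinNest K e).u (spinLeaf.logZ spinLaw) k = fun y => prof K e k (y ()) := by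
  funext y
  show (spinNest K e).uUp (spinLeaf.logZ spinLaw) (K + 1 - k) y = _
  rw [show K + 1 - k = (K - k) + 1 by omega,
    Vale.Agent.P166.Parisi.SpinAux.uUp_succ_eq e (K - k) (by omega), he]
  simp [prof]

lemma hasDerivAt_prof (he : e (K + 1) = 0) {k : ℕ} (hk : k ≤ K) (v : ℝ) :
    HasDerivAt (prof K e k) ((spinNest K e).grad spinLeaf spinLaw k () fun _ => v) v ∧
    HasDerivAt (fun v => (spinNest K e).grad spinLeaf spinLaw k () fun _ => v)
      ((spinNest K e).hess spinLeaf spinLaw k () () fun _ => v) v := by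
  have hk' : k ≤ (spinNest K e).K := Nat.le_succ_of_le hk
  have h1 := Vale.Agent.P157.Parisi.hasDerivAt_u (μ := spinLaw) (spinNest_good K e) spinLeaf_good
    hk' (fun _ => v) (fun _ => (1 : ℝ))
  have h2 := Vale.Agent.P157.Parisi.hasDerivAt_grad (μ := spinLaw) (spinNest_good K e)
    spinLeaf_good hk' () (fun _ => v) (fun _ => (1 : ℝ))
  simp only [nest_u_eq he hk, Fintype.univ_punit, sum_singleton, one_mul, mul_one] at h1 h2
  have hs : HasDerivAt (fun u : ℝ => u - v) 1 v := (hasDerivAt_id v).sub_const v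
  constructor
  · have := HasDerivAt.comp v (by simpa using h1) hs
    simpa [Function.comp_def] using this
  · have := HasDerivAt.comp v (by simpa using h2) hs
    simpa [Function.comp_def] using this

lemma deriv_prof (he : e (K + 1) = 0) {k : ℕ} (hk : k ≤ K) :
    deriv (prof K e k) = fun v => (spinNest K e).grad spinLeaf spinLaw k () fun _ => v :=
  funext fun v => (hasDerivAt_prof he hk v).1.deriv

lemma continuous_deriv_prof (he : e (K + 1) = 0) {k : ℕ} (hk : k ≤ K) :
    Continuous (deriv (prof K e k)) := by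
  rw [deriv_prof he hk]
  exact continuous_iff_continuousAt.2 fun v => (hasDerivAt_prof he hk v).2.continuousAt

lemma hess_le_one (e : ℕ → ℝ) {l : ℕ} (hl : l ≤ K + 1) (y : Unit → ℝ) :
    (spinNest K e).hess spinLeaf spinLaw l () () y ≤ 1 := by
  have hN := spinNest_good K e
  have hL := spinLeaf_good
  have key : ∀ y, (spinNest K e).heat spinLeaf spinLaw l () y ≤ 1 := by
    refine Vale.Agent.P157.Parisi.levels_induction (K := (spinNest K e).K)
      (P := fun l => ∀ y, (spinNest K e).heat spinLeaf spinLaw l () y ≤ 1) ?_ (fun m hm ih => ?_) hl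
    · intro y
      rw [Vale.Agent.P157.Parisi.heat_top hN hL]
      have : (fun ω v => (∑ j, spinLeaf.φ2 j (spinLeaf.loc ω v j) * spinLeaf.a ω j () ^ 2) +
          spinLeaf.vec () ω v ^ 2) = fun (_ : Bool) (_ : Unit → ℝ) => (1 : ℝ) := by
        funext b v
        cases b <;> simp [spinLeaf, Leaf.vec]
      rw [this]
      have h := Vale.Agent.P157.Parisi.node_const (μ := spinLaw) hN hL
        (le_refl (spinNest K e).K) (1 : ℝ) y
      rw [Vale.Agent.P157.Parisi.node_top hN hL] at h
      exact h.le
    · intro y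
      rw [Vale.Agent.P157.Parisi.heat_succ hN hL hm]
      have hg := Vale.Agent.P157.Parisi.grad_tame (μ := spinLaw) hN hL (show m + 1 ≤ _ from hm) ()
      have h1 := Vale.Agent.P157.Parisi.avg_mono (μ := spinLaw) hN hL hm
        (Vale.Agent.P157.Parisi.heat_tame (μ := spinLaw) hN hL (show m + 1 ≤ _ from hm) ())
        (Vale.Agent.P157.Parisi.tame_const 1) ih y
      rw [Vale.Agent.P157.Parisi.avg_const hN hL hm] at h1
      have h2 := Vale.Agent.P157.Parisi.avg_mono (μ := spinLaw) hN hL hm
        (Vale.Agent.P157.Parisi.tame_const 0) hg.sq (fun v => sq_nonneg _) y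
      rw [Vale.Agent.P157.Parisi.avg_const hN hL hm] at h2
      have h3 : 0 ≤ (spinNest K e).w (m + 1) := sub_nonneg.2 (hN.x_mono (m + 1) hm)
      linarith [mul_nonneg h3 h2]
  have hx : 0 ≤ (spinNest K e).x (l + 1) := le_min zero_le_one (by unfold lvl; positivity)
  have := key y
  rw [Nest.heat] at this
  linarith [mul_nonneg hx (sq_nonneg ((spinNest K e).grad spinLeaf spinLaw l () y))]

lemma abs_deriv_prof_le (he : e (K + 1) = 0) {k : ℕ} (hk : k ≤ K) (v : ℝ) :
    |deriv (prof K e k) v| ≤ |v| := by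
  have hP := prof_prof e hk
  have h0 : deriv (prof K e k) 0 = 0 := by have := hP.deriv_neg 0; rw [neg_zero] at this; linarith
  have hd : ∀ u, HasDerivAt (fun u => u - deriv (prof K e k) u)
      (1 - (spinNest K e).hess spinLeaf spinLaw k () () fun _ => u) u := fun u => by
    rw [deriv_prof he hk]
    exact (hasDerivAt_id u).sub (hasDerivAt_prof he hk u).2
  have hmono := monotone_of_hasDerivAt_nonneg hd fun u => sub_nonneg.2 (hess_le_one e (by omega) _)
  rcases le_total 0 v with hv | hv
  · have h1 := hP.mono hv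
    have h2 := hmono hv
    simp only [h0] at h1 h2
    rw [abs_of_nonneg h1, abs_of_nonneg hv]
    linarith
  · have h1 := hP.mono hv
    have h2 := hmono hv
    simp only [h0] at h1 h2
    rw [abs_of_nonpos h1, abs_of_nonpos hv]
    linarith

/-- With vanishing amplitudes below level `k`, the averages there are evaluations at `0`. -/
lemma mean_below {k : ℕ} (hk : k ≤ K) (hz : ∀ i < k, e i = 0) :
    ∀ j < k, ∀ f : (Unit → ℝ) → ℝ,
      (spinNest K e).mean (spinLeaf.logZ spinLaw) j f = f 0 := by
  intro j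
  induction j with
  | zero =>
    intro hj f
    show ∫ z, f (fun i => (spinNest K e).amp 0 i * z i) ∂gauss Unit = f 0
    have : ∀ z : Unit → ℝ, (fun i => (spinNest K e).amp 0 i * z i) = 0 := fun z => by
      funext i; simp [spinNest, hz 0 hj]
    simp [this]
  | succ j ih =>
    intro hj f
    show (spinNest K e).mean (spinLeaf.logZ spinLaw) j
      ((spinNest K e).avg (spinLeaf.logZ spinLaw) j f) = f 0
    rw [ih (by omega)]
    have hm : ∀ z : Unit → ℝ, move ((spinNest K e).amp (j + 1)) (0 : Unit → ℝ) z = 0 := fun z => by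
      funext i; simp [move, spinNest, hz (j + 1) hj]
    simp only [Nest.avg, Vale.Agent.P157.Parisi.tilt, hm, integral_mul_const]
    simp

lemma lvl_pos_of {k : ℕ} (hk : 1 ≤ k) : 0 < lvl K k := by
  have : (0 : ℝ) < k := by exact_mod_cast hk
  unfold lvl; positivity

/-- The overlap at the first positive level. -/
lemma spinPath_first (he : e (K + 1) = 0) {k : ℕ} (hk : k ≤ K) (hk1 : 1 ≤ k)
    (hz : ∀ i < k, e i = 0) (hek : 0 ≤ e k) :
    spinPath K e k = F1 (prof K e k) (e k ^ 2) (lvl K k) := by
  obtain ⟨j, rfl⟩ : ∃ j, k = j + 1 := ⟨k - 1, by omega⟩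
  rw [spinPath, min_eq_left hk, Nest.sqGrad]
  show (spinNest K e).mean _ j ((spinNest K e).avg _ j _) = _
  rw [mean_below (by omega) (fun i hi => hz i hi) j (by omega)]
  have hm : ∀ z : Unit → ℝ, move ((spinNest K e).amp (j + 1)) (0 : Unit → ℝ) z =
      fun _ => √(e (j + 1) ^ 2) * z () := fun z => by
    funext i; simp [move, spinNest, Real.sqrt_sq hek]
  have hx : (spinNest K e).x (j + 1) = lvl K (j + 1) :=
    Vale.Agent.P157.Parisi.ModelFacts.gridX_of_le K (by omega)
  simp only [Nest.avg, Vale.Agent.P157.Parisi.tilt, hm, hx, nest_u_eq he hk, F1,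
    deriv_prof he hk]
  rw [Vale.Agent.P157.Parisi.ModelFacts.integral_gauss_unit (fun z => exp (lvl K (j + 1) *
      prof K e (j + 1) (√(e (j + 1) ^ 2) * z)) *
        (spinNest K e).grad spinLeaf spinLaw (j + 1) () (fun _ => √(e (j + 1) ^ 2) * z) ^ 2),
    Vale.Agent.P157.Parisi.ModelFacts.integral_gauss_unit (fun z => exp (lvl K (j + 1) *
      prof K e (j + 1) (√(e (j + 1) ^ 2) * z)))]
  simp only [mul_comm (exp _)]

/-- The free energy with a single first positive level. -/
lemma oneSpin_first (he : e (K + 1) = 0) {k : ℕ} (hk : k ≤ K) (hk1 : 1 ≤ k)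
    (hz : ∀ i < k, e i = 0) :
    oneSpin K e = Tl (prof K e k) (e k ^ 2) (lvl K k) := by
  have h0 : cumVar K e 0 = 0 := by simp [cumVar, hz 0 (by omega)]
  have hdown : ∀ j, j < k → prof K e j 0 = prof K e (k - 1) 0 := by
    intro j hj
    obtain ⟨d, hd⟩ : ∃ d, k - 1 = j + d := ⟨k - 1 - j, by omega⟩
    rw [hd]
    induction d generalizing j with
    | zero => rfl
    | succ d ih =>
      rw [prof_pred (show j < K by omega), hz (j + 1) (by omega), zero_pow two_ne_zero,
        Vale.Agent.P166.Parisi.SpinAux.gaussStep_zero (lvl_succ_pos K j).ne',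
        ih (j + 1) (by omega) (by omega), add_right_comm, add_assoc]
  rw [Vale.Agent.P166.Parisi.oneSpin_eq, isingField, cascade, h0, Real.sqrt_zero,
    sum_range_succ _ (K + 1), he, ← Vale.Agent.P166.Parisi.SpinAux.cumVar_of_le (le_refl K)]
  have e0 : descend K (cumVar K e) (fun y => log (cosh y)) K 0 = prof K e 0 0 := by simp [prof]
  simp only [zero_mul, integral_const, probReal_univ, one_smul]
  rw [e0, hdown 0 (by omega), prof_pred (show k - 1 < K by omega),
    show k - 1 + 1 = k by omega]
  simp [gaussStep, Tl]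

/-- The derivative in the first positive amplitude. -/
lemma G1_first (he : e (K + 1) = 0) {k : ℕ} (hk : k ≤ K) (hk1 : 1 ≤ k) (hz : ∀ i < k, e i = 0)
    (hek : 0 < e k) :
    G1 (prof K e k) (e k ^ 2) (lvl K k) = 1 - qTail K (spinPath K e) k := by
  set x := lvl K k with hxd
  set U := prof K e k with hUd
  have hx : 0 < x := lvl_pos_of hk1
  have hL := (prof_prof e hk).toLip1
  have h1 := Vale.Agent.P166.Parisi.hasDerivAt_oneSpin (K := K) e hk
  have h2 : HasDerivAt (fun θ => x⁻¹ * log (H U x 0 θ 0))
      (e k * G1 U (e k ^ 2) x) (e k) := by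
    refine (((hasDerivAt_H hL hx.le 0 (hasDerivAt_id' (e k)) (hasDerivAt_const (e k) (0:ℝ))).log
      (H_zero_pos hL hx.le _ _).ne').const_mul x⁻¹).congr_deriv ?_
    simp only [one_mul, zero_mul, add_zero, zero_add, G1, Real.sqrt_sq hek.le]
    have hH : H U x 0 (e k) 0 = ∫ z, exp (x * U (e k * z)) ∂(gaussianReal 0 1) := by simp [H]
    have hHd : Hd U x 1 (e k) 0 =
        x * ∫ z, z * deriv U (e k * z) * exp (x * U (e k * z)) ∂(gaussianReal 0 1) := by
      simp only [Hd, pow_one, zero_add, ← integral_const_mul]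
      exact integral_congr_ae (.of_forall fun z => by ring)
    rw [← hH, hHd, ← mul_div_assoc, inv_mul_cancel_left₀ hx.ne', ← mul_div_assoc,
      mul_div_mul_left _ _ hek.ne']
  have heq : (fun θ => x⁻¹ * log (H U x 0 θ 0)) =ᶠ[𝓝 (e k)]
      fun θ => oneSpin K (Function.update e k θ) := by
    filter_upwards [lt_mem_nhds hek] with θ hθ
    rw [oneSpin_first (e := Function.update e k θ)
      (by rw [Function.update_of_ne (by omega)]; exact he) hk hk1
      (fun i hi => by rw [Function.update_of_ne (by omega)]; exact hz i hi),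
      prof_congr (e' := e) hk fun i h1 _ => by rw [Function.update_of_ne (by omega)],
      Function.update_self]
    simp [Tl, H, Real.sqrt_sq hθ.le, ← hxd, ← hUd]
  have := h2.unique (h1.congr_of_eventuallyEq heq)
  exact mul_left_cancel₀ hek.ne' this

/-- Moving the first positive level one step up. -/
lemma oneSpin_move (he : e (K + 1) = 0) {k : ℕ} (hk : k < K) (hk1 : 1 ≤ k)
    (hz : ∀ i < k, e i = 0) :
    oneSpin K (Function.update (Function.update e k 0) (k + 1) √(e (k + 1) ^ 2 + e k ^ 2)) =
      Tl (prof K e k) (e k ^ 2) (lvl K (k + 1)) := by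
  set b := e k ^ 2
  set d := e (k + 1) ^ 2
  set e' := Function.update (Function.update e k 0) (k + 1) √(d + b)
  have hz' : ∀ i < k + 1, e' i = 0 := fun i hi => by
    simp only [e']
    rw [Function.update_of_ne (by omega)]
    rcases eq_or_ne i k with rfl | h
    · simp
    · rw [Function.update_of_ne h]; exact hz i (by omega)
  have he' : e' (K + 1) = 0 := by
    simp only [e']
    rw [Function.update_of_ne (by omega), Function.update_of_ne (by omega)]
    exact he
  have hb : 0 ≤ b := sq_nonneg _
  have hd : 0 ≤ d := sq_nonneg _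
  rw [oneSpin_first he' (show k + 1 ≤ K by omega) (by omega) hz',
    show e' (k + 1) ^ 2 = d + b by
      simp only [e', Function.update_self]; exact Real.sq_sqrt (by linarith),
    prof_congr (e' := e) (show k + 1 ≤ K by omega) fun i h1 _ => by
      simp only [e']; rw [Function.update_of_ne (by omega), Function.update_of_ne (by omega)]]
  set x' := lvl K (k + 1)
  set U' := prof K e (k + 1)
  have hx' : 0 < x' := lvl_succ_pos K k
  have hL := (prof_prof e (show k + 1 ≤ K by omega)).toLip1
  simp only [Tl]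
  congr 2
  have hpt : ∀ z, exp (x' * prof K e k (√b * z)) =
      ∫ w, exp (x' * U' (√b * z + √d * w)) ∂(gaussianReal 0 1) := fun z => by
    rw [prof_pred hk, gaussStep, ← mul_assoc, mul_inv_cancel₀ hx'.ne', one_mul, exp_log]
    have := H_zero_pos hL hx'.le √d (√b * z)
    simpa [H] using this
  simp only [hpt]
  rw [add_comm d b, gauss_compose (g := fun v => exp (x' * U' v))
    (by have := hL.diff.continuous; fun_prop) (C := exp (x' * |U' 0|)) (k := x')
    (fun v => by rw [abs_exp]; exact exp_tilt_le hL hx'.le v) hb hd]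

end Vale.Agent.P146.Gap
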