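import Vale.Agent.P146.Gap.Defs
import Vale.Agent.P146.Main
import Vale.Agent.P166.Parisi.Spec.General

/-!
The R-transform of the semicircle law and its drop under the spectral perturbation.
-/

namespace Vale.Agent.P146.Gap

open MeasureTheory Filter Topology
open Vale.Agent.P166.Parisi (rTrans omegaInv omegaInv_eq omegaSet omegaSet_bddBelow cauchy)

variable {μ : Measure ℝ}

/-- The real spectral parameter. -/
noncomputable def edgePar (y : ℝ) : ℝ := y + y⁻¹

lemma edgePar_sub_two {y : ℝ} (hy : y ≠ 0) : edgePar y - 2 = (1 - y) ^ 2 / y := by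
  rw [edgePar]; field_simp; ring

lemma two_lt_edgePar {y : ℝ} (h0 : 0 < y) (h1 : y < 1) : 2 < edgePar y := by
  have := edgePar_sub_two h0.ne'
  have : 0 < (1 - y) ^ 2 / y := div_pos (pow_pos (by linarith) 2) h0
  linarith

lemma exists_edgePar {ω : ℝ} (hω : 2 < ω) : ∃ u, 0 < u ∧ u < 1 ∧ edgePar u = ω := by
  set s := Real.sqrt (ω ^ 2 - 4) with hs
  have hs2 : s ^ 2 = ω ^ 2 - 4 := Real.sq_sqrt (by nlinarith)
  have hs0 : 0 ≤ s := Real.sqrt_nonneg _
  have h1 : s < ω := by nlinarith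
  have h2 : ω - 2 < s := by nlinarith
  refine ⟨(ω - s) / 2, by linarith, by linarith, ?_⟩
  have h3 : ((ω - s) / 2)⁻¹ = (ω + s) / 2 := inv_eq_of_mul_eq_one_right (by nlinarith)
  rw [edgePar, h3]; ring

lemma ae_mem (hμ : IsSC μ) : ∀ᵐ x ∂μ, x ∈ Set.Icc (-2 : ℝ) 2 := by
  have := hμ.prob
  filter_upwards [Measure.support_mem_ae (μ := μ)] with x hx
  exact hμ.supp hx

lemma integrable_pos_pair (hμ : IsSC μ) {ω ω' : ℝ} (h : 2 < ω) (h' : 2 < ω') :
    Integrable (fun x => (ω - x)⁻¹ * (ω' - x)⁻¹) μ := by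
  have := hμ.prob
  refine Integrable.of_bound (by fun_prop) ((ω - 2)⁻¹ * (ω' - 2)⁻¹) ?_
  filter_upwards [ae_mem hμ] with x hx
  have a1 : 0 < ω - x := by linarith [hx.2]
  have a2 : 0 < ω' - x := by linarith [hx.2]
  rw [Real.norm_eq_abs, abs_of_pos (by positivity)]
  exact mul_le_mul (inv_anti₀ (by linarith) (by linarith [hx.2]))
    (inv_anti₀ (by linarith) (by linarith [hx.2])) (inv_nonneg.2 a2.le) (inv_nonneg.2 (by linarith))

lemma integrable_inv_edge (hμ : IsSC μ) {ω : ℝ} (h : 2 < ω) :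
    Integrable (fun x => (ω - x)⁻¹) μ := by
  have := hμ.prob
  exact Vale.Agent.P166.Parisi.integrable_inv_sub ((ae_mem hμ).mono fun x hx => hx.2) h

/-- The Stieltjes transform to the right of the edge. -/
lemma cauchy_edgePar (hμ : IsSC μ) {y : ℝ} (h0 : 0 < y) (h1 : y < 1) :
    cauchy μ (edgePar y) = y := by
  have := hμ.prob
  set Y : ℝ → ℂ := fun τ => (y : ℂ) - τ * Complex.I
  set Z : ℝ → ℂ := fun τ => Y τ + (Y τ)⁻¹
  have hY0 : Y 0 = (y : ℂ) := by simp [Y]
  have hne : Y 0 ≠ 0 := by rw [hY0]; exact_mod_cast h0.ne'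
  have hZc : ContinuousAt Z 0 := by
    have hYc : ContinuousAt Y 0 := by simp only [Y]; fun_prop
    exact hYc.add (hYc.inv₀ hne)
  have hω := two_lt_edgePar h0 h1
  have hZ0 : Z 0 = ((edgePar y : ℝ) : ℂ) := by simp [Z, hY0, edgePar]
  set ω := edgePar y with hωdef
  have hl : Filter.Tendsto Z (𝓝[>] 0) (𝓝 (ω : ℂ)) := by
    rw [← hZ0]; exact hZc.tendsto.mono_left nhdsWithin_le_nhds
  have hre : ∀ᶠ τ in 𝓝[>] (0 : ℝ), 2 + (ω - 2) / 2 < (Z τ).re := by
    have := (Complex.continuous_re.tendsto _).comp hl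
    exact this.eventually (lt_mem_nhds (by simp only [Complex.ofReal_re]; linarith))
  have hint : Filter.Tendsto (fun τ => ∫ x : ℝ, (Z τ - (x : ℂ))⁻¹ ∂μ) (𝓝[>] 0)
      (𝓝 (∫ x : ℝ, ((ω : ℂ) - (x : ℂ))⁻¹ ∂μ)) := by
    refine tendsto_integral_filter_of_dominated_convergence (fun _ => ((ω - 2) / 2)⁻¹)
      (Eventually.of_forall fun τ => Measurable.aestronglyMeasurable (by fun_prop)) ?_
      (integrable_const _) ?_
    · filter_upwards [hre] with τ hτ
      filter_upwards [ae_mem hμ] with x hx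
      rw [norm_inv]
      refine inv_anti₀ (by linarith) (le_trans ?_ (Complex.abs_re_le_norm _))
      rw [Complex.sub_re, Complex.ofReal_re]
      exact le_trans (by linarith [hx.2]) (le_abs_self _)
    · filter_upwards [ae_mem hμ] with x hx
      refine (hl.sub_const _).inv₀ ?_
      rw [← Complex.ofReal_sub]
      exact_mod_cast (by linarith [hx.2] : ω - x ≠ 0)
  have hval : ∀ᶠ τ in 𝓝[>] (0 : ℝ), ∫ x : ℝ, (Z τ - (x : ℂ))⁻¹ ∂μ = Y τ := by
    have hn : ∀ᶠ τ in 𝓝[>] (0 : ℝ), ‖Y τ‖ < 1 := by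
      have hc : ContinuousAt (fun τ => ‖Y τ‖) 0 := by simp only [Y]; fun_prop
      refine (hc.tendsto.mono_left nhdsWithin_le_nhds).eventually (gt_mem_nhds ?_)
      rw [hY0, Complex.norm_real, Real.norm_of_nonneg h0.le]; exact h1
    filter_upwards [hn, self_mem_nhdsWithin] with τ hτ hτ0
    exact hμ.stieltjes (Y τ) hτ (by simpa [Y] using hτ0)
  have hY : Filter.Tendsto Y (𝓝[>] 0) (𝓝 (y : ℂ)) := by
    have hc : ContinuousAt Y 0 := by simp only [Y]; fun_prop
    rw [← hY0]; exact hc.tendsto.mono_left nhdsWithin_le_nhds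
  have key := tendsto_nhds_unique (hint.congr' hval) hY
  have e : ∫ x : ℝ, ((ω : ℂ) - (x : ℂ))⁻¹ ∂μ = ((cauchy μ ω : ℝ) : ℂ) := by
    rw [cauchy, ← integral_complex_ofReal]
    exact integral_congr_ae (Eventually.of_forall fun x => by simp)
  rw [e] at key
  exact_mod_cast key

lemma omegaSet_mem_iff (hμ : IsSC μ) {y ω : ℝ} :
    ω ∈ omegaSet μ y ↔ 2 < ω ∧ cauchy μ ω ≤ y := by
  rw [omegaSet, Set.mem_ofPred_eq, hμ.top]

/-- Two spectral points. -/
lemma pair_integral (hμ : IsSC μ) {u v : ℝ} (u0 : 0 < u) (u1 : u < 1) (v0 : 0 < v) (v1 : v < 1)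
    (huv : u ≠ v) :
    ∫ x, (edgePar u - x)⁻¹ * (edgePar v - x)⁻¹ ∂μ = u * v / (1 - u * v) := by
  have hu := two_lt_edgePar u0 u1
  have hv := two_lt_edgePar v0 v1
  have e : (edgePar v - edgePar u) * ∫ x, (edgePar u - x)⁻¹ * (edgePar v - x)⁻¹ ∂μ
      = cauchy μ (edgePar u) - cauchy μ (edgePar v) := by
    rw [cauchy, cauchy, ← integral_sub (integrable_inv_edge hμ hu) (integrable_inv_edge hμ hv),
      ← integral_const_mul]
    refine integral_congr_ae ?_
    filter_upwards [ae_mem hμ] with x hx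
    have a1 : edgePar u - x ≠ 0 := by linarith [hx.2]
    have a2 : edgePar v - x ≠ 0 := by linarith [hx.2]
    field_simp
    ring
  rw [cauchy_edgePar hμ u0 u1, cauchy_edgePar hμ v0 v1] at e
  have h1 : 0 < 1 - u * v := by nlinarith
  have e2 : edgePar v - edgePar u = (u - v) * (1 - u * v) / (u * v) := by
    rw [edgePar, edgePar]; field_simp; ring
  have h2 : u - v ≠ 0 := sub_ne_zero.2 huv
  rw [e2] at e
  field_simp at e ⊢
  linarith

lemma omegaInv_edge (hμ : IsSC μ) {y : ℝ} (h0 : 0 < y) (h1 : y < 1) :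
    omegaInv μ y = edgePar y := by
  have hω := two_lt_edgePar h0 h1
  rw [omegaInv_eq]
  refine le_antisymm (csInf_le (omegaSet_bddBelow _ _)
    ((omegaSet_mem_iff hμ).2 ⟨hω, (cauchy_edgePar hμ h0 h1).le⟩))
    (le_csInf ⟨_, (omegaSet_mem_iff hμ).2 ⟨hω, (cauchy_edgePar hμ h0 h1).le⟩⟩ fun ω hm => ?_)
  obtain ⟨hm1, hm2⟩ := (omegaSet_mem_iff hμ).1 hm
  obtain ⟨u, u0, u1, rfl⟩ := exists_edgePar hm1
  rw [cauchy_edgePar hμ u0 u1] at hm2
  have h := mul_nonneg (sub_nonneg.2 hm2) (show (0 : ℝ) ≤ 1 - u * y by nlinarith)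
  rw [edgePar, edgePar, ← sub_nonneg]
  rw [show u + u⁻¹ - (y + y⁻¹) = (y - u) * (1 - u * y) / (u * y) by field_simp; ring]
  positivity

lemma omegaInv_above (hμ : IsSC μ) {y : ℝ} (h1 : 1 ≤ y) : omegaInv μ y = 2 := by
  rw [omegaInv_eq, show omegaSet μ y = Set.Ioi 2 from ?_, csInf_Ioi]
  ext ω
  rw [omegaSet_mem_iff hμ, Set.mem_Ioi]
  refine ⟨fun h => h.1, fun h => ⟨h, ?_⟩⟩
  obtain ⟨u, u0, u1, rfl⟩ := exists_edgePar h
  rw [cauchy_edgePar hμ u0 u1]; linarith

lemma rTrans_semicircle (hμ : IsSC μ) {y : ℝ} (hy : 0 < y) :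
    rTrans μ y ≤ y ∧ (y ≤ 1 → rTrans μ y = y) := by
  rcases lt_or_ge y 1 with h | h
  · have : rTrans μ y = y := by rw [rTrans, omegaInv_edge hμ hy h, edgePar]; ring
    exact ⟨this.le, fun _ => this⟩
  · have e : rTrans μ y = 2 - y⁻¹ := by rw [rTrans, omegaInv_above hμ h]
    refine ⟨?_, fun h' => ?_⟩
    · rw [e, ← sub_nonneg, show y - (2 - y⁻¹) = (y - 1) ^ 2 / y by field_simp; ring]
      positivity
    · rw [e, le_antisymm h' h]; norm_num

/-! ### The perturbation -/

/-- The size of the perturbation. -/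
noncomputable def hop (z : ℂ) (x : ℝ) : ℝ := z.im / Complex.normSq (z - (x : ℂ))

lemma tiltSpec_eq (z : ℂ) (t x : ℝ) : tiltSpec z t x = x - t * hop z x := by
  simp [tiltSpec, hop, Complex.inv_im]
  ring

lemma continuous_tiltSpec {z : ℂ} (hz : 0 < z.im) (t : ℝ) : Continuous (tiltSpec z t) := by
  unfold tiltSpec
  refine continuous_id.add (continuous_const.mul (Complex.continuous_im.comp
    (Continuous.inv₀ (by fun_prop) fun x h => ?_)))
  have := congrArg Complex.im h
  simp at this; linarith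

lemma hop_bounds {z : ℂ} (hz : 0 < z.im) (x : ℝ) : 0 ≤ hop z x ∧ hop z x ≤ z.im⁻¹ := by
  have h : z.im ^ 2 ≤ Complex.normSq (z - (x : ℂ)) := by
    simp [Complex.normSq_apply]; nlinarith [sq_nonneg (z.re - x)]
  refine ⟨div_nonneg hz.le (Complex.normSq_nonneg _), ?_⟩
  rw [hop, div_le_iff₀ (lt_of_lt_of_le (by positivity) h), inv_mul_eq_div, le_div_iff₀ hz]
  nlinarith

section Drop

variable {a : ℝ} (ha : 0 < a) (ha' : a ≤ 1 / 320)
include ha ha'

lemma hop_ge {x : ℝ} (hx : x ≤ 2) (hS : 2 - x ≤ 51200 * a ^ 2) :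
    1 / (51212 ^ 2 * a ^ 2) ≤ hop (zOf a) x := by
  have ha8 : a ≤ 1 / 8 := by linarith
  obtain ⟨hz1, -⟩ := im_zOf ha ha8
  have hy0 := yOf_ne_zero ha ha8
  have e : zOf a - 2 = (1 - yOf a) ^ 2 / yOf a := by rw [zOf]; field_simp; ring
  have h2 : ‖zOf a - 2‖ ≤ 12 * a ^ 2 := by
    rw [e, norm_div, norm_pow, div_le_iff₀ (norm_pos_iff.2 hy0)]
    have := pow_le_pow_left₀ (norm_nonneg _) (norm_one_sub_yOf ha ha8) 2
    nlinarith [(norm_yOf ha ha8).1]
  have h3 : ‖zOf a - (x : ℂ)‖ ≤ 51212 * a ^ 2 := by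
    rw [show zOf a - (x : ℂ) = (zOf a - 2) + ((2 - x : ℝ) : ℂ) by push_cast; ring]
    refine (norm_add_le _ _).trans ?_
    rw [Complex.norm_real, Real.norm_of_nonneg (by linarith)]
    linarith
  have hpos : 0 < Complex.normSq (zOf a - (x : ℂ)) := Complex.normSq_pos.2 fun h => by
    have := congrArg Complex.im h
    simp at this; linarith [im_zOf_pos ha ha8]
  have h4 : Complex.normSq (zOf a - (x : ℂ)) ≤ (51212 * a ^ 2) ^ 2 := by
    rw [Complex.normSq_eq_norm_sq]; exact pow_le_pow_left₀ (norm_nonneg _) h3 2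
  rw [hop, le_div_iff₀ hpos, div_mul_eq_mul_div, one_mul, div_le_iff₀ (by positivity)]
  nlinarith

lemma drop_pointwise {x t y : ℝ} (hx : x ≤ 2) (ht : 0 < t) (ht' : t ≤ a ^ 4) (hy : 1 - a ≤ y)
    (hy1 : y < 1) :
    let K := 1 / (51212 ^ 2 * a ^ 2)
    tiltSpec (zOf a) t x ≤ 2 - t * (K / 4) ∧
      t * (K / 2 * ((edgePar (1 - 2 * a) - x)⁻¹ ^ 2) - 4 * K * (edgePar (1 - 160 * a) - x)⁻¹ ^ 2)
        ≤ (edgePar y - x)⁻¹ - (edgePar y - t * (K / 4) - tiltSpec (zOf a) t x)⁻¹ := by
  intro K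
  have ha8 : a ≤ 1 / 8 := by linarith
  have hy0 : 0 < y := by linarith
  have hK : 0 < K := by positivity
  have hKa : K * a ^ 2 ≤ 1 := by
    rw [show K * a ^ 2 = 1 / 51212 ^ 2 by simp only [K]; field_simp]; norm_num
  obtain ⟨hh0, hh1⟩ := hop_bounds (im_zOf_pos ha ha8) x
  have hh2 : hop (zOf a) x * a ^ 2 ≤ 1 := by
    have := hh1.trans (inv_anti₀ (by positivity) (im_zOf ha ha8).1)
    rwa [← one_div, le_div_iff₀ (by positivity)] at this
  have hw0 := two_lt_edgePar hy0 hy1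
  have hw2 : edgePar y - 2 ≤ 2 * a ^ 2 := by
    rw [edgePar_sub_two hy0.ne', div_le_iff₀ hy0]
    have : (1 - y) ^ 2 ≤ a ^ 2 := pow_le_pow_left₀ (by linarith) (by linarith) 2
    nlinarith
  have hw1 : 3 * a ^ 2 ≤ edgePar (1 - 2 * a) - 2 := by
    rw [edgePar_sub_two (by linarith : 1 - 2 * a ≠ 0), le_div_iff₀ (by linarith)]
    nlinarith [pow_pos ha 3]
  have hM0 : 2 < edgePar (1 - 160 * a) := two_lt_edgePar (by linarith) (by linarith)
  have hM : edgePar (1 - 160 * a) - 2 ≤ 51200 * a ^ 2 := by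
    rw [edgePar_sub_two (by linarith : 1 - 160 * a ≠ 0), div_le_iff₀ (by linarith)]
    nlinarith
  rw [tiltSpec_eq]
  set h := hop (zOf a) x with hh
  set u := edgePar y - x with hu
  have hu0 : 0 < u := by linarith
  set v := edgePar y - t * (K / 4) - (x - t * h) with hv
  have hve : v = u + t * (h - K / 4) := by rw [hv, hu]; ring
  set p := (edgePar (1 - 2 * a) - x)⁻¹ ^ 2
  set r := (edgePar (1 - 160 * a) - x)⁻¹ ^ 2
  have e : ∀ (hv0 : 0 < v), u⁻¹ - v⁻¹ = t * ((h - K / 4) * (u * v)⁻¹) := fun hv0 => by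
    rw [inv_sub_inv hu0.ne' hv0.ne', div_eq_mul_inv, hve]; ring
  have hr : 0 ≤ r := sq_nonneg _
  by_cases hS : 2 - x ≤ 51200 * a ^ 2
  · have hk : K ≤ h := hop_ge ha ha' hx hS
    have htk : t * (K / 4) ≤ t * h := mul_le_mul_of_nonneg_left (by linarith) ht.le
    refine ⟨by linarith, ?_⟩
    have hv0 : 0 < v := by linarith
    have hta : t * h ≤ a ^ 2 := by
      calc t * h ≤ a ^ 4 * h := mul_le_mul_of_nonneg_right ht' hh0
        _ = a ^ 2 * (h * a ^ 2) := by ring
        _ ≤ a ^ 2 * 1 := mul_le_mul_of_nonneg_left hh2 (sq_nonneg a)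
        _ = a ^ 2 := mul_one _
    have hle : u * v ≤ (edgePar (1 - 2 * a) - x) ^ 2 := by
      rw [sq]
      exact mul_le_mul (by linarith) (by linarith [mul_pos ht hK]) hv0.le (by linarith)
    rw [e hv0]
    refine mul_le_mul_of_nonneg_left ?_ ht.le
    have hp : p ≤ (u * v)⁻¹ := by
      simp only [p, inv_pow]
      exact inv_anti₀ (mul_pos hu0 hv0) hle
    have h2 : K / 2 * p ≤ (h - K / 4) * (u * v)⁻¹ :=
      mul_le_mul (by linarith) hp (sq_nonneg _) (by linarith)
    have := mul_nonneg hK.le hr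
    linarith
  · rw [not_le] at hS
    have h2x : 0 < 2 - x := lt_trans (by positivity) hS
    have htK : t * (K / 4) ≤ a ^ 2 / 4 := by
      calc t * (K / 4) ≤ a ^ 4 * (K / 4) := mul_le_mul_of_nonneg_right ht' (by linarith)
        _ = a ^ 2 * (K * a ^ 2) / 4 := by ring
        _ ≤ a ^ 2 / 4 := by linarith [mul_le_mul_of_nonneg_left hKa (sq_nonneg a)]
    have hth := mul_nonneg ht.le hh0
    refine ⟨by linarith, ?_⟩
    have hv0 : (2 - x) / 2 ≤ v := by linarith [sq_nonneg a]
    have hvpos : 0 < v := by linarith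
    set b := (2 - x)⁻¹ ^ 2 with hb
    have hb0 : 0 ≤ b := sq_nonneg _
    have hE : 0 < edgePar (1 - 160 * a) - x := by linarith
    have hbr : b ≤ 4 * r := by
      have h3 : (2 - x)⁻¹ ≤ 2 * (edgePar (1 - 160 * a) - x)⁻¹ := by
        rw [← div_eq_mul_inv, le_div_iff₀ hE, inv_mul_le_iff₀ h2x]
        linarith
      calc b ≤ (2 * (edgePar (1 - 160 * a) - x)⁻¹) ^ 2 :=
            pow_le_pow_left₀ (inv_nonneg.2 h2x.le) h3 2
        _ = 4 * r := by ring
    have hpb : p ≤ b :=
      pow_le_pow_left₀ (inv_nonneg.2 (by linarith [sq_nonneg a]))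
        (inv_anti₀ h2x (by linarith [sq_nonneg a])) 2
    have huv : (u * v)⁻¹ ≤ 2 * b := by
      have hm : (2 - x) * ((2 - x) / 2) ≤ u * v :=
        mul_le_mul (by linarith) hv0 (by linarith) hu0.le
      refine (inv_anti₀ (by positivity) hm).trans_eq ?_
      rw [hb]; field_simp
    rw [e hvpos]
    refine mul_le_mul_of_nonneg_left ?_ ht.le
    have h0 : 0 ≤ (u * v)⁻¹ := inv_nonneg.2 (mul_pos hu0 hvpos).le
    have h1 := mul_nonneg hh0 h0
    have h2 := mul_le_mul_of_nonneg_left huv (show 0 ≤ K / 4 by linarith)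
    have h3 := mul_le_mul_of_nonneg_left hpb (show 0 ≤ K / 2 by linarith)
    have h4 := mul_le_mul_of_nonneg_left hbr hK.le
    linarith

lemma omega_drop_lt (hμ : IsSC μ) {t y : ℝ} (ht : 0 < t) (ht' : t ≤ a ^ 4) (hy : 1 - a ≤ y)
    (hy1 : y < 1) {b : ℝ} (hb : y ≤ b) :
    omegaInv (μ.map (tiltSpec (zOf a) t)) b ≤ edgePar y - t * (1 / (4 * 51212 ^ 2) / a ^ 2) := by
  have := hμ.prob
  have ha8 : a ≤ 1 / 8 := by linarith
  have hc := continuous_tiltSpec (im_zOf_pos ha ha8) t
  set K := 1 / (51212 ^ 2 * a ^ 2) with hKdef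
  have eK : 1 / (4 * 51212 ^ 2) / a ^ 2 = K / 4 := by rw [hKdef]; field_simp
  rw [eK]
  set f := tiltSpec (zOf a) t with hf
  have : IsProbabilityMeasure (μ.map f) := Measure.isProbabilityMeasure_map hc.aemeasurable
  have hpw : ∀ᵐ x ∂μ, f x ≤ 2 - t * (K / 4) ∧
      t * (K / 2 * ((edgePar (1 - 2 * a) - x)⁻¹ ^ 2) - 4 * K * (edgePar (1 - 160 * a) - x)⁻¹ ^ 2)
        ≤ (edgePar y - x)⁻¹ - (edgePar y - t * (K / 4) - f x)⁻¹ :=
    (ae_mem hμ).mono fun x hx => drop_pointwise ha ha' hx.2 ht ht' hy hy1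
  have hsupp : sSup (μ.map f).support ≤ 2 - t * (K / 4) := by
    refine csSup_le (Measure.nonempty_support (IsProbabilityMeasure.ne_zero _)) fun x hx => ?_
    have hz : (μ.map f) (Set.Ioi (2 - t * (K / 4))) = 0 := by
      rw [Measure.map_apply hc.measurable measurableSet_Ioi]
      exact ae_iff.1 (hpw.mono fun x hx => not_lt.2 hx.1) |> fun h => by
        simpa [Set.preimage, not_not] using h
    by_contra hcon
    rw [not_le] at hcon
    exact (ne_of_gt ((Measure.mem_support_iff_forall x).1 hx _ (Ioi_mem_nhds hcon))) hz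
  have hω := two_lt_edgePar (show 0 < y by linarith) hy1
  rw [omegaInv_eq]
  refine csInf_le (omegaSet_bddBelow _ _) ⟨by linarith, le_trans ?_ hb⟩
  rw [cauchy, integral_map hc.aemeasurable (Measurable.aestronglyMeasurable (by fun_prop))]
  have i0 := integrable_inv_edge hμ hω
  have q1 : 2 < edgePar (1 - 2 * a) := two_lt_edgePar (by linarith) (by linarith)
  have q2 : 2 < edgePar (1 - 160 * a) := two_lt_edgePar (by linarith) (by linarith)
  have q3 : 2 < edgePar (1 - 3 * a) := two_lt_edgePar (by linarith) (by linarith)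
  have q4 : 2 < edgePar (1 - 80 * a) := two_lt_edgePar (by linarith) (by linarith)
  have i1 : Integrable (fun x => (edgePar (1 - 2 * a) - x)⁻¹ ^ 2) μ := by
    simpa only [sq] using integrable_pos_pair hμ q1 q1
  have i2 : Integrable (fun x => (edgePar (1 - 160 * a) - x)⁻¹ ^ 2) μ := by
    simpa only [sq] using integrable_pos_pair hμ q2 q2
  have i3 : Integrable (fun x => (edgePar y - t * (K / 4) - f x)⁻¹) μ := by
    refine Integrable.of_bound (Measurable.aestronglyMeasurable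
      ((measurable_const.sub hc.measurable).inv)) ((edgePar y - 2)⁻¹) ?_
    filter_upwards [hpw] with x hx
    rw [Real.norm_eq_abs, abs_inv, abs_of_pos (by linarith [hx.1])]
    exact inv_anti₀ (by linarith) (by linarith [hx.1])
  have hmain := integral_mono_ae ((i1.const_mul _).sub' (i2.const_mul _) |>.const_mul t)
    (i0.sub' i3) (hpw.mono fun x hx => hx.2)
  rw [integral_const_mul, integral_sub (i1.const_mul _) (i2.const_mul _), integral_sub i0 i3,
    integral_const_mul, integral_const_mul] at hmain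
  have hP : 1 / (10 * a) ≤ ∫ x, (edgePar (1 - 2 * a) - x)⁻¹ ^ 2 ∂μ := by
    have h := integral_mono_ae (integrable_pos_pair hμ q1 q3) i1
      ((ae_mem hμ).mono fun x hx => by
        have : edgePar (1 - 2 * a) ≤ edgePar (1 - 3 * a) := by
          have e1 := edgePar_sub_two (show 1 - 2 * a ≠ 0 by linarith)
          have e2 := edgePar_sub_two (show 1 - 3 * a ≠ 0 by linarith)
          have : (1 - (1 - 2 * a)) ^ 2 / (1 - 2 * a) ≤ (1 - (1 - 3 * a)) ^ 2 / (1 - 3 * a) :=
            div_le_div₀ (sq_nonneg _) (by nlinarith) (by linarith) (by linarith)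
          linarith
        simp only [sq]
        exact mul_le_mul_of_nonneg_left (inv_anti₀ (by linarith [hx.2]) (by linarith))
          (inv_nonneg.2 (by linarith [hx.2])))
    rw [pair_integral hμ (by linarith) (by linarith) (by linarith) (by linarith) (by linarith)] at h
    refine le_trans ?_ h
    rw [div_le_div_iff₀ (by positivity) (by nlinarith)]
    nlinarith
  have hR : ∫ x, (edgePar (1 - 160 * a) - x)⁻¹ ^ 2 ∂μ ≤ 1 / (80 * a) := by
    have h := integral_mono_ae i2 (integrable_pos_pair hμ q2 q4)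
      ((ae_mem hμ).mono fun x hx => by
        have : edgePar (1 - 80 * a) ≤ edgePar (1 - 160 * a) := by
          have e1 := edgePar_sub_two (show 1 - 80 * a ≠ 0 by linarith)
          have e2 := edgePar_sub_two (show 1 - 160 * a ≠ 0 by linarith)
          have : (1 - (1 - 80 * a)) ^ 2 / (1 - 80 * a)
              ≤ (1 - (1 - 160 * a)) ^ 2 / (1 - 160 * a) :=
            div_le_div₀ (sq_nonneg _) (by nlinarith) (by linarith) (by linarith)
          linarith
        simp only [sq]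
        exact mul_le_mul_of_nonneg_left (inv_anti₀ (by linarith [hx.2]) (by linarith))
          (inv_nonneg.2 (by linarith [hx.2])))
    rw [pair_integral hμ (by linarith) (by linarith) (by linarith) (by linarith) (by linarith)] at h
    refine h.trans ?_
    rw [div_le_div_iff₀ (by nlinarith) (by positivity)]
    nlinarith
  rw [show ∫ x, (edgePar y - x)⁻¹ ∂μ = y from cauchy_edgePar hμ (by linarith) hy1] at hmain
  have hK0 : 0 < K := by positivity
  have hkey : 0 ≤ K / 2 * ∫ x, (edgePar (1 - 2 * a) - x)⁻¹ ^ 2 ∂μ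
      - 4 * K * ∫ x, (edgePar (1 - 160 * a) - x)⁻¹ ^ 2 ∂μ := by
    have h1 := mul_le_mul_of_nonneg_left hP (show 0 ≤ K / 2 by positivity)
    have h2 := mul_le_mul_of_nonneg_left hR (show 0 ≤ 4 * K by positivity)
    have h3 : K / 2 * (1 / (10 * a)) = 4 * K * (1 / (80 * a)) := by field_simp; ring
    linarith
  nlinarith [mul_nonneg ht.le hkey]

end Drop

theorem perturb : PerturbStatement := by
  refine ⟨1 / (4 * 51212 ^ 2), by positivity, 1 / 320, by norm_num, fun μ hμ => ?_⟩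
  refine ⟨fun y hy => rTrans_semicircle hμ hy, fun a ha ha' => ⟨a ^ 4, by positivity, ?_⟩⟩
  intro t ht ht' y hy
  have := hμ.prob
  show rTrans (μ.map (tiltSpec (zOf a) t)) y ≤ _
  have ha8 : a ≤ 1 / 8 := by linarith
  have hc := continuous_tiltSpec (im_zOf_pos ha ha8) t
  split_ifs with h
  · rw [rTrans, rTrans]
    rcases lt_or_ge y 1 with h1 | h1
    · rw [omegaInv_edge hμ hy h1]
      linarith [omega_drop_lt ha ha' hμ ht ht' h h1 le_rfl]
    · rw [omegaInv_above hμ h1]
      suffices omegaInv (μ.map (tiltSpec (zOf a) t)) y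
          ≤ 2 - t * (1 / (4 * 51212 ^ 2) / a ^ 2) by linarith
      refine le_of_forall_pos_le_add fun e he => ?_
      set d := min a (Real.sqrt (e / 2)) with hd
      have hd0 : 0 < d := lt_min ha (Real.sqrt_pos.2 (by positivity))
      have hd2 : d ^ 2 ≤ e / 2 := by
        calc d ^ 2 ≤ Real.sqrt (e / 2) ^ 2 := pow_le_pow_left₀ hd0.le (min_le_right _ _) 2
          _ = e / 2 := Real.sq_sqrt (by positivity)
      have hda : d ≤ a := min_le_left _ _
      have := omega_drop_lt ha ha' hμ ht ht' (y := 1 - d) (by linarith) (by linarith)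
        (b := y) (by linarith)
      have e1 := edgePar_sub_two (show 1 - d ≠ 0 by linarith)
      have : (1 - (1 - d)) ^ 2 / (1 - d) ≤ e := by
        rw [div_le_iff₀ (by linarith)]
        nlinarith
      linarith
  · rw [sub_zero, rTrans, rTrans]
    gcongr
    rw [omegaInv_eq, omegaInv_eq]
    have hle : ∀ x, tiltSpec (zOf a) t x ≤ x := fun x => by
      rw [tiltSpec_eq]; nlinarith [(hop_bounds (im_zOf_pos ha ha8) x).1]
    have : IsProbabilityMeasure (μ.map (tiltSpec (zOf a) t)) :=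
      Measure.isProbabilityMeasure_map hc.aemeasurable
    have hsupp : sSup (μ.map (tiltSpec (zOf a) t)).support ≤ 2 := by
      refine csSup_le (Measure.nonempty_support (IsProbabilityMeasure.ne_zero _)) fun x hx => ?_
      by_contra hcon
      rw [not_le] at hcon
      refine (ne_of_gt ((Measure.mem_support_iff_forall x).1 hx _ (Ioi_mem_nhds hcon))) ?_
      rw [Measure.map_apply hc.measurable measurableSet_Ioi]
      exact measure_mono_null (fun x hx => by
        simp only [Set.mem_preimage, Set.mem_Ioi] at hx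
        simp only [Set.mem_compl_iff, Set.mem_Icc]
        rintro ⟨-, h2⟩
        linarith [hle x]) (mem_ae_iff.1 (ae_mem hμ))
    refine le_csInf ?_ fun ω hm => csInf_le (omegaSet_bddBelow _ _) ?_
    · obtain hy1 | hy1 := lt_or_ge y 1
      · exact ⟨edgePar y, (omegaSet_mem_iff hμ).2 ⟨two_lt_edgePar hy hy1,
          (cauchy_edgePar hμ hy hy1).le⟩⟩
      · linarith
    · obtain ⟨hm1, hm2⟩ := (omegaSet_mem_iff hμ).1 hm
      refine ⟨by linarith, le_trans ?_ hm2⟩
      rw [cauchy, integral_map hc.aemeasurable (Measurable.aestronglyMeasurable (by fun_prop))]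
      refine integral_mono_ae ?_ (integrable_inv_edge hμ hm1) ?_
      · refine Integrable.of_bound (Measurable.aestronglyMeasurable
          ((measurable_const.sub hc.measurable).inv)) ((ω - 2)⁻¹) ?_
        filter_upwards [ae_mem hμ] with x hx
        have := hle x
        rw [Real.norm_eq_abs, abs_inv, abs_of_pos (by linarith [hx.2])]
        exact inv_anti₀ (by linarith) (by linarith [hx.2])
      · filter_upwards [ae_mem hμ] with x hx
        exact inv_anti₀ (by linarith [hx.2]) (by linarith [hle x])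

end Vale.Agent.P146.Gap
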