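import Vale.Agent.P146.Gap.Defs

/-!
The semicircle law as the image of `(2/π) sin² θ dθ` on `(0, π)` by `θ ↦ 2 cos θ`.
-/

namespace Vale.Agent.P146.Gap

open MeasureTheory Filter Topology Real

noncomputable section

/-- The angular weight. -/
def scWeight : Measure ℝ :=
  (volume.restrict (Set.Ioc (0 : ℝ) π)).withDensity fun θ => ENNReal.ofReal (2 / π * sin θ ^ 2)

/-- The semicircle law. -/
def muSC : Measure ℝ := scWeight.map fun θ => 2 * cos θ

lemma measurable_scMap : Measurable fun θ : ℝ => 2 * cos θ := by fun_prop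

lemma isProbabilityMeasure_scWeight : IsProbabilityMeasure scWeight := by
  refine ⟨?_⟩
  rw [scWeight, withDensity_apply _ MeasurableSet.univ, Measure.restrict_univ,
    ← ofReal_integral_eq_lintegral_ofReal ?_ (.of_forall fun θ => by positivity)]
  · rw [integral_const_mul, ← intervalIntegral.integral_of_le pi_pos.le, integral_sin_sq]
    simp only [sin_zero, sin_pi, zero_mul, sub_zero, zero_add]
    rw [show 2 / π * (π / 2) = 1 by field_simp, ENNReal.ofReal_one]
  · exact ((by fun_prop : Continuous fun θ => 2 / π * sin θ ^ 2).integrableOn_Ioc)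

instance isProbabilityMeasure_muSC : IsProbabilityMeasure muSC :=
  have := isProbabilityMeasure_scWeight
  Measure.isProbabilityMeasure_map measurable_scMap.aemeasurable

lemma muSC_support_subset : muSC.support ⊆ Set.Icc (-2) 2 := by
  refine Measure.support_subset_of_isClosed isClosed_Icc ?_
  refine (ae_map_iff measurable_scMap.aemeasurable measurableSet_Icc).2 (.of_forall fun θ => ?_)
  constructor <;> nlinarith [neg_one_le_cos θ, cos_le_one θ]

lemma scWeight_pos {a b : ℝ} (ha : 0 ≤ a) (hb : b ≤ π) (hab : a < b) :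
    0 < scWeight (Set.Ioo a b) := by
  rw [scWeight, withDensity_apply _ measurableSet_Ioo, Measure.restrict_restrict measurableSet_Ioo,
    Set.inter_eq_self_of_subset_left
      (show Set.Ioo a b ⊆ Set.Ioc 0 π from fun θ hθ => ⟨ha.trans_lt hθ.1, hθ.2.le.trans hb⟩),
    lintegral_pos_iff_support (by fun_prop), Measure.restrict_apply' measurableSet_Ioo]
  refine (isOpen_Ioo.measure_pos volume (Set.nonempty_Ioo.2 hab)).trans_le
    (measure_mono fun θ hθ => ⟨?_, hθ⟩)
  simp only [Function.mem_support, ne_eq, ENNReal.ofReal_eq_zero, not_le]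
  have : 0 < sin θ := sin_pos_of_pos_of_lt_pi (by linarith [hθ.1]) (by linarith [hθ.2])
  positivity

lemma cos_mem_support {θ₀ : ℝ} (h : θ₀ ∈ Set.Icc 0 π) : 2 * cos θ₀ ∈ muSC.support := by
  rw [Measure.mem_support_iff_forall]
  intro U hU
  obtain ⟨V, hVU, hV, hmem⟩ := mem_nhds_iff.1 hU
  refine lt_of_lt_of_le ?_ (measure_mono hVU)
  rw [muSC, Measure.map_apply measurable_scMap hV.measurableSet]
  obtain ⟨δ, hδ, hball⟩ := Metric.isOpen_iff.1 (hV.preimage (by fun_prop : Continuous fun θ : ℝ =>
    2 * cos θ)) θ₀ hmem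
  refine lt_of_lt_of_le (scWeight_pos (a := max 0 (θ₀ - δ)) (b := min π (θ₀ + δ))
    (le_max_left _ _) (min_le_left _ _) ?_) (measure_mono fun θ hθ => hball ?_)
  · exact max_lt (lt_min pi_pos (by linarith [h.1])) (lt_min (by linarith [h.2]) (by linarith))
  · rw [Metric.mem_ball, Real.dist_eq, abs_lt]
    have h1 := (max_lt_iff.1 hθ.1).2
    have h2 := (lt_min_iff.1 hθ.2).2
    constructor <;> linarith

lemma two_mem_support : (2 : ℝ) ∈ muSC.support := by
  simpa using cos_mem_support (Set.left_mem_Icc.2 pi_pos.le)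

lemma neg_two_mem_support : (-2 : ℝ) ∈ muSC.support := by
  simpa using cos_mem_support (Set.right_mem_Icc.2 pi_pos.le)

lemma muSC_sSup : sSup muSC.support = 2 :=
  IsGreatest.csSup_eq ⟨two_mem_support, fun _ h => (muSC_support_subset h).2⟩

lemma muSC_sInf : sInf muSC.support = -2 :=
  IsLeast.csInf_eq ⟨neg_two_mem_support, fun _ h => (muSC_support_subset h).1⟩

lemma muSC_isCompact : IsCompact muSC.support :=
  isCompact_Icc.of_isClosed_subset Measure.isClosed_support muSC_support_subset

/-- A primitive of a multiple of `θ ↦ (z - 2 cos θ)⁻¹` at `z = y + y⁻¹`. -/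
def scPrim (y : ℂ) (θ : ℝ) : ℂ :=
  θ + Complex.I * Complex.log (1 - y * Complex.exp (θ * Complex.I))
    - Complex.I * Complex.log (1 - y * Complex.exp (-θ * Complex.I))

lemma slit {y : ℂ} (hy : ‖y‖ < 1) {w : ℂ} (hw : ‖w‖ = 1) : 1 - y * w ∈ Complex.slitPlane := by
  refine .inl ?_
  have h1 : (y * w).re ≤ ‖y * w‖ := Complex.re_le_norm _
  rw [norm_mul, hw, mul_one] at h1
  simp only [Complex.sub_re, Complex.one_re]
  linarith

lemma shift_ne {y : ℂ} (hy : y.im < 0) (hy1 : ‖y‖ < 1) (x : ℝ) : y + y⁻¹ - x ≠ 0 := by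
  intro h
  have him := congrArg Complex.im h
  simp only [Complex.sub_im, Complex.add_im, Complex.ofReal_im, Complex.zero_im, sub_zero,
    Complex.inv_im] at him
  have h0 : 0 < Complex.normSq y := Complex.normSq_pos.2 fun h => by simp [h] at hy
  have h1 : Complex.normSq y < 1 := by rw [Complex.normSq_eq_norm_sq]; nlinarith [norm_nonneg y]
  field_simp at him
  nlinarith [mul_pos (neg_pos.2 hy) (sub_pos.2 h1)]

lemma hasDerivAt_scPrim {y : ℂ} (hy : y.im < 0) (hy1 : ‖y‖ < 1) (θ : ℝ) :
    HasDerivAt (scPrim y) ((y⁻¹ - y) / (y + y⁻¹ - (2 * cos θ : ℝ))) θ := by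
  set e := Complex.exp (θ * Complex.I) with he
  set e' := Complex.exp (-θ * Complex.I) with he'
  have hee : e * e' = 1 := by rw [he, he', ← Complex.exp_add]; ring_nf; exact Complex.exp_zero
  have hn : ‖e‖ = 1 := Complex.norm_exp_ofReal_mul_I θ
  have hn' : ‖e'‖ = 1 := by
    rw [he', show -(θ : ℂ) = ((-θ : ℝ) : ℂ) by push_cast; ring]
    exact Complex.norm_exp_ofReal_mul_I _
  have hd : HasDerivAt (fun θ : ℝ => (θ : ℂ)) 1 θ := (hasDerivAt_id θ).ofReal_comp
  have h1 := ((((hd.mul_const Complex.I).cexp).const_mul y).const_sub 1).clog_real (slit hy1 hn)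
  have h2 := ((((hd.neg.mul_const Complex.I).cexp).const_mul y).const_sub 1).clog_real (slit hy1 hn')
  refine ((hd.add (h1.const_mul Complex.I)).sub (h2.const_mul Complex.I)).congr_deriv ?_
  simp only [Pi.neg_apply, ← he, ← he']
  have hc : ((2 * cos θ : ℝ) : ℂ) = e + e' := by
    rw [he, he', Complex.ofReal_mul, Complex.ofReal_cos, Complex.cos]
    push_cast; ring
  have hy0 : y ≠ 0 := fun h => by simp [h] at hy
  have ha : 1 - y * e ≠ 0 := Complex.slitPlane_ne_zero (slit hy1 hn)
  have hb : 1 - y * e' ≠ 0 := Complex.slitPlane_ne_zero (slit hy1 hn')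
  have hden : y + y⁻¹ - (e + e') = (1 - y * e) * (1 - y * e') / y := by
    field_simp
    linear_combination y ^ 2 * (-hee)
  rw [hc, hden]
  have hI := Complex.I_sq
  field_simp
  linear_combination (y * e * (1 - y * e') + y * e' * (1 - y * e)) * (-hI) +
    (-y ^ 2) * hee

/-- The Stieltjes transform of the semicircle law. -/
lemma muSC_stieltjes (y : ℂ) (hy1 : ‖y‖ < 1) (hy : y.im < 0) :
    ∫ x : ℝ, ((y + y⁻¹) - (x : ℂ))⁻¹ ∂muSC = y := by
  set z := y + y⁻¹
  have hy0 : y ≠ 0 := fun h => by simp [h] at hy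
  rw [muSC, integral_map measurable_scMap.aemeasurable
    (Measurable.aestronglyMeasurable (by fun_prop)), scWeight,
    integral_withDensity_eq_integral_toReal_smul (by fun_prop)
      (.of_forall fun θ => ENNReal.ofReal_lt_top), ← intervalIntegral.integral_of_le pi_pos.le]
  have hne : ∀ θ : ℝ, z - (2 * cos θ : ℝ) ≠ 0 := fun θ => shift_ne hy hy1 _
  have hsplit : ∀ θ : ℝ, (ENNReal.ofReal (2 / π * sin θ ^ 2)).toReal •
      (z - ((2 * cos θ : ℝ) : ℂ))⁻¹ =
      ((1 / (2 * π) : ℝ) : ℂ) * (((2 * cos θ : ℝ) : ℂ) + z) +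
        ((1 / (2 * π) : ℝ) : ℂ) * (4 - z ^ 2) / (y⁻¹ - y) *
          ((y⁻¹ - y) / (z - ((2 * cos θ : ℝ) : ℂ))) := by
    intro θ
    have hyy : y⁻¹ - y ≠ 0 := by
      intro h
      have : y * y = 1 := by
        field_simp at h
        linear_combination -h
      have := congrArg norm this
      rw [norm_mul, norm_one] at this
      nlinarith [norm_nonneg y]
    rw [ENNReal.toReal_ofReal (by positivity), Complex.real_smul,
      show sin θ ^ 2 = 1 - cos θ ^ 2 from sin_sq θ]
    have := hne θ
    have hpi : (π : ℂ) ≠ 0 := by exact_mod_cast pi_ne_zero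
    rw [div_mul_div_cancel₀ hyy]
    push_cast at this ⊢
    field_simp
    ring
  rw [intervalIntegral.integral_congr fun θ _ => hsplit θ]
  have hci : IntervalIntegrable
      (fun θ : ℝ => ((1 / (2 * π) : ℝ) : ℂ) * (((2 * cos θ : ℝ) : ℂ) + z)) volume 0 π :=
    (by fun_prop : Continuous _).intervalIntegrable _ _
  have hcj : Continuous fun θ : ℝ => (y⁻¹ - y) / (z - ((2 * cos θ : ℝ) : ℂ)) :=
    continuous_const.div (by fun_prop) hne
  rw [intervalIntegral.integral_add hci ((hcj.const_mul _).intervalIntegrable _ _),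
    intervalIntegral.integral_const_mul, intervalIntegral.integral_const_mul,
    intervalIntegral.integral_eq_sub_of_hasDerivAt (fun θ _ => hasDerivAt_scPrim hy hy1 θ)
      (hcj.intervalIntegrable _ _),
    intervalIntegral.integral_add ((by fun_prop : Continuous _).intervalIntegrable _ _)
      intervalIntegrable_const, intervalIntegral.integral_ofReal,
    intervalIntegral.integral_const_mul, integral_cos, intervalIntegral.integral_const]
  have hP : scPrim y π - scPrim y 0 = π := by
    simp [scPrim, Complex.exp_neg, Complex.exp_pi_mul_I]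
  rw [hP]
  have hyy : y⁻¹ - y ≠ 0 := by
    intro h
    have : y * y = 1 := by
      field_simp at h
      linear_combination -h
    have := congrArg norm this
    rw [norm_mul, norm_one] at this
    nlinarith [norm_nonneg y]
  have e4 : (4 - z ^ 2) / (y⁻¹ - y) = -(y⁻¹ - y) := by
    rw [div_eq_iff hyy]
    simp only [z]
    linear_combination (-4 : ℂ) * mul_inv_cancel₀ hy0
  have hpi : (π : ℂ) ≠ 0 := by exact_mod_cast pi_ne_zero
  rw [mul_div_assoc, e4]
  simp [z, Complex.real_smul]
  field_simp
  ring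

/-- The semicircle law has the listed properties. -/
theorem muSC_isSC : IsSC muSC :=
  ⟨inferInstance, muSC_support_subset, muSC_sSup, muSC_stieltjes⟩

end

end Vale.Agent.P146.Gap
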