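import Vale.Agent.P146.Gap.Goe
import Vale.Agent.P146.Gap.Empirical
import Vale.Agent.P146.Gap.MaxEig

/-!
The mean pressure of the perturbed coupling converges to the variational value of the perturbed
semicircle law: Gaussian orthogonal completion, orthogonal averaging, eigenvalue localisation.
-/

namespace Vale.Agent.P146.Gap

open MeasureTheory ProbabilityTheory Matrix Filter Topology Finset
open Vale.Agent.P157 (gauss)
open Vale.Agent.P166 (ON haarON meanP)

noncomputable section

variable {n : ℕ} {z : ℂ} {W : Matrix (Fin n) (Fin n) ℝ} {β t : ℝ}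

/-! ### Gaussian integrals -/

lemma measurePreserving_offDis (n : ℕ) :
    MeasurePreserving (offDis : (GIdx n → ℝ) → Disorder n) (gauss (GIdx n)) (disorderLaw n) :=
  (measurePreserving_disorder n).comp (measurePreserving_fst.comp
    (measurePreserving_sumPiEquivProdPi fun _ : GIdx n => gaussianReal 0 1))

lemma exp_lin_gauss {ι : Type} [Fintype ι] (c : ι → ℝ) :
    Integrable (fun x => Real.exp (∑ k, x k * c k)) (gauss ι) ∧
      ∫ x, Real.exp (∑ k, x k * c k) ∂gauss ι = Real.exp ((∑ k, c k ^ 2) / 2) := by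
  simp only [Real.exp_sum, mul_comm _ (c _)]
  refine ⟨Integrable.fintype_prod (μ := fun _ => gaussianReal 0 1) fun k =>
    integrable_exp_mul_gaussianReal (c k), ?_⟩
  unfold gauss
  rw [integral_fintype_prod_eq_prod (f := fun k x => Real.exp (c k * x)), Finset.sum_div,
    Real.exp_sum]
  refine prod_congr rfl fun k _ => ?_
  have h := congrFun (mgf_id_gaussianReal (μ := 0) (v := 1)) (c k)
  simpa [mgf] using h

/-! ### Quadratic forms -/

/-- The quadratic form of a matrix at a vector. -/
def formVec (W : Matrix (Fin n) (Fin n) ℝ) (u : Fin n → ℝ) : ℝ :=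
  ∑ a, ∑ b, u a * u b * W a b

lemma formVec_eq_dot (W : Matrix (Fin n) (Fin n) ℝ) (u : Fin n → ℝ) :
    formVec W u = u ⬝ᵥ W *ᵥ u := by
  simp only [formVec, dotProduct, mulVec, Finset.mul_sum]
  exact sum_congr rfl fun a _ => sum_congr rfl fun b _ => by ring

lemma formVec_conjBy (V : ON n) (W : Matrix (Fin n) (Fin n) ℝ) (u : Fin n → ℝ) :
    formVec (conjBy V W) u = formVec W ((V : Matrix (Fin n) (Fin n) ℝ)ᵀ *ᵥ u) := by
  rw [formVec_eq_dot, formVec_eq_dot, conjBy, ← mulVec_mulVec, ← mulVec_mulVec, dotProduct_mulVec,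
    ← mulVec_transpose]

lemma sum_sq_orth (V : ON n) (u : Fin n → ℝ) :
    ∑ i, ((V : Matrix (Fin n) (Fin n) ℝ)ᵀ *ᵥ u) i ^ 2 = ∑ i, u i ^ 2 := by
  have h : ((V : Matrix (Fin n) (Fin n) ℝ)ᵀ *ᵥ u) ⬝ᵥ ((V : Matrix (Fin n) (Fin n) ℝ)ᵀ *ᵥ u) =
      u ⬝ᵥ u := by
    conv_lhs => arg 1; rw [mulVec_transpose]
    rw [← dotProduct_mulVec, mulVec_mulVec, orth_mul_transpose, one_mulVec]
  simpa [dotProduct, sq] using h

/-- The coefficients of a quadratic form in the completed ensemble. -/
def formCoef (u : Fin n → ℝ) (k : GIdx n) : ℝ :=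
  ∑ l : Fin n × Fin n, vecMulVec u u l.1 l.2 * goeCoef l k

lemma formVec_goe (x : GIdx n → ℝ) (u : Fin n → ℝ) :
    formVec (goe x) u = ∑ k, x k * formCoef u k := by
  simp only [formCoef, Finset.mul_sum]
  rw [sum_comm, Fintype.sum_prod_type]
  refine sum_congr rfl fun a _ => sum_congr rfl fun b _ => ?_
  rw [show goe x a b = _ from goe_eq_sum x (a, b), Finset.mul_sum]
  exact sum_congr rfl fun k _ => by simp only [vecMulVec_apply]; ring

lemma sum_formCoef_sq (u : Fin n → ℝ) :
    ∑ k, formCoef u k ^ 2 = 2 / n * (∑ i, u i ^ 2) ^ 2 := by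
  simp only [formCoef]
  rw [sum_goeCoef_sq]
  simp only [trace, diag_apply, Matrix.mul_apply, transpose_apply, Matrix.add_apply,
    vecMulVec_apply]
  rw [sq (∑ i, u i ^ 2), sum_mul_sum, Finset.mul_sum, Finset.mul_sum]
  refine sum_congr rfl fun a _ => ?_
  rw [Finset.mul_sum, Finset.mul_sum]
  exact sum_congr rfl fun b _ => by ring

/-- Two-sided moments at a matrix. -/
def twoSided (β : ℝ) (W : Matrix (Fin n) (Fin n) ℝ) : ℝ :=
  (1 / (2 : ℝ) ^ n) * ∑ σ : Fin n → Bool,
    (Real.exp (β / 2 * formAt W σ) + Real.exp (-(β / 2) * formAt W σ))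

lemma twoSided_nonneg (β : ℝ) (W : Matrix (Fin n) (Fin n) ℝ) : 0 ≤ twoSided β W :=
  mul_nonneg (by positivity) (sum_nonneg fun _ _ => by positivity)

lemma twoSided_goe (β : ℝ) (V : ON n) :
    Integrable (fun x => twoSided β (conjBy V (goe x))) (gauss (GIdx n)) ∧
      ∫ x, twoSided β (conjBy V (goe x)) ∂gauss (GIdx n) =
        2 * Real.exp ((n : ℝ) * (β ^ 2 / 4)) := by
  set u : (Fin n → Bool) → Fin n → ℝ := fun σ => (V : Matrix (Fin n) (Fin n) ℝ)ᵀ *ᵥ spins σ
  have e : ∀ (b : ℝ) (x : GIdx n → ℝ) σ,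
      b * formAt (conjBy V (goe x)) σ = ∑ k, x k * (b * formCoef (u σ) k) := fun b x σ => by
    rw [show formAt (conjBy V (goe x)) σ = formVec (conjBy V (goe x)) (spins σ) from rfl,
      formVec_conjBy, formVec_goe, Finset.mul_sum]
    exact sum_congr rfl fun k _ => by ring
  have h : ∀ (b : ℝ) σ, b ^ 2 = β ^ 2 / 4 →
      Integrable (fun x => Real.exp (b * formAt (conjBy V (goe x)) σ)) (gauss (GIdx n)) ∧
        ∫ x, Real.exp (b * formAt (conjBy V (goe x)) σ) ∂gauss (GIdx n) =
          Real.exp ((n : ℝ) * (β ^ 2 / 4)) := fun b σ hb => by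
    simp only [e]
    obtain ⟨h1, h2⟩ := exp_lin_gauss fun k => b * formCoef (u σ) k
    refine ⟨h1, h2.trans ?_⟩
    simp only [mul_pow, ← Finset.mul_sum, sum_formCoef_sq, u, sum_sq_orth, hb]
    congr 1
    rw [show ∑ i, spins σ i ^ 2 = (n : ℝ) by simp [spins, spin]]
    rcases eq_or_ne (n : ℝ) 0 with h0 | h0
    · simp [h0]
    · field_simp
  have hp := fun σ => h (β / 2) σ (by ring)
  have hn := fun σ => h (-(β / 2)) σ (by ring)
  refine ⟨(integrable_finsetSum _ fun σ _ => (hp σ).1.add (hn σ).1).const_mul _, ?_⟩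
  have hpn : ∀ σ, Integrable (fun x => Real.exp (β / 2 * formAt (conjBy V (goe x)) σ) +
      Real.exp (-(β / 2) * formAt (conjBy V (goe x)) σ)) (gauss (GIdx n)) := fun σ =>
    (hp σ).1.add (hn σ).1
  unfold twoSided
  rw [integral_const_mul, integral_finsetSum _ fun σ _ => hpn σ]
  simp only [fun σ => integral_add (hp σ).1 (hn σ).1, (hp _).2, (hn _).2, sum_const, card_univ,
    Fintype.card_fun, Fintype.card_bool, Fintype.card_fin, nsmul_eq_mul]
  push_cast
  field_simp
  ring

/-- The pressure is controlled by the two-sided moments. -/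
lemma abs_matPressure_le (β : ℝ) (W : Matrix (Fin n) (Fin n) ℝ) {c : ℝ} (hc : 0 ≤ c) :
    |matPressure β W| ≤ c + Real.exp (-((n : ℝ) * c)) / n * twoSided β W := by
  rcases Nat.eq_zero_or_pos n with rfl | hn
  · simp [matPressure, hc]
  have hn' : (0 : ℝ) < n := Nat.cast_pos.2 hn
  set M := (1 / (2 : ℝ) ^ n) * ∑ σ : Fin n → Bool, Real.exp (β / 2 * formAt W σ)
  set M' := (1 / (2 : ℝ) ^ n) * ∑ σ : Fin n → Bool, Real.exp (-(β / 2) * formAt W σ)
  have hM : 0 < M := by positivity
  have hM' : 0 < M' := by positivity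
  have hinv : M⁻¹ ≤ M' := by
    have hpt : ∀ σ : Fin n → Bool, 2 * M⁻¹ - Real.exp (β / 2 * formAt W σ) * (M⁻¹ * M⁻¹) ≤
        Real.exp (-(β / 2) * formAt W σ) := fun σ => by
      rw [neg_mul, Real.exp_neg]
      set e := Real.exp (β / 2 * formAt W σ)
      have he : 0 < e := Real.exp_pos _
      have e1 : e * (M⁻¹ - e⁻¹) ^ 2 = e * (M⁻¹ * M⁻¹) - 2 * M⁻¹ + e⁻¹ := by field_simp; ring
      nlinarith [mul_nonneg he.le (sq_nonneg (M⁻¹ - e⁻¹))]
    have h := mul_le_mul_of_nonneg_left (sum_le_sum fun σ (_ : σ ∈ univ) => hpt σ)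
      (show (0 : ℝ) ≤ 1 / (2 : ℝ) ^ n by positivity)
    rw [sum_sub_distrib, mul_sub] at h
    simp only [sum_const, card_univ, Fintype.card_fun, Fintype.card_bool, Fintype.card_fin,
      nsmul_eq_mul, Nat.cast_pow, Nat.cast_ofNat, ← sum_mul, ← mul_assoc] at h
    rw [one_div_mul_cancel (by positivity : (2 : ℝ) ^ n ≠ 0), one_mul] at h
    change 2 * M⁻¹ - M * M⁻¹ * M⁻¹ ≤ M' at h
    rw [mul_inv_cancel₀ hM.ne'] at h
    linarith
  have hQ : twoSided β W = M + M' := by
    simp only [twoSided, M, M', sum_add_distrib, mul_add]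
  have hP : matPressure β W = 1 / (n : ℝ) * Real.log M := rfl
  have hlog : |Real.log M| ≤ Real.log (M + M') := abs_le.2
    ⟨by
      have := Real.log_le_log (inv_pos.2 hM) (hinv.trans (le_add_of_nonneg_left hM.le))
      rw [Real.log_inv] at this
      linarith, Real.log_le_log hM (le_add_of_nonneg_right hM'.le)⟩
  have hexp : Real.log (M + M') - n * c ≤ Real.exp (-((n : ℝ) * c)) * (M + M') := by
    have h := Real.add_one_le_exp (Real.log (M + M') - n * c)
    rw [sub_eq_add_neg, Real.exp_add, Real.exp_log (by positivity)] at h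
    linarith
  rw [hP, hQ, abs_mul, abs_of_pos (by positivity), one_div_mul_eq_div, div_mul_eq_mul_div,
    div_le_iff₀ hn', add_mul, div_mul_cancel₀ _ hn'.ne']
  linarith

/-! ### Bounds on resolvents -/

lemma formAt_imRes_le (hW : W.IsSymm) (hz : 0 < z.im) (σ : Fin n → Bool) :
    |formAt (imRes z W) σ| ≤ n / z.im := by
  have h := bilin_bound hW hz.ne' (fun a => (spins σ a : ℂ)) fun a => (spins σ a : ℂ)
  have hs : ∑ a, ‖((spins σ a : ℝ) : ℂ)‖ ^ 2 = (n : ℝ) := by simp [spins, spin]
  rw [hs, abs_of_pos hz] at h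
  have e : formAt (imRes z W) σ =
      (∑ a, (spins σ a : ℂ) * (res z W *ᵥ fun a => (spins σ a : ℂ)) a).im := by
    simp only [mulVec, dotProduct, Finset.mul_sum, Complex.im_sum, formAt, imRes, Matrix.map_apply]
    exact sum_congr rfl fun a _ => sum_congr rfl fun b _ => by simp [Complex.mul_im]; ring
  rw [e]
  refine ((Complex.abs_im_le_norm _).trans h).trans (le_of_eq ?_)
  ring

lemma formAt_tilt (z : ℂ) (t : ℝ) (W : Matrix (Fin n) (Fin n) ℝ) (σ : Fin n → Bool) :
    formAt (tilt z t W) σ = formAt W σ + t * formAt (imRes z W) σ := by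
  simp only [formAt, tilt, Matrix.add_apply, Matrix.smul_apply, smul_eq_mul, mul_add,
    sum_add_distrib, Finset.mul_sum]
  congr 1
  exact sum_congr rfl fun a _ => sum_congr rfl fun b _ => by ring

lemma abs_tiltPressure_le (hβ : 0 ≤ β) (hW : W.IsSymm) (hz : 0 < z.im) (ht : 0 ≤ t) :
    |matPressure β (tilt z t W)| ≤
      β / 2 * (t / z.im) + β ^ 2 / 4 + Real.exp (-((n : ℝ) * (β ^ 2 / 4))) / n * twoSided β W := by
  have h := abs_matPressure_le β W (show (0 : ℝ) ≤ β ^ 2 / 4 by positivity)
  have h2 := abs_matPressure_sub (W := tilt z t W) (W' := W) hβ (C := t * (n / z.im)) fun σ => by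
    rw [formAt_tilt, add_sub_cancel_left, abs_mul, abs_of_nonneg ht]
    exact mul_le_mul_of_nonneg_left (formAt_imRes_le hW hz σ) ht
  have h3 : β / 2 * (t * (n / z.im)) / n ≤ β / 2 * (t / z.im) := by
    rcases Nat.eq_zero_or_pos n with rfl | hn
    · simp; positivity
    · exact le_of_eq (by field_simp)
  linarith [abs_sub_abs_le_abs_sub (matPressure β (tilt z t W)) (matPressure β W)]

/-- Perturbing the diagonal changes quadratic forms of the resolvent little. -/
lemma res_quad_pert (hW : W.IsSymm) (hz : z.im ≠ 0) (d : Fin n → ℝ) {M : ℝ} (hM : ∀ i, |d i| ≤ M)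
    (x : Fin n → ℂ) :
    ‖x ⬝ᵥ ((res z (W + diagonal d) - res z W) *ᵥ x)‖ ≤ M * (∑ i, ‖x i‖ ^ 2) / z.im ^ 2 := by
  have hW' : (W + diagonal d).IsSymm := hW.add (by simp [Matrix.IsSymm])
  have hs : shiftMat z W - shiftMat z (W + diagonal d) = diagonal fun i => (d i : ℂ) := by
    ext i j
    by_cases h : i = j
    · subst h; simp [shiftMat]
    · simp [shiftMat, h]
  rw [res_sub_res hW' hW hz hz, hs, ← mulVec_mulVec, ← mulVec_mulVec, dotProduct_mulVec,
    ← mulVec_transpose, (res_isSymm hW').eq]
  set u := res z (W + diagonal d) *ᵥ x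
  set v := res z W *ᵥ x
  have hu := res_mulVec_bound hW' hz x
  have hv := res_mulVec_bound hW hz x
  have hz2 : 0 < z.im ^ 2 := by positivity
  rcases Nat.eq_zero_or_pos n with rfl | hn
  · simp [dotProduct]
  have hM0 : 0 ≤ M := (abs_nonneg _).trans (hM ⟨0, hn⟩)
  have hpt : ∀ i, ‖u i * ((diagonal fun i => (d i : ℂ)) *ᵥ v) i‖ ≤
      M / 2 * (‖u i‖ ^ 2 + ‖v i‖ ^ 2) := fun i => by
    rw [mulVec_diagonal, norm_mul, norm_mul, Complex.norm_real, Real.norm_eq_abs]
    calc ‖u i‖ * (|d i| * ‖v i‖) ≤ ‖u i‖ * (M * ‖v i‖) := by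
          gcongr
          exact hM i
      _ ≤ _ := by nlinarith [mul_nonneg hM0 (sq_nonneg (‖u i‖ - ‖v i‖))]
  refine (norm_sum_le _ _).trans ((sum_le_sum fun i _ => hpt i).trans ?_)
  rw [← Finset.mul_sum, sum_add_distrib, le_div_iff₀ hz2]
  change z.im ^ 2 * ∑ i, ‖u i‖ ^ 2 ≤ _ at hu
  change z.im ^ 2 * ∑ i, ‖v i‖ ^ 2 ≤ _ at hv
  nlinarith [mul_le_mul_of_nonneg_left hu hM0, mul_le_mul_of_nonneg_left hv hM0]

lemma formAt_tilt_pert (hW : W.IsSymm) (hz : z.im ≠ 0) (ht : 0 ≤ t) (d : Fin n → ℝ)
    (σ : Fin n → Bool) :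
    |formAt (tilt z t (W + diagonal d)) σ - formAt (tilt z t W) σ| ≤
      (1 + t / z.im ^ 2) * n * ‖d‖ := by
  rw [formAt_tilt, formAt_tilt]
  have hd : ∀ i, |d i| ≤ ‖d‖ := fun i => norm_le_pi_norm d i
  have h1 : |formAt (W + diagonal d) σ - formAt W σ| ≤ n * ‖d‖ := by
    have e : formAt (W + diagonal d) σ - formAt W σ = ∑ a, spins σ a * spins σ a * d a := by
      simp [formAt, mul_add, sum_add_distrib, Matrix.diagonal_apply]
    rw [e]
    refine (abs_sum_le_sum_abs _ _).trans ((sum_le_sum fun a _ => ?_).trans_eq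
      (show ∑ _a : Fin n, ‖d‖ = n * ‖d‖ by simp))
    rw [show spins σ a * spins σ a = 1 by cases h : σ a <;> simp [spins, spin, h], one_mul]
    exact hd a
  set x : Fin n → ℂ := fun a => (spins σ a : ℂ)
  have h2 := res_quad_pert hW hz d hd x
  have e2 : formAt (imRes z (W + diagonal d)) σ - formAt (imRes z W) σ =
      (x ⬝ᵥ ((res z (W + diagonal d) - res z W) *ᵥ x)).im := by
    simp only [x, dotProduct, mulVec, Finset.mul_sum, Complex.im_sum, formAt, imRes,
      Matrix.map_apply, Matrix.sub_apply, ← sum_sub_distrib]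
    exact sum_congr rfl fun a _ => sum_congr rfl fun b _ => by simp [Complex.mul_im]; ring
  rw [show ∑ a, ‖x a‖ ^ 2 = (n : ℝ) by simp [x, spins, spin]] at h2
  have h3 : |formAt (imRes z (W + diagonal d)) σ - formAt (imRes z W) σ| ≤ ‖d‖ * n / z.im ^ 2 := by
    rw [e2]; exact (Complex.abs_im_le_norm _).trans h2
  calc |formAt (W + diagonal d) σ + t * formAt (imRes z (W + diagonal d)) σ -
        (formAt W σ + t * formAt (imRes z W) σ)|
      = |(formAt (W + diagonal d) σ - formAt W σ) +
          t * (formAt (imRes z (W + diagonal d)) σ - formAt (imRes z W) σ)| := by ring_nf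
    _ ≤ |formAt (W + diagonal d) σ - formAt W σ| +
          t * |formAt (imRes z (W + diagonal d)) σ - formAt (imRes z W) σ| := by
        refine (abs_add_le _ _).trans ?_
        rw [abs_mul, abs_of_nonneg ht]
    _ ≤ n * ‖d‖ + t * (‖d‖ * n / z.im ^ 2) := add_le_add h1 (mul_le_mul_of_nonneg_left h3 ht)
    _ = _ := by ring

lemma trace_res_pert (hW : W.IsSymm) (hz : z.im ≠ 0) (d : Fin n → ℝ) :
    ‖trace (res z (W + diagonal d)) - trace (res z W)‖ ≤ n * (‖d‖ / z.im ^ 2) := by
  rw [← trace_sub, trace]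
  refine (norm_sum_le _ _).trans ((sum_le_sum fun a _ => ?_).trans_eq
    (show ∑ _a : Fin n, ‖d‖ / z.im ^ 2 = n * (‖d‖ / z.im ^ 2) by simp))
  have h := res_quad_pert hW hz d (fun i => norm_le_pi_norm d i) (Pi.single a 1)
  rw [show ∑ i, ‖(Pi.single a (1 : ℂ) : Fin n → ℂ) i‖ ^ 2 = 1 by
    simp [Pi.single_apply, apply_ite (fun c : ℂ => ‖c‖ ^ 2)], mul_one] at h
  simpa using h

/-! ### Regularity -/

lemma continuous_res_of {T : Type*} [TopologicalSpace T] {e : T → Matrix (Fin n) (Fin n) ℝ}
    (hs : ∀ τ, (e τ).IsSymm) (hc : ∀ a b, Continuous fun τ => e τ a b) (hz : z.im ≠ 0)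
    (a b : Fin n) : Continuous fun τ => res z (e τ) a b := by
  rw [continuous_iff_continuousAt]
  intro τ₀
  rw [ContinuousAt, tendsto_iff_norm_sub_tendsto_zero]
  refine squeeze_zero (fun _ => norm_nonneg _)
    (fun τ => res_entry_lipschitz (hs τ) (hs τ₀) hz a b) ?_
  have h : Continuous fun τ => |z.im|⁻¹ * |z.im|⁻¹ * ∑ c, ∑ d, |e τ c d - e τ₀ c d| := by fun_prop
  simpa using h.tendsto τ₀

lemma continuous_tiltPressure {T : Type*} [TopologicalSpace T]
    {e : T → Matrix (Fin n) (Fin n) ℝ} (hs : ∀ τ, (e τ).IsSymm)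
    (hc : ∀ a b, Continuous fun τ => e τ a b) (hz : z.im ≠ 0) (β t : ℝ) :
    Continuous fun τ => matPressure β (tilt z t (e τ)) := by
  have h : ∀ a b, Continuous fun τ => tilt z t (e τ) a b := fun a b => by
    simp only [tilt, imRes, Matrix.add_apply, Matrix.smul_apply, Matrix.map_apply, smul_eq_mul]
    exact (hc a b).add (continuous_const.mul
      (Complex.continuous_im.comp (continuous_res_of hs hc hz a b)))
  unfold matPressure formAt
  refine continuous_const.mul (Continuous.log ?_ fun τ => ne_of_gt (by positivity))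
  fun_prop

lemma continuous_conj_goe (a b : Fin n) :
    Continuous fun p : ON n × (GIdx n → ℝ) => conjBy p.1 (goe p.2) a b := by
  have hV : ∀ c d : Fin n, Continuous fun p : ON n × (GIdx n → ℝ) =>
      (p.1 : Matrix (Fin n) (Fin n) ℝ) c d := fun c d =>
    (continuous_subtype_val.comp continuous_fst).matrix_elem c d
  simp only [conjBy, Matrix.mul_apply, transpose_apply]
  exact continuous_finsetSum _ fun c _ => (continuous_finsetSum _ fun d _ =>
    (hV a d).mul ((continuous_goe d c).comp continuous_snd)).mul (hV b c)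

/-- The pressure of the perturbed conjugated completed matrix. -/
def conjPressure (β : ℝ) (z : ℂ) (t : ℝ) (p : ON n × (GIdx n → ℝ)) : ℝ :=
  matPressure β (tilt z t (conjBy p.1 (goe p.2)))

lemma continuous_conjPressure (hz : z.im ≠ 0) (β t : ℝ) :
    Continuous (conjPressure (n := n) β z t) :=
  continuous_tiltPressure (fun p : ON n × (GIdx n → ℝ) => conjBy_isSymm p.1 (goe_isSymm p.2))
    continuous_conj_goe hz β t

lemma integrable_twoSided (β : ℝ) :
    Integrable (fun p : ON n × (GIdx n → ℝ) => twoSided β (conjBy p.1 (goe p.2)))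
      ((haarON n).prod (gauss (GIdx n))) := by
  have hc : Continuous fun p : ON n × (GIdx n → ℝ) => twoSided β (conjBy p.1 (goe p.2)) := by
    have := @continuous_conj_goe n
    unfold twoSided formAt
    fun_prop (disch := assumption)
  refine (integrable_prod_iff hc.aestronglyMeasurable).2
    ⟨.of_forall fun V => (twoSided_goe β V).1, ?_⟩
  simp only [Real.norm_eq_abs, abs_of_nonneg (twoSided_nonneg β _), (twoSided_goe β _).2]
  exact integrable_const _

lemma integrable_conjPressure (hβ : 0 ≤ β) (hz : 0 < z.im) (ht : 0 ≤ t) :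
    Integrable (conjPressure (n := n) β z t) ((haarON n).prod (gauss (GIdx n))) :=
  Integrable.mono' ((integrable_const _).add ((integrable_twoSided β).const_mul _))
    (continuous_conjPressure hz.ne' β t).aestronglyMeasurable
    (.of_forall fun p =>
      abs_tiltPressure_le hβ (conjBy_isSymm p.1 (goe_isSymm p.2)) hz ht)

/-- The symmetric part. -/
def symPart (W : Matrix (Fin n) (Fin n) ℝ) : Matrix (Fin n) (Fin n) ℝ := (1 / 2 : ℝ) • (W + Wᵀ)

lemma symPart_of_isSymm (hW : W.IsSymm) : symPart W = W := by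
  rw [symPart, hW.eq, ← two_smul ℝ W, smul_smul]
  norm_num

lemma symPart_isSymm (W : Matrix (Fin n) (Fin n) ℝ) : (symPart W).IsSymm := by
  rw [Matrix.IsSymm, symPart, transpose_smul, transpose_add, transpose_transpose, add_comm]

lemma integral_conjPressure_eq (hz : z.im ≠ 0) (β t : ℝ) (V : ON n) :
    ∫ x, conjPressure β z t (V, x) ∂gauss (GIdx n) =
      ∫ x, matPressure β (tilt z t (goe x)) ∂gauss (GIdx n) := by
  have hF : Measurable fun e : Fin n × Fin n → ℝ =>
      matPressure β (tilt z t (symPart (Matrix.of fun a b => e (a, b)))) :=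
    (continuous_tiltPressure
      (fun e => symPart_isSymm _)
      (fun a b => by simp only [symPart, Matrix.smul_apply, Matrix.add_apply, transpose_apply,
        Matrix.of_apply]; fun_prop) hz β t).measurable
  have h := integral_goe_conj (F := fun W => matPressure β (tilt z t (symPart W))) V hF
  simpa only [conjPressure, symPart_of_isSymm (conjBy_isSymm V (goe_isSymm _)),
    symPart_of_isSymm (goe_isSymm _)] using h

lemma integrable_goePressure (hβ : 0 ≤ β) (hz : 0 < z.im) (ht : 0 ≤ t) :
    Integrable (fun x => matPressure β (tilt z t (goe x))) (gauss (GIdx n)) := by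
  have h1 : ∀ x : GIdx n → ℝ, conjBy (1 : ON n) (goe x) = goe x := fun x => by simp [conjBy]
  refine Integrable.mono' (g := fun x : GIdx n → ℝ => (β / 2 * (t / z.im) + β ^ 2 / 4) +
      Real.exp (-((n : ℝ) * (β ^ 2 / 4))) / n * twoSided β (conjBy (1 : ON n) (goe x)))
    ((integrable_const _).add (((twoSided_goe β (1 : ON n)).1).const_mul _))
    (continuous_tiltPressure goe_isSymm continuous_goe hz.ne' β t).aestronglyMeasurable
    (.of_forall fun x => ?_)
  simp only [h1]
  exact abs_tiltPressure_le hβ (goe_isSymm x) hz ht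

/-! ### The diagonal -/

/-- The mean of the largest absolute diagonal entry. -/
def diagMean (n : ℕ) : ℝ := ∫ x, ‖diagVec (n := n) x‖ ∂gauss (GIdx n)

lemma continuous_diagVec : Continuous (diagVec (n := n)) := by
  unfold diagVec; fun_prop

lemma diag_fourth (i : GIdx n) :
    Integrable (fun x : GIdx n → ℝ => x i ^ 4) (gauss (GIdx n)) ∧
      ∫ x, x i ^ 4 ∂gauss (GIdx n) = ∫ r, r ^ 4 ∂gaussianReal 0 1 := by
  have hmp : MeasurePreserving (fun x : GIdx n → ℝ => x i) (gauss (GIdx n)) (gaussianReal 0 1) :=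
    measurePreserving_eval (fun _ : GIdx n => gaussianReal 0 1) i
  refine ⟨?_, ?_⟩
  · simpa [← pow_mul] using (Vale.Agent.P157.Parisi.tame_coord i).sq.sq.integrable
  · rw [← hmp.map_eq, integral_map hmp.measurable.aemeasurable
      (Continuous.aestronglyMeasurable (by fun_prop))]

lemma integrable_diag : Integrable (fun x => ‖diagVec (n := n) x‖) (gauss (GIdx n)) ∧
    ∀ δ : ℝ, 0 < δ →
      diagMean n ≤ δ + 4 * (∫ r, r ^ 4 ∂gaussianReal 0 1) / (δ ^ 3 * n) := by
  have hpt : ∀ δ : ℝ, 0 < δ → ∀ x : GIdx n → ℝ,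
      ‖diagVec x‖ ≤ δ + ∑ i : Fin n, 4 / (δ ^ 3 * (n : ℝ) ^ 2) * x (Sum.inr i) ^ 4 := by
    intro δ hδ x
    refine (pi_norm_le_iff_of_nonneg (add_nonneg hδ.le (sum_nonneg fun i _ => by positivity))).2
      fun i => ?_
    refine le_trans ?_ (add_le_add le_rfl (single_le_sum
      (f := fun j => 4 / (δ ^ 3 * (n : ℝ) ^ 2) * x (Sum.inr j) ^ 4) (fun j _ => by positivity)
      (mem_univ i)))
    set a := ‖diagVec x i‖ with ha
    have h4 : a ^ 4 = 4 / (n : ℝ) ^ 2 * x (Sum.inr i) ^ 4 := by
      rw [ha, Real.norm_eq_abs, (Even.pow_abs ⟨2, rfl⟩ _), diagVec, mul_pow,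
        show Real.sqrt (2 / n) ^ 4 = (Real.sqrt (2 / n) ^ 2) ^ 2 by ring,
        Real.sq_sqrt (by positivity)]
      ring
    rw [show 4 / (δ ^ 3 * (n : ℝ) ^ 2) * x (Sum.inr i) ^ 4 = a ^ 4 / δ ^ 3 by rw [h4]; ring]
    rcases le_or_gt a δ with hle | hlt
    · have : 0 ≤ a ^ 4 / δ ^ 3 := div_nonneg (pow_nonneg (norm_nonneg _) 4) (by positivity)
      linarith
    · have : a ≤ a ^ 4 / δ ^ 3 := by
        rw [le_div_iff₀ (by positivity)]
        nlinarith [pow_le_pow_left₀ hδ.le hlt.le 3, norm_nonneg (diagVec x i)]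
      linarith
  have hi : ∀ δ : ℝ, Integrable (fun x : GIdx n → ℝ =>
      δ + ∑ i : Fin n, 4 / (δ ^ 3 * (n : ℝ) ^ 2) * x (Sum.inr i) ^ 4) (gauss (GIdx n)) := fun δ =>
    (integrable_const δ).add (integrable_finsetSum _ fun i _ => (diag_fourth _).1.const_mul _)
  have hint : Integrable (fun x => ‖diagVec (n := n) x‖) (gauss (GIdx n)) :=
    (hi 1).mono' continuous_diagVec.norm.aestronglyMeasurable
      (.of_forall fun x => by rw [norm_norm]; exact hpt 1 one_pos x)
  refine ⟨hint, fun δ hδ => (integral_mono hint (hi δ) (hpt δ hδ)).trans (le_of_eq ?_)⟩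
  rw [integral_add (integrable_const _)
      (integrable_finsetSum _ fun i _ => (diag_fourth _).1.const_mul _),
    integral_finsetSum _ fun i _ => (diag_fourth _).1.const_mul _]
  simp only [integral_const_mul, (diag_fourth _).2, integral_const, probReal_univ, one_smul,
    sum_const, card_univ, Fintype.card_fin, nsmul_eq_mul]
  rcases Nat.eq_zero_or_pos n with rfl | hn
  · simp
  · field_simp

lemma tendsto_diagMean : Tendsto diagMean atTop (𝓝 0) := by
  rw [Metric.tendsto_nhds]
  intro ε hε
  filter_upwards [((tendsto_const_div_atTop_nhds_zero_nat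
    (4 * (∫ r, r ^ 4 ∂gaussianReal 0 1) / (ε / 2) ^ 3))).eventually
      (eventually_lt_nhds (half_pos hε))] with n hn
  have h := (integrable_diag (n := n)).2 (ε / 2) (half_pos hε)
  rw [div_div] at hn
  have h0 : 0 ≤ diagMean n := integral_nonneg fun x => norm_nonneg _
  rw [Real.dist_eq, sub_zero, abs_of_nonneg h0]
  linarith

/-- Replacing the coupling by its completion costs little. -/
lemma tendsto_replace (hβ : 0 ≤ β) (hz : 0 < z.im) (ht : 0 ≤ t) :
    Tendsto (fun n => (∫ g, tiltPressure n β z t g ∂disorderLaw n) -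
      ∫ x, matPressure β (tilt z t (goe x)) ∂gauss (GIdx n)) atTop (𝓝 0) := by
  set K := β / 2 * (1 + t / z.im ^ 2) with hK
  refine squeeze_zero_norm' ?_ (by simpa using tendsto_diagMean.const_mul K)
  filter_upwards [eventually_gt_atTop 0] with n hn
  have hcpl : Continuous fun x : GIdx n → ℝ =>
      matPressure β (tilt z t (coupling (offDis x))) :=
    continuous_tiltPressure (fun x => coupling_isSymm _) (fun a b => by
      simp only [coupling, Matrix.of_apply]
      exact continuous_const.mul ((continuous_sym a b).comp (by unfold offDis; fun_prop))) hz.ne' β t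
  have hbd : ∀ x : GIdx n → ℝ, |matPressure β (tilt z t (coupling (offDis x))) -
      matPressure β (tilt z t (goe x))| ≤ K * ‖diagVec x‖ := fun x => by
    rw [abs_sub_comm]
    refine (abs_matPressure_sub hβ fun σ =>
      formAt_tilt_pert (coupling_isSymm _) hz.ne' ht (diagVec x) σ).trans (le_of_eq ?_)
    have : (n : ℝ) ≠ 0 := by positivity
    rw [hK]; field_simp
  have hgi := integrable_goePressure (n := n) hβ hz ht
  have hdi : Integrable (fun x => matPressure β (tilt z t (coupling (offDis x))) -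
      matPressure β (tilt z t (goe x))) (gauss (GIdx n)) :=
    ((integrable_diag (n := n)).1.const_mul K).mono'
      (hcpl.sub (continuous_tiltPressure goe_isSymm continuous_goe hz.ne' β t)).aestronglyMeasurable
      (.of_forall hbd)
  have e : ∫ g, tiltPressure n β z t g ∂disorderLaw n =
      ∫ x, matPressure β (tilt z t (coupling (offDis x))) ∂gauss (GIdx n) := by
    simp only [tiltPressure_mat]
    rw [← (measurePreserving_offDis n).map_eq, integral_map
      (measurePreserving_offDis n).measurable.aemeasurable]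
    exact (continuous_tiltPressure coupling_isSymm (fun a b => by
      simp only [coupling, Matrix.of_apply]
      exact continuous_const.mul (continuous_sym a b)) hz.ne' β t).aestronglyMeasurable
  have hci : Integrable (fun x => matPressure β (tilt z t (coupling (offDis x))))
      (gauss (GIdx n)) :=
    (hdi.add hgi).congr (.of_forall fun x => by simp)
  rw [e, ← integral_sub hci hgi, Real.norm_eq_abs, diagMean, ← integral_const_mul]
  exact (abs_integral_le_integral_abs).trans
    (integral_mono hdi.abs ((integrable_diag (n := n)).1.const_mul K) hbd)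

/-! ### Localisation of the eigenvalues -/

/-- The exceptional set at level `m`. -/
def badSet (m n : ℕ) : Set (GIdx n → ℝ) :=
  (offDis ⁻¹' {g | ∃ v : Fin n → ℝ, ∑ i, v i ^ 2 = 1 ∧ 2 + 1 / (2 * ((m : ℝ) + 1)) < |quad g v|}) ∪
    {x | 1 / (2 * ((m : ℝ) + 1)) ≤ ‖diagVec x‖} ∪
    ⋃ k : Fin m, offDis ⁻¹' {g | 1 / (2 * ((m : ℝ) + 1)) ≤ ‖trStat (testZ k) g - testY k‖}

lemma measurableSet_exceed (s : ℝ) :
    MeasurableSet {g : Disorder n | ∃ v : Fin n → ℝ, ∑ i, v i ^ 2 = 1 ∧ s < |quad g v|} := by
  have : {g : Disorder n | ∃ v : Fin n → ℝ, ∑ i, v i ^ 2 = 1 ∧ s < |quad g v|} =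
      ⋃ v : {v : Fin n → ℝ // ∑ i, v i ^ 2 = 1}, {g | s < |quad g v.1|} := by
    ext g; simp
  rw [this]
  exact (isOpen_iUnion fun v =>
    isOpen_lt continuous_const (continuous_quad_left _).abs).measurableSet

lemma testZ_im_pos (k : ℕ) : 0 < (testZ k).im := lt_of_lt_of_le (by positivity) (testZ_im_ge k)

lemma measurableSet_badSet (m n : ℕ) : MeasurableSet (badSet m n) :=
  (((measurePreserving_offDis n).measurable (measurableSet_exceed _)).union
    (measurableSet_le measurable_const continuous_diagVec.norm.measurable)).union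
    (.iUnion fun k => (measurePreserving_offDis n).measurable
      (measurableSet_le measurable_const ((measurable_trStat (testZ_im_pos _).ne').sub_const _).norm))

lemma nearSC_of_notMem {m : ℕ} {x : GIdx n → ℝ} (hx : x ∉ badSet m n) {Q : ON n} {d : Fin n → ℝ}
    (hd : goe x = conjBy Q (diagonal d)) : NearSC m n d := by
  simp only [badSet, Set.mem_union, Set.mem_iUnion, Set.mem_preimage, Set.mem_ofPred_eq, not_or,
    not_exists, not_and, not_lt, not_le] at hx
  obtain ⟨⟨hq, hdiag⟩, hk⟩ := hx
  set δ := 1 / (2 * ((m : ℝ) + 1)) with hδ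
  have h2δ : δ + δ = 1 / ((m : ℝ) + 1) := by rw [hδ]; field_simp; ring
  refine ⟨fun i => ?_, fun k hkm => ?_⟩
  · set Qm := (Q : Matrix (Fin n) (Fin n) ℝ)
    set v : Fin n → ℝ := fun a => Qm a i
    have hv : Qmᵀ *ᵥ v = Pi.single i 1 := by
      funext a
      have h := congrFun (congrFun (orth_transpose_mul Q) a) i
      simpa [Matrix.mul_apply, mulVec, dotProduct, Matrix.one_apply, Pi.single_apply] using h
    have hv1 : ∑ a, v a ^ 2 = 1 := by
      rw [← sum_sq_orth Q v, hv]
      simp [Pi.single_apply]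
    have hdi : d i = formVec (goe x) v := by
      rw [hd, formVec_conjBy, hv, formVec_eq_dot]
      simp
    have he : formVec (goe x) v = quad (offDis x) v + ∑ a, v a ^ 2 * diagVec x a := by
      simp only [formVec, quad, goe, Matrix.add_apply, mul_add, sum_add_distrib]
      congr 1
      · exact sum_congr rfl fun a _ => sum_congr rfl fun b _ => by ring
      · exact sum_congr rfl fun a _ => by simp [Matrix.diagonal_apply, sq]
    have hs : |∑ a, v a ^ 2 * diagVec x a| ≤ δ := by
      refine (abs_sum_le_sum_abs _ _).trans ((sum_le_sum fun a _ => ?_).trans_eq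
        (show ∑ a, v a ^ 2 * δ = δ by rw [← sum_mul, hv1, one_mul]))
      rw [abs_mul, abs_of_nonneg (sq_nonneg _)]
      exact mul_le_mul_of_nonneg_left ((norm_le_pi_norm _ a).trans hdiag.le) (sq_nonneg _)
    rw [hdi, he]
    exact (abs_add_le _ _).trans (by linarith [hq v hv1])
  · set z := testZ k
    have hz : z.im ≠ 0 := (testZ_im_pos k).ne'
    have htr : stj d z = trace (res z (goe x)) / n := by
      rw [hd, res_conjBy Q (by simp [Matrix.IsSymm]) hz, trace_mul_cycle, ← transpose_map,
        ← Matrix.map_mul, orth_transpose_mul, Matrix.map_one _ (by simp) (by simp), one_mul,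
        res_diagonal d hz, trace_diagonal]
      rfl
    have h1 : ‖trStat z (offDis x) - testY k‖ ≤ δ := (hk ⟨k, hkm⟩).le
    have h2 : ‖stj d z - trStat z (offDis x)‖ ≤ δ := by
      rw [htr, trStat, ← sub_div, norm_div, Complex.norm_natCast]
      refine div_le_of_le_mul₀ (Nat.cast_nonneg n)
        (le_trans (norm_nonneg _) hdiag.le) ?_
      refine ((trace_res_pert (coupling_isSymm _) hz (diagVec x)).trans ?_)
      rw [mul_comm δ]
      refine mul_le_mul_of_nonneg_left ?_ (Nat.cast_nonneg n)
      refine (div_le_self (norm_nonneg _) ?_).trans hdiag.le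
      have := testZ_im_ge k
      nlinarith [(Nat.cast_nonneg k : (0 : ℝ) ≤ k)]
    exact (norm_sub_le_norm_sub_add_norm_sub _ (trStat z (offDis x)) _).trans (by linarith)

lemma tendsto_badSet (m : ℕ) :
    Tendsto (fun n => (gauss (GIdx n)).real (badSet m n)) atTop (𝓝 0) := by
  set δ := 1 / (2 * ((m : ℝ) + 1)) with hδdef
  have hδ : 0 < δ := by rw [hδdef]; positivity
  set E : ∀ n, Fin m → Set (GIdx n → ℝ) := fun n k =>
    offDis ⁻¹' {g | δ ≤ ‖trStat (testZ k) g - testY k‖}
  set B : ℕ → ℝ := fun n => 64 / δ ^ 2 / n + diagMean n / δ +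
    ∑ k : Fin m, (gauss (GIdx n)).real (E n k)
  have hE : ∀ k : Fin m, Tendsto (fun n => (gauss (GIdx n)).real (E n k)) atTop (𝓝 0) := fun k => by
    have hz := testZ_im_pos k
    set η := (testZ k).im
    obtain ⟨N, hN⟩ := trMean_near (norm_testY_lt k) (testY_im k) hz (half_pos hδ)
    refine squeeze_zero' (g := fun n : ℕ => 4 * Real.exp (-((δ / 4) ^ 2 * η ^ 2 / 64) * n))
      (.of_forall fun _ => measureReal_nonneg) ?_ ?_
    · filter_upwards [eventually_ge_atTop N] with n hn
      have hm : MeasurableSet {g : Disorder n | δ ≤ ‖trStat (testZ k) g - testY k‖} :=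
        measurableSet_le measurable_const ((measurable_trStat hz.ne').sub_const _).norm
      simp only [E]
      rw [measureReal_def, (measurePreserving_offDis n).measure_preimage hm.nullMeasurableSet,
        ← measureReal_def]
      refine (measureReal_mono (s₂ := {g | 2 * (δ / 4) ≤
        ‖trStat (testZ k) g - trMean n (testZ k)‖}) fun g hg => ?_).trans
          ((trStat_conc hz (by positivity)).trans (le_of_eq (by simp only [η]; ring_nf)))
      simp only [Set.mem_ofPred_eq] at hg ⊢
      have h3 : ‖trMean n (testZ k) - testY k‖ ≤ δ / 2 := hN n hn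
      linarith [norm_sub_le_norm_sub_add_norm_sub (trStat (testZ k) g) (trMean n (testZ k))
        (testY k)]
    · have h : Tendsto (fun n : ℕ => Real.exp (-((δ / 4) ^ 2 * η ^ 2 / 64) * n)) atTop (𝓝 0) :=
        Real.tendsto_exp_atBot.comp (Tendsto.const_mul_atTop_of_neg (by
          have : 0 < (δ / 4) ^ 2 * η ^ 2 / 64 := by positivity
          linarith) tendsto_natCast_atTop_atTop)
      simpa using h.const_mul 4
  have hB : Tendsto B atTop (𝓝 0) := by
    have h := ((tendsto_const_div_atTop_nhds_zero_nat (64 / δ ^ 2)).add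
      (tendsto_diagMean.div_const δ)).add (tendsto_finsetSum univ fun k _ => hE k)
    simpa using h
  refine squeeze_zero' (.of_forall fun _ => measureReal_nonneg) ?_ hB
  filter_upwards [eventually_gt_atTop 0] with n hn
  refine (measureReal_union_le _ _).trans (add_le_add ((measureReal_union_le _ _).trans
    (add_le_add ?_ ?_)) ((measureReal_mono (le_refl _)).trans (measureReal_iUnion_fintype_le _)))
  · rw [measureReal_def, (measurePreserving_offDis n).measure_preimage
      (measurableSet_exceed _).nullMeasurableSet]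
    refine (ENNReal.toReal_mono ENNReal.ofReal_ne_top (absEig_bound hn hδ)).trans (le_of_eq ?_)
    rw [ENNReal.toReal_ofReal (by positivity)]
    field_simp
  · rw [le_div_iff₀ hδ, mul_comm]
    exact mul_meas_ge_le_integral_of_nonneg (.of_forall fun x => norm_nonneg _)
      (integrable_diag (n := n)).1 δ

/-! ### The limit -/

lemma tendsto_goePressure (hβ : 0 ≤ β) (hz : 0 < z.im) (ht0 : 0 ≤ t) (ht : t ≤ z.im ^ 2 / 2) :
    Tendsto (fun n => ∫ x, matPressure β (tilt z t (goe x)) ∂gauss (GIdx n)) atTop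
      (𝓝 (Vale.Agent.P166.Parisi.value (muSC.map (tiltSpec z t)) β)) := by
  set L := Vale.Agent.P166.Parisi.value (muSC.map (tiltSpec z t)) β
  rw [Metric.tendsto_nhds]
  intro ε hε
  obtain ⟨m, N, hnear⟩ := meanP_near hz ht0 ht hβ (show 0 < ε / 4 by positivity)
  set K := β / 2 * (t / z.im) + β ^ 2 / 4 + |L| with hK
  have hK0 : 0 ≤ K := by positivity
  filter_upwards [eventually_ge_atTop N, eventually_gt_atTop 0,
    ((tendsto_badSet m).const_mul K).eventually (eventually_lt_nhds
      (show K * 0 < ε / 4 by rw [mul_zero]; positivity)),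
    (tendsto_const_div_atTop_nhds_zero_nat (2 : ℝ)).eventually
      (eventually_lt_nhds (show (0 : ℝ) < ε / 4 by positivity))] with n hn hn0 hP h2
  have hPi := integrable_conjPressure (n := n) hβ hz ht0
  have hQi := integrable_twoSided (n := n) β
  set av : (GIdx n → ℝ) → ℝ := fun x => ∫ V, conjPressure β z t (V, x) ∂haarON n
  set q : (GIdx n → ℝ) → ℝ := fun x => ∫ V, twoSided β (conjBy V (goe x)) ∂haarON n
  have hav : ∫ x, av x ∂gauss (GIdx n) = ∫ x, matPressure β (tilt z t (goe x)) ∂gauss (GIdx n) := by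
    rw [← integral_integral_swap (f := fun V x => conjPressure β z t (V, x)) hPi]
    simp only [integral_conjPressure_eq hz.ne', integral_const, probReal_univ, one_smul]
  have hq : ∫ x, q x ∂gauss (GIdx n) = 2 * Real.exp ((n : ℝ) * (β ^ 2 / 4)) := by
    rw [← integral_integral_swap (f := fun V x => twoSided β (conjBy V (goe x))) hQi]
    simp only [(twoSided_goe β _).2, integral_const, probReal_univ, one_smul]
  have havi : Integrable av (gauss (GIdx n)) := hPi.integral_prod_right
  have hqi : Integrable q (gauss (GIdx n)) := hQi.integral_prod_right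
  set C := Real.exp (-((n : ℝ) * (β ^ 2 / 4))) / n
  have hC : 0 ≤ C := by positivity
  have hq0 : ∀ x, 0 ≤ q x := fun x => integral_nonneg fun V => twoSided_nonneg _ _
  have hpt : ∀ x, |av x - L| ≤
      ε / 4 + K * (badSet m n).indicator (fun _ => (1 : ℝ)) x + C * q x := by
    intro x
    by_cases hx : x ∈ badSet m n
    · rw [Set.indicator_of_mem hx, mul_one]
      have hbd : |av x| ≤ β / 2 * (t / z.im) + β ^ 2 / 4 + C * q x := by
        have hqx : Continuous fun V : ON n => twoSided β (conjBy V (goe x)) := by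
          have hc : ∀ a b, Continuous fun V : ON n => conjBy V (goe x) a b := fun a b =>
            (continuous_conj_goe a b).comp (continuous_id.prodMk continuous_const)
          unfold twoSided formAt
          fun_prop (disch := assumption)
        have hiq := Vale.Agent.P166.integrable_of_cont hqx
        refine (abs_integral_le_integral_abs).trans ((integral_mono
          (Vale.Agent.P166.integrable_of_cont
            ((continuous_conjPressure hz.ne' β t).comp
              (continuous_id.prodMk continuous_const))).abs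
          ((integrable_const _).add (hiq.const_mul C)) fun V =>
            abs_tiltPressure_le hβ (conjBy_isSymm V (goe_isSymm x)) hz ht0).trans_eq ?_)
        simp only [Pi.add_apply]
        rw [integral_add (integrable_const _) (hiq.const_mul C), integral_const_mul]
        simp [q]
      rw [hK]
      linarith [abs_sub (av x) L]
    · obtain ⟨Q, d, hd⟩ := exists_spectral (goe_isSymm x)
      have e : av x = meanP β fun i => tiltSpec z t (d i) := by
        simp only [av, conjPressure, hd]
        exact integral_tilt_conjBy β hz.ne' t Q d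
      rw [e, Set.indicator_of_notMem hx, mul_zero]
      linarith [hnear n hn d (nearSC_of_notMem hx hd), mul_nonneg hC (hq0 x)]
  have hii : Integrable (fun x => K * (badSet m n).indicator (fun _ => (1 : ℝ)) x)
      (gauss (GIdx n)) :=
    ((integrable_const (1 : ℝ)).indicator (measurableSet_badSet m n)).const_mul K
  have hi1 : Integrable (fun x => ε / 4 + K * (badSet m n).indicator (fun _ => (1 : ℝ)) x)
      (gauss (GIdx n)) := (integrable_const _).add hii
  have hbi : Integrable (fun x => ε / 4 + K * (badSet m n).indicator (fun _ => (1 : ℝ)) x + C * q x)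
      (gauss (GIdx n)) := hi1.add (hqi.const_mul C)
  have h := integral_mono (havi.sub (integrable_const L)).abs hbi hpt
  rw [integral_add hi1 (hqi.const_mul C), integral_add (integrable_const _) hii,
    integral_const_mul, integral_const_mul, hq,
    integral_indicator_const _ (measurableSet_badSet m n)] at h
  simp only [integral_const, probReal_univ, one_smul, smul_eq_mul, mul_one, Pi.sub_apply] at h
  have hCe : C * (2 * Real.exp ((n : ℝ) * (β ^ 2 / 4))) = 2 / (n : ℝ) := by
    simp only [C, Real.exp_neg]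
    field_simp
  rw [hCe] at h
  have h' := (abs_integral_le_integral_abs (f := fun x => av x - L) (μ := gauss (GIdx n))).trans h
  rw [integral_sub havi (integrable_const L), hav] at h'
  simp only [integral_const, probReal_univ, one_smul] at h'
  rw [Real.dist_eq]
  linarith

/-- The spectral module. -/
theorem spectrum : SpectrumStatement := by
  refine ⟨muSC, muSC_isSC, fun β hβ z hz t ht0 ht => ?_⟩
  simpa using (tendsto_replace hβ.le hz ht0).add (tendsto_goePressure hβ.le hz ht0 ht)

end

end Vale.Agent.P146.Gap
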