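import Vale.Agent.P146.Gap.Conc

/-!
Anti-concentration of the free energy at every scale of constant order.
-/

namespace Vale.Agent.P146.Gap

open MeasureTheory ProbabilityTheory Filter Topology

variable {n : ℕ}

/-- The pairing statistic at one spectral parameter. -/
noncomputable def pairStat (n : ℕ) (β : ℝ) (z : ℂ) (g : Disorder n) : ℂ :=
  ∑ σ, (gibbs n β g σ : ℂ) * (sumStat z (gauge σ g) - trStat z g)

lemma measurable_pairStat (β : ℝ) {z : ℂ} (hz : z.im ≠ 0) : Measurable (pairStat n β z) :=
  Finset.measurable_sum _ fun σ _ => (measurable_gibbs β σ).complex_ofReal.mul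
    (((measurable_sumStat hz).comp (measurePreserving_gauge σ).measurable).sub
      (measurable_trStat hz))

lemma norm_pairStat_le (β : ℝ) {z : ℂ} (hz : z.im ≠ 0) (g : Disorder n) :
    ‖pairStat n β z g‖ ≤ 2 * |z.im|⁻¹ := by
  refine (norm_sum_le _ _).trans ?_
  calc ∑ σ, ‖(gibbs n β g σ : ℂ) * (sumStat z (gauge σ g) - trStat z g)‖
      ≤ ∑ σ, gibbs n β g σ * (2 * |z.im|⁻¹) := Finset.sum_le_sum fun σ _ => by
        rw [norm_mul, Complex.norm_real, Real.norm_eq_abs, abs_of_nonneg (gibbs_nonneg β g σ)]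
        refine mul_le_mul_of_nonneg_left ?_ (gibbs_nonneg β g σ)
        refine (norm_sub_le _ _).trans ?_
        linarith [norm_sumStat_le hz (gauge σ g), norm_trStat_le hz g]
    _ = _ := by rw [← Finset.sum_mul, sum_gibbs, one_mul]

lemma pairStat_le (β : ℝ) {z : ℂ} (hz : z.im ≠ 0) (t : ℝ) (g : Disorder n) :
    t * (β / 2 * (pairStat n β z g).im) ≤
      tiltPressure n β z t g - tiltPressure n β z 0 g - t * (β / 2 * (trStat z g).im) := by
  have h := tilt_tangent β z t g
  rw [meanTilt_eq β hz g] at h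
  have e : pairStat n β z g
      = (∑ σ, (gibbs n β g σ : ℂ) * sumStat z (gauge σ g)) - trStat z g := by
    simp only [pairStat, mul_sub, Finset.sum_sub_distrib, ← Finset.sum_mul, ← Complex.ofReal_sum,
      sum_gibbs, Complex.ofReal_one, one_mul]
  rw [e, Complex.sub_im]
  linarith

/-- The weighted mean of the pairing statistic. -/
lemma weighted_pairStat {β : ℝ} (hβ : 0 ≤ β) {z : ℂ} (hz : 0 < z.im) {t : ℝ} (ht : 0 ≤ t)
    {w : Disorder n → ℝ} (hw : Measurable w) (hw0 : ∀ g, 0 ≤ w g) (hw1 : ∀ g, w g ≤ 1) :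
    t * (β / 2 * ∫ g, w g * (pairStat n β z g).im ∂disorderLaw n) ≤
      ((∫ g, tiltPressure n β z t g ∂disorderLaw n) - ∫ g, tiltPressure n β z 0 g ∂disorderLaw n)
          * ∫ g, w g ∂disorderLaw n
        + (∫ g, |tiltPressure n β z t g - ∫ h, tiltPressure n β z t h ∂disorderLaw n| ∂disorderLaw n)
        + (∫ g, |tiltPressure n β z 0 g - ∫ h, tiltPressure n β z 0 h ∂disorderLaw n| ∂disorderLaw n)
        - t * (β / 2 * (trMean n z).im) := by
  set μ := disorderLaw n
  set P := fun g => tiltPressure n β z t g with hP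
  set Q := fun g => tiltPressure n β z 0 g with hQ
  set p := ∫ g, P g ∂μ
  set q := ∫ g, Q g ∂μ
  have iP : Integrable P μ := integrable_tiltPressure hβ hz.ne' ht
  have iQ : Integrable Q μ := integrable_tiltPressure_zero β z
  have iw : Integrable w μ := Integrable.of_bound hw.aestronglyMeasurable 1
    (ae_of_all _ fun g => by rw [Real.norm_eq_abs, abs_of_nonneg (hw0 g)]; exact hw1 g)
  have iA : Integrable (fun g => w g * (pairStat n β z g).im) μ := by
    refine Integrable.of_bound (hw.mul
      (Complex.measurable_im.comp (measurable_pairStat β hz.ne'))).aestronglyMeasurable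
      (1 * (2 * |z.im|⁻¹)) (ae_of_all _ fun g => ?_)
    rw [Real.norm_eq_abs, abs_mul, abs_of_nonneg (hw0 g)]
    exact mul_le_mul (hw1 g) ((Complex.abs_im_le_norm _).trans (norm_pairStat_le β hz.ne' g))
      (abs_nonneg _) zero_le_one
  have iT : Integrable (fun g => (trStat z g).im) μ := (integrable_trStat hz.ne').im
  have ip := (iP.sub' (integrable_const p)).abs
  have iq := (iQ.sub' (integrable_const q)).abs
  have e : ∫ g, (trStat z g).im ∂μ = (trMean n z).im := integral_im (integrable_trStat hz.ne')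
  have j0 : Integrable (fun g => (p - q) * w g) μ := iw.const_mul _
  have j1 : Integrable (fun g => (p - q) * w g + |P g - p|) μ := j0.add ip
  have j2 : Integrable (fun g => (p - q) * w g + |P g - p| + |Q g - q|) μ := j1.add iq
  have j3 : Integrable (fun g => t * (β / 2 * (trStat z g).im)) μ :=
    (iT.const_mul _).const_mul _
  have j4 : Integrable (fun g => (p - q) * w g + |P g - p| + |Q g - q|
      - t * (β / 2 * (trStat z g).im)) μ := j2.sub j3
  rw [← e, ← integral_const_mul, ← integral_const_mul, ← integral_const_mul, ← integral_const_mul,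
    ← integral_const_mul, ← integral_add j0 ip, ← integral_add j1 iq, ← integral_sub j2 j3]
  refine integral_mono ((iA.const_mul _).const_mul _) j4 fun g => ?_
  have h := mul_le_mul_of_nonneg_left (pairStat_le β hz.ne' t g) (hw0 g)
  have h1 : w g * (P g - p) ≤ |P g - p| :=
    (mul_le_mul_of_nonneg_left (le_abs_self _) (hw0 g)).trans
      (mul_le_of_le_one_left (abs_nonneg _) (hw1 g))
  have h2 : w g * (q - Q g) ≤ |Q g - q| :=
    (mul_le_mul_of_nonneg_left ((le_abs_self _).trans_eq (abs_sub_comm _ _)) (hw0 g)).trans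
      (mul_le_of_le_one_left (abs_nonneg _) (hw1 g))
  have h3 : 0 ≤ (1 - w g) * (-(t * (β / 2 * (trStat z g).im))) := by
    refine mul_nonneg (by linarith [hw1 g]) (neg_nonneg.2 ?_)
    exact mul_nonpos_of_nonneg_of_nonpos ht
      (mul_nonpos_of_nonneg_of_nonpos (by linarith) (im_trStat_nonpos hz g))
  simp only [hP, hQ] at h1 h2 ⊢
  linarith

/-- Every window of constant width has vanishing probability, uniformly in its centre. -/
theorem spread_of (hS : SpectrumStatement) {β : ℝ} (hβ : 1 < β) (R : ℝ) {ε : ℝ} (hε : 0 < ε) :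
    ∀ᶠ n in atTop, ∀ m : ℝ,
      (disorderLaw n).real {g | |freeEnergy n β g - m| ≤ R} ≤ ε := by
  have hβ0 : 0 < β := by linarith
  obtain ⟨k, hk, a₁, ha₁, ha₁8, hd⟩ := pressure_drop hS hβ
  set s := max R 1 with hs
  have hs1 : 1 ≤ s := le_max_right _ _
  set κ := k / β with hκ
  have hκ0 : 0 < κ := by positivity
  set p := ε / (2 * s) with hp
  have hp0 : 0 < p := by positivity
  set a₂ := min a₁ (min 1 (κ * p / 8)) with ha₂
  have ha₂0 : 0 < a₂ := lt_min ha₁ (lt_min one_pos (by positivity))
  obtain ⟨m₀, hm₀⟩ := exists_pow_lt_of_lt_one ha₂0 (show (1 / 2 : ℝ) < 1 by norm_num)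
  have hsmall : ∀ m, scale (m₀ + m) ≤ a₂ := fun m => le_trans
    (pow_le_pow_of_le_one (by norm_num) (by norm_num) (by omega)) hm₀.le
  obtain ⟨K, hK⟩ := exists_nat_ge (max 1 (4 * 471 / (β * (p * κ)) ^ 2 + 1))
  simp only [max_le_iff] at hK
  obtain ⟨hK1, hKM⟩ := hK
  set r : Fin K → ℝ := fun m => scale (m₀ + m) with hr
  have hr0 : ∀ m, 0 < r m := fun m => scale_pos _
  have hr8 : ∀ m, r m ≤ 1 / 8 := fun m => scale_le _
  set z : Fin K → ℂ := fun m => zOf (r m) with hzdef
  have hzpos : ∀ m, 0 < (z m).im := fun m => im_zOf_pos (hr0 m) (hr8 m)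
  have hz : ∀ m, (z m).im ≠ 0 := fun m => (hzpos m).ne'
  choose t ht hdrop using fun m : Fin K => hd (r m) (hr0 m)
    ((hsmall m).trans (min_le_left _ _))
  have hev1 : ∀ᶠ n in atTop, ∀ m : Fin K,
      (∫ g, tiltPressure n β (z m) (t m) g ∂disorderLaw n) -
        ∫ g, tiltPressure n β (z m) 0 g ∂disorderLaw n ≤ -(t m * (k / r m)) ∧
      (∫ g, |tiltPressure n β (z m) (t m) g
        - ∫ h, tiltPressure n β (z m) (t m) h ∂disorderLaw n| ∂disorderLaw n) +
        (∫ g, |tiltPressure n β (z m) 0 g
        - ∫ h, tiltPressure n β (z m) 0 h ∂disorderLaw n| ∂disorderLaw n) ≤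
        t m * (k * p / (4 * r m)) ∧
      -(2 * r m) ≤ (trMean n (z m)).im := by
    refine eventually_all.2 fun m => (hdrop m).and (Eventually.and ?_ ?_)
    · have h := (tiltPressure_abs_dev hβ0.le (hz m) (ht m).le).add
        (tiltPressure_abs_dev hβ0.le (hz m) (le_refl (0 : ℝ)))
      rw [add_zero] at h
      have := ht m
      have := hr0 m
      exact (h.eventually (gt_mem_nhds (show 0 < t m * (k * p / (4 * r m)) by positivity))).mono
        fun n h => h.le
    · obtain ⟨N, hN⟩ := trMean_near (y := yOf (r m))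
        (by linarith [(norm_yOf (hr0 m) (hr8 m)).2, hr0 m]) (by simp [yOf, hr0 m]) (hzpos m)
        (e := r m) (hr0 m)
      filter_upwards [eventually_ge_atTop N] with n hn
      have h : |(trMean n (z m) - yOf (r m)).im| ≤ r m :=
        (Complex.abs_im_le_norm _).trans (hN n hn)
      rw [Complex.sub_im, abs_le] at h
      have : (yOf (r m)).im = -r m := rfl
      linarith [h.1]
  set α := (1 / 2 : ℝ) ^ (m₀ + K + 2)
  have hα : 0 < α := pow_pos (by norm_num) _
  have hev2 : ∀ᶠ n in atTop, ∀ i : Fin K × Fin K,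
      Integrable (gram n (r i.1) (r i.2)) (disorderLaw n) ∧
      ∫ g, gram n (r i.1) (r i.2) g ∂disorderLaw n ≤ 157 / (r i.1 + r i.2) ^ 2 :=
    eventually_all.2 fun i => eventually_atTop.2 (gram_mean hα
      (scale_ge (Nat.add_lt_add_left i.1.2 m₀)) (scale_ge (Nat.add_lt_add_left i.2.2 m₀))
      (hr8 _) (hr8 _))
  filter_upwards [hev1, hev2, eventually_gt_atTop 0] with n hst hgr hn c
  by_contra hcon
  rw [not_le] at hcon
  set μ := disorderLaw n
  set w : Fin K → ℂ := fun m => Complex.I * (r m : ℂ)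
  have hwn : ∀ m, ‖w m‖ = r m := fun m => by simp [w, abs_of_pos (hr0 m)]
  set T := resField n z w hz
  have hE : ∫ g, ((∑ e, ‖T.V e g‖ ^ 2) + ∑ e, ∑ f, ‖T.D e f g‖ ^ 2) ∂μ ≤ 471 * (K : ℝ) :=
    field_energy_scales hn m₀ hgr
  set φ : ℝ → ℝ := fun x => Real.arctan ((x - c) / s) with hφ
  set φ' : ℝ → ℝ := fun x => 1 / (1 + ((x - c) / s) ^ 2) * (1 / s) with hφ'
  have hφd : ∀ x, HasDerivAt φ (φ' x) x := fun x =>
    (((hasDerivAt_id x).sub_const c).div_const s).arctan
  have hs0 : 0 < s := by linarith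
  have hφ0 : ∀ x, 0 ≤ φ' x := fun x => by simp only [hφ']; positivity
  have hφ1 : ∀ x, φ' x ≤ 1 := fun x => by
    simp only [hφ']
    refine mul_le_one₀ ?_ (by positivity) ((div_le_one hs0).2 hs1)
    rw [div_le_one (by positivity)]
    linarith [sq_nonneg ((x - c) / s)]
  have hφc : Continuous φ' :=
    (continuous_const.div (by fun_prop) fun x => by positivity).mul continuous_const
  set W : Disorder n → ℝ := fun g => φ' (freeEnergy n β g) with hW
  have hWm : Measurable W := hφc.measurable.comp (measurable_freeEnergy β)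
  set A := {g | |freeEnergy n β g - c| ≤ R}
  have hA : MeasurableSet A :=
    measurableSet_le ((measurable_freeEnergy β).sub_const c).abs measurable_const
  have hWp : p < ∫ g, W g ∂μ := by
    have h1 : ∫ g, A.indicator (fun _ => 1 / (2 * s)) g ∂μ ≤ ∫ g, W g ∂μ := by
      refine integral_mono ((integrable_const _).indicator hA)
        (Integrable.of_bound hWm.aestronglyMeasurable 1 (ae_of_all _ fun g => by
          rw [Real.norm_eq_abs, abs_of_nonneg (hφ0 _)]; exact hφ1 _)) fun g => ?_
      by_cases hg : g ∈ A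
      · rw [Set.indicator_of_mem hg]
        simp only [hW, hφ']
        have h2 : ((freeEnergy n β g - c) / s) ^ 2 ≤ 1 := by
          rw [sq_le_one_iff_abs_le_one, abs_div, abs_of_pos hs0, div_le_one hs0]
          exact le_trans hg (le_max_left _ _)
        rw [show 1 / (2 * s) = 1 / 2 * (1 / s) by ring]
        refine mul_le_mul_of_nonneg_right ?_ (by positivity)
        exact one_div_le_one_div_of_le (by positivity) (by linarith)
      · rw [Set.indicator_of_notMem hg]; exact hφ0 _
    rw [integral_indicator_const _ hA, smul_eq_mul] at h1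
    refine lt_of_lt_of_le ?_ h1
    rw [hp, div_eq_mul_one_div]
    exact mul_lt_mul_of_pos_right hcon (by positivity)
  have hm1 : ∀ m, ∫ g, W g * (pairStat n β (z m) g).im ∂μ ≤ -(p * κ / r m) := by
    intro m
    obtain ⟨h1, h2, h3⟩ := hst m
    have h := weighted_pairStat (n := n) hβ0.le (hzpos m) (ht m).le hWm (fun g => hφ0 _)
      (fun g => hφ1 _)
    have hb : ((∫ g, tiltPressure n β (z m) (t m) g ∂μ) - ∫ g, tiltPressure n β (z m) 0 g ∂μ)
        * ∫ g, W g ∂μ ≤ -(t m * (k / r m)) * p := by
      refine (mul_le_mul_of_nonneg_right h1 (hp0.trans hWp).le).trans ?_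
      refine mul_le_mul_of_nonpos_left hWp.le (neg_nonpos.2 ?_)
      have := ht m; have := hr0 m
      positivity
    have hsm : r m ≤ 1 ∧ r m ≤ κ * p / 8 :=
      ⟨(hsmall m).trans ((min_le_right _ _).trans (min_le_left _ _)),
        (hsmall m).trans ((min_le_right _ _).trans (min_le_right _ _))⟩
    refine le_of_mul_le_mul_left ?_ (mul_pos (ht m) (half_pos hβ0))
    rw [mul_assoc, mul_assoc]
    refine h.trans ?_
    have h4 := mul_le_mul_of_nonneg_left h3 (mul_pos (ht m) (half_pos hβ0)).le
    have h5 : r m * r m ≤ κ * p / 8 :=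
      (mul_le_of_le_one_left (hr0 m).le hsm.1).trans hsm.2
    have h6 : t m * (β / 2) * (2 * r m) ≤ t m * (k * p / (4 * r m)) := by
      rw [mul_assoc]
      refine mul_le_mul_of_nonneg_left ?_ (ht m).le
      rw [le_div_iff₀ (by linarith [hr0 m]),
        show β / 2 * (2 * r m) * (4 * r m) = 4 * β * (r m * r m) by ring]
      have h7 := mul_le_mul_of_nonneg_left h5 (show 0 ≤ 4 * β by linarith)
      have h8 : 4 * β * (κ * p / 8) = k * p / 2 := by rw [hκ]; field_simp; ring
      have h9 : 0 < k * p := by positivity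
      linarith
    have e1 : t m * (β / 2 * -(p * κ / r m)) = -(t m * (k / r m)) * p / 2 := by
      rw [hκ]; field_simp
    have e2 : t m * (k * p / (4 * r m)) = t m * (k / r m) * p / 4 := by ring
    linarith
  set G : Disorder n → ℝ := fun g => φ (freeEnergy n β g) with hG
  set G' : Fin n × Fin n → Disorder n → ℝ := fun e g => W g * gradFree β e g
  have hGd : ∀ e g, HasDerivAt (fun u => G (setEntry e g u)) (G' e g) (g e.1 e.2) := by
    intro e g
    refine HasDerivAt.comp (h₂ := φ) (g e.1 e.2) ?_ (freeEnergy_hasDerivAt β e g)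
    rw [setEntry_same]; exact hφd _
  have hGm : Measurable G := Real.continuous_arctan.measurable.comp
    (((measurable_freeEnergy β).sub_const c).div_const s)
  have hGb : ∀ g, |G g| ≤ 2 := fun g => by
    have h1 := Real.arctan_lt_pi_div_two ((freeEnergy n β g - c) / s)
    have h2 := Real.neg_pi_div_two_lt_arctan ((freeEnergy n β g - c) / s)
    have h3 := Real.pi_le_four
    exact abs_le.2 ⟨by simp only [hG, hφ]; linarith, by simp only [hG, hφ]; linarith⟩
  have hG2 : MemLp G 2 μ := MemLp.of_bound hGm.aestronglyMeasurable 2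
    (ae_of_all _ fun g => by rw [Real.norm_eq_abs]; exact hGb g)
  have hG'2 : ∀ e, MemLp (G' e) 2 μ := fun e =>
    MemLp.of_le (memLp_gradFree β e)
      (hWm.aestronglyMeasurable.mul (memLp_gradFree β e).aestronglyMeasurable)
      (ae_of_all _ fun g => by
        simp only [G', norm_mul, Real.norm_eq_abs, abs_of_nonneg (hφ0 _), hW]
        exact mul_le_of_le_one_left (abs_nonneg _) (hφ1 _))
  have hV := T.variance_ge (F := G) (F' := G') hGd hG2 hG'2 hE
  have hint : ∫ g, ∑ e, (G' e g : ℂ) * T.V e g ∂μ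
      = (β : ℂ) * ∑ m, w m * ∫ g, (W g : ℂ) * pairStat n β (z m) g ∂μ := by
    have hi : ∀ m, Integrable (fun g => (W g : ℂ) * pairStat n β (z m) g) μ := fun m =>
      Integrable.of_bound (hWm.complex_ofReal.mul (measurable_pairStat β (hz m))).aestronglyMeasurable
        (1 * (2 * |(z m).im|⁻¹)) (ae_of_all _ fun g => by
          rw [norm_mul, Complex.norm_real, Real.norm_eq_abs, abs_of_nonneg (hφ0 _)]
          exact mul_le_mul (hφ1 _) (norm_pairStat_le β (hz m) g) (norm_nonneg _) zero_le_one)
    simp only [← integral_const_mul]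
    rw [← integral_finsetSum _ fun m _ => (hi m).const_mul _, ← integral_const_mul]
    refine integral_congr_ae (ae_of_all _ fun g => ?_)
    have e : ∑ e, (G' e g : ℂ) * T.V e g = (W g : ℂ) * ∑ e, (gradFree β e g : ℂ) * T.V e g := by
      simp only [G', Complex.ofReal_mul, Finset.mul_sum, mul_assoc]
    show ∑ e, (G' e g : ℂ) * T.V e g = _
    rw [e, pairing_eq z w hz β g]
    simp only [pairStat, Finset.mul_sum]
    exact Finset.sum_congr rfl fun m _ => Finset.sum_congr rfl fun σ _ => by ring
  rw [hint] at hV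
  have hlow : β * ((K : ℝ) * (p * κ))
      ≤ ‖(β : ℂ) * ∑ m, w m * ∫ g, (W g : ℂ) * pairStat n β (z m) g ∂μ‖ := by
    refine le_trans ?_ (Complex.re_le_norm _)
    rw [Complex.re_ofReal_mul, Complex.re_sum]
    refine mul_le_mul_of_nonneg_left ?_ hβ0.le
    refine le_trans (le_of_eq (by simp))
      (Finset.sum_le_sum (f := fun _ : Fin K => p * κ) fun m _ => ?_)
    have hi : Integrable (fun g => (W g : ℂ) * pairStat n β (z m) g) μ :=
      Integrable.of_bound (hWm.complex_ofReal.mul (measurable_pairStat β (hz m))).aestronglyMeasurable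
        (1 * (2 * |(z m).im|⁻¹)) (ae_of_all _ fun g => by
          rw [norm_mul, Complex.norm_real, Real.norm_eq_abs, abs_of_nonneg (hφ0 _)]
          exact mul_le_mul (hφ1 _) (norm_pairStat_le β (hz m) g) (norm_nonneg _) zero_le_one)
    have him : (∫ g, (W g : ℂ) * pairStat n β (z m) g ∂μ).im
        = ∫ g, W g * (pairStat n β (z m) g).im ∂μ := by
      refine (integral_im hi).symm.trans (integral_congr_ae (ae_of_all _ fun g => ?_))
      simp
    have h := mul_le_mul_of_nonneg_left (hm1 m) (hr0 m).le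
    rw [mul_neg, mul_div_cancel₀ _ (hr0 m).ne', ← him] at h
    simp only [w, Complex.mul_re, Complex.mul_im, Complex.I_re, Complex.I_im, Complex.ofReal_re,
      Complex.ofReal_im]
    linarith
  have hVar : variance G μ ≤ 4 := by
    refine (variance_le_expectation_sq hGm.aestronglyMeasurable).trans ?_
    refine (integral_mono hG2.integrable_sq (integrable_const 4) fun g => ?_).trans_eq (by simp)
    show G g ^ 2 ≤ 4
    have := sq_abs (G g)
    have := pow_le_pow_left₀ (abs_nonneg _) (hGb g) 2
    linarith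
  have hKr : (0 : ℝ) < K := by linarith
  have h5 := ((pow_le_pow_left₀ (by positivity) hlow 2).trans hV).trans
    (mul_le_mul_of_nonneg_right hVar (by positivity))
  rw [← sub_nonneg] at hKM
  have h6 : 0 < (β * (p * κ)) ^ 2 := by positivity
  have h7 := mul_nonneg (mul_nonneg hKM h6.le) hKr.le
  have h8 : 4 * 471 / (β * (p * κ)) ^ 2 * (β * (p * κ)) ^ 2 = 4 * 471 :=
    div_mul_cancel₀ _ h6.ne'
  nlinarith [mul_pos h6 hKr]

end Vale.Agent.P146.Gap
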