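import Vale.Agent.P146.Gap.Heat
import Vale.Agent.P157.ParisiG.RadStep

/-!
A step of the recursion keeps the slope over the argument decreasing.
-/

namespace Vale.Agent.P146.Gap

open MeasureTheory ProbabilityTheory Real Filter Topology

/-- Even convex profiles with slope at most `1` whose slope over the argument decreases. -/
structure Prof (U : ℝ → ℝ) : Prop extends Lip1 U where
  even : ∀ v, U (-v) = U v
  mono : Monotone (deriv U)
  star : ∀ a b : ℝ, 0 < a → a ≤ b → deriv U b * a ≤ deriv U a * b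

lemma Prof.deriv_neg {U : ℝ → ℝ} (hU : Prof U) (v : ℝ) : deriv U (-v) = -deriv U v := by
  have h := deriv_comp_neg (f := U) (x := v)
  simp only [hU.even] at h
  linarith

lemma sinh_mul_le {p q : ℝ} (hp : 0 ≤ p) (hpq : p ≤ q) :
    p * (sinh q * cosh p) ≤ q * (sinh p * cosh q) := by
  rcases hp.eq_or_lt with rfl | hp'
  · simp
  have hanti : AntitoneOn (fun t => sinh t / cosh t / t) (Set.Ioi 0) := by
    have hd : ∀ t ∈ Set.Ioi (0:ℝ), HasDerivAt (fun t => sinh t / cosh t / t)
        (((cosh t * cosh t - sinh t * sinh t) / cosh t ^ 2 * t - sinh t / cosh t * 1) / t ^ 2) t :=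
      fun t ht => ((hasDerivAt_sinh t).div (hasDerivAt_cosh t) (cosh_pos t).ne').div
        (hasDerivAt_id t) (ne_of_gt ht)
    refine antitoneOn_of_deriv_nonpos (convex_Ioi 0) (fun t ht => (hd t ht).continuousAt.continuousWithinAt)
      (fun t ht => (hd t (by simpa using ht)).differentiableAt.differentiableWithinAt) fun t ht => ?_
    rw [interior_Ioi] at ht
    have ht' : (0:ℝ) < t := ht
    rw [(hd t ht).deriv]
    refine div_nonpos_of_nonpos_of_nonneg ?_ (sq_nonneg _)
    have h1 := Real.cosh_sq t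
    have h2 : t ≤ sinh t := Real.self_le_sinh_iff.2 ht'.le
    have h3 := Real.one_le_cosh t
    rw [div_mul_eq_mul_div, mul_one, sub_nonpos, div_le_div_iff₀ (by positivity) (cosh_pos t),
      show cosh t * cosh t - sinh t * sinh t = 1 by linarith, one_mul]
    have h4 : sinh t * cosh t ≤ sinh t * cosh t * cosh t :=
      le_mul_of_one_le_right (mul_nonneg (ht'.le.trans h2) (cosh_pos t).le) h3
    have h5 := mul_le_mul_of_nonneg_right h2 (cosh_pos t).le
    linarith
  have h := hanti (Set.mem_Ioi.2 hp') (Set.mem_Ioi.2 (hp'.trans_le hpq)) hpq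
  simp only [div_div] at h
  rw [div_le_div_iff₀ (by have := hp'.trans_le hpq; positivity) (by positivity)] at h
  linarith

lemma gauss_shift (G : ℝ → ℝ) (η : ℝ) :
    ∫ z, G (z + η) ∂(gaussianReal 0 1) = exp (-(η ^ 2 / 2)) * ∫ w, exp (η * w) * G w ∂(gaussianReal 0 1) := by
  rw [integral_gaussianReal_eq_integral_smul one_ne_zero,
    integral_gaussianReal_eq_integral_smul one_ne_zero, ← integral_const_mul,
    ← integral_add_right_eq_self (μ := volume) (fun w => exp (-(η ^ 2 / 2)) *
      (gaussianPDFReal 0 1 w • (exp (η * w) * G w))) η]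
  refine integral_congr_ae (.of_forall fun z => ?_)
  simp only [gaussianPDFReal_def, smul_eq_mul, NNReal.coe_one, mul_one, sub_zero]
  rw [show exp (-z ^ 2 / 2) = exp (-(η ^ 2 / 2)) * exp (-(z + η) ^ 2 / 2) * exp (η * (z + η)) by
    rw [← exp_add, ← exp_add]; ring_nf]
  ring

lemma gauss_symm {G : ℝ → ℝ} (hG : Integrable G (gaussianReal 0 1)) :
    ∫ w, G w ∂(gaussianReal 0 1) = ∫ w, (G w + G (-w)) / 2 ∂(gaussianReal 0 1) := by
  have hm : MeasurePreserving (fun w : ℝ => -w) (gaussianReal 0 1) (gaussianReal 0 1) :=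
    ⟨measurable_neg, by rw [gaussianReal_map_neg, neg_zero]⟩
  have hi : Integrable (fun w => G (-w)) (gaussianReal 0 1) := hm.integrable_comp_of_integrable hG
  rw [integral_div, integral_add hG hi,
    hm.integral_comp (Homeomorph.neg ℝ).measurableEmbedding G]
  ring

variable {U : ℝ → ℝ} {x : ℝ}

/-- The slope of a step is increasing. -/
lemma D2_nonneg (hU : Prof U) (hx : 0 ≤ x) {s : ℝ} (hs : 0 < s) (y : ℝ) : 0 ≤ D2 U x s y := by
  have hL := hU.toLip1
  set e := fun z => exp (x * U (y + s * z))
  have h := Vale.Agent.P157.RadG.cheb (μ := (gaussianReal 0 1)) (F := fun z => z)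
    (w₁ := fun z => x * deriv U (y + s * z) * exp (x * U (y + s * z)))
    (w₂ := fun z => exp (x * U (y + s * z)))
    (by simpa using integrable_Hd hL hx 0 s y) (by simpa using integrable_H hL hx 0 s y)
    (by simpa using integrable_Hd hL hx 1 s y) (by simpa using integrable_H hL hx 1 s y)
    fun a b => by
      have h0 : 0 ≤ (a - b) * (deriv U (y + s * a) - deriv U (y + s * b)) := by
        rcases le_total a b with hab | hab
        · exact mul_nonneg_of_nonpos_of_nonpos (sub_nonpos.2 hab)
            (sub_nonpos.2 (hU.mono (by nlinarith)))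
        · exact mul_nonneg (sub_nonneg.2 hab) (sub_nonneg.2 (hU.mono (by nlinarith)))
      have h1 := mul_nonneg (mul_nonneg hx (mul_nonneg (exp_pos (x * U (y + s * a))).le
        (exp_pos (x * U (y + s * b))).le)) h0
      linarith
  have a1 := mul_Hd hL hx 0 s y
  have a2 := mul_Hd hL hx 1 s y
  have b0 : H U x 0 s y = ∫ z, exp (x * U (y + s * z)) ∂(gaussianReal 0 1) := by simp [H]
  have b1 : H U x 1 s y = ∫ z, z * exp (x * U (y + s * z)) ∂(gaussianReal 0 1) := by simp [H]
  have c0 : Hd U x 0 s y = ∫ z, x * deriv U (y + s * z) * exp (x * U (y + s * z)) ∂(gaussianReal 0 1) := by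
    simp [Hd]
  have c1 : Hd U x 1 s y = ∫ z, z * (x * deriv U (y + s * z) * exp (x * U (y + s * z))) ∂(gaussianReal 0 1) := by
    simp [Hd]
  rw [← b0, ← b1, ← c0, ← c1] at h
  have hp := H_zero_pos hL hx s y
  simp only [zero_add, Nat.cast_zero, zero_mul, sub_zero, Nat.cast_one, one_mul, Nat.sub_self,
    Nat.reduceAdd] at a1 a2
  have e2 : D2 U x s y =
      (H U x 0 s y * Hd U x 1 s y - H U x 1 s y * Hd U x 0 s y) / (s * H U x 0 s y ^ 2) := by
    simp only [D2, Mo]
    rw [show H U x 2 s y = s * Hd U x 1 s y + H U x 0 s y by linarith]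
    rw [show H U x 1 s y = s * Hd U x 0 s y by linarith]
    field_simp
    ring
  rw [e2]
  exact div_nonneg (by linarith) (by positivity)

/-- The slope of a step over the argument decreases. -/
lemma star_step (hU : Prof U) (hx : 0 ≤ x) {s : ℝ} (hs : 0 < s) {y : ℝ} (hy : 0 ≤ y) :
    y * D2 U x s y ≤ D1 U x s y := by
  have hL := hU.toLip1
  have hc := hL.diff.continuous
  set η := y / s with hη
  have hη0 : 0 ≤ η := div_nonneg hy hs.le
  set e := fun w => exp (x * U (s * w)) with he
  have he' : ∀ w, e (-w) = e w := fun w => by simp only [he, mul_neg, hU.even]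
  set P := fun w => w / s - x * deriv U (s * w) with hP
  have hP' : ∀ w, P (-w) = -P w := fun w => by
    simp only [hP, mul_neg, hU.deriv_neg, neg_div]; ring
  set F := fun w => P w / (s * w) with hF
  have hPF : ∀ w, F w * (s * w) = P w := fun w => by
    rcases eq_or_ne w 0 with rfl | hw
    · have h0 : deriv U 0 = 0 := by have := hU.deriv_neg 0; rw [neg_zero] at this; linarith
      simp [hP, h0]
    · exact div_mul_cancel₀ _ (mul_ne_zero hs.ne' hw)
  have hmP : Measurable P := ((measurable_id.div_const s).sub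
    (((measurable_deriv U).comp (measurable_id.const_mul s)).const_mul x))
  -- growth
  have heb : ∀ w, e w ≤ exp (x * |U 0|) * exp (x * s * |w|) := fun w => by
    simp only [he]
    rw [← exp_add, exp_le_exp, mul_assoc x s, ← mul_add]
    refine mul_le_mul_of_nonneg_left ?_ hx
    have h1 := (abs_le.1 (hL.lip (s * w) 0)).2
    rw [sub_zero, abs_mul, abs_of_pos hs] at h1
    linarith [le_abs_self (U 0)]
  have hPb : ∀ w, |P w| ≤ (1 / s + x) * exp |w| := fun w => by
    simp only [hP]
    refine (abs_sub _ _).trans ?_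
    rw [abs_div, abs_of_pos hs, abs_mul, abs_of_nonneg hx, add_mul, div_mul_eq_mul_div, one_mul]
    refine add_le_add (div_le_div_of_nonneg_right ?_ hs.le) (mul_le_mul_of_nonneg_left
      ((hL.slope _).trans (one_le_exp (abs_nonneg w))) hx)
    linarith [add_one_le_exp |w|]
  have hwb : ∀ w : ℝ, |s * w| ≤ s * exp |w| := fun w => by
    rw [abs_mul, abs_of_pos hs]
    exact mul_le_mul_of_nonneg_left (by linarith [add_one_le_exp |w|]) hs.le
  have hint : ∀ (G : ℝ → ℝ) (C : ℝ), Measurable G → (∀ w, |G w| ≤ C * exp (2 * |w|)) →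
      ∀ c : ℝ, Integrable (fun w => exp (c * w) * (G w * e w)) (gaussianReal 0 1) := by
    intro G C hG hb c
    refine integrable_of_exp_bound (C := C * exp (x * |U 0|)) (k := |c| + 2 + x * s)
      ((by fun_prop : Measurable fun w => exp (c * w)).mul
        (hG.mul (by fun_prop))).aestronglyMeasurable fun w => ?_
    rw [abs_mul, abs_mul, abs_exp, abs_of_pos (exp_pos _)]
    have h1 : exp (c * w) ≤ exp (|c| * |w|) :=
      exp_le_exp.2 ((le_abs_self _).trans_eq (abs_mul c w))
    have hC : 0 ≤ C * exp (2 * |w|) := (abs_nonneg _).trans (hb w)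
    calc exp (c * w) * (|G w| * e w)
        ≤ exp (|c| * |w|) * ((C * exp (2 * |w|)) * (exp (x * |U 0|) * exp (x * s * |w|))) :=
          mul_le_mul h1 (mul_le_mul (hb w) (heb w) (exp_pos _).le hC) (by positivity)
            (exp_pos _).le
      _ = _ := by rw [add_mul, add_mul, exp_add, exp_add]; ring
  have e2 : ∀ w : ℝ, exp (2 * |w|) = exp |w| * exp |w| := fun w => by rw [two_mul, exp_add]
  -- the four integrals
  set A := fun G : ℝ → ℝ => ∫ z, G (z + η) * e (z + η) ∂(gaussianReal 0 1) with hA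
  have hAshift : ∀ G, A G = exp (-(η ^ 2 / 2)) * ∫ w, exp (η * w) * (G w * e w) ∂(gaussianReal 0 1) := fun G =>
    gauss_shift (fun w => G w * e w) η
  have hev : ∀ z, e (z + η) = exp (x * U (y + s * z)) := fun z => by
    simp only [he]; congr 3; rw [hη]; field_simp; ring
  have hv : ∀ z, s * (z + η) = y + s * z := fun z => by rw [hη]; field_simp; ring
  have iH := integrable_H hL hx
  have iD := integrable_Hd hL hx
  have hlin : ∀ a₀ a₁ a₂ d₀ d₁ : ℝ,
      ∫ z, (a₀ * exp (x * U (y + s * z)) + a₁ * (z * exp (x * U (y + s * z)))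
        + a₂ * (z ^ 2 * exp (x * U (y + s * z)))
        + d₀ * (x * deriv U (y + s * z) * exp (x * U (y + s * z)))
        + d₁ * (z * (x * deriv U (y + s * z) * exp (x * U (y + s * z))))) ∂(gaussianReal 0 1)
      = a₀ * H U x 0 s y + a₁ * H U x 1 s y + a₂ * H U x 2 s y
        + d₀ * Hd U x 0 s y + d₁ * Hd U x 1 s y := by
    intro a₀ a₁ a₂ d₀ d₁
    have j0 : Integrable (fun z => a₀ * exp (x * U (y + s * z))) (gaussianReal 0 1) := by
      simpa using (iH 0 s y).const_mul a₀
    have j1 : Integrable (fun z => a₁ * (z * exp (x * U (y + s * z)))) (gaussianReal 0 1) := by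
      simpa using (iH 1 s y).const_mul a₁
    have j2 := (iH 2 s y).const_mul a₂
    have k0 : Integrable
        (fun z => d₀ * (x * deriv U (y + s * z) * exp (x * U (y + s * z)))) (gaussianReal 0 1) := by
      simpa using (iD 0 s y).const_mul d₀
    have k1 : Integrable
        (fun z => d₁ * (z * (x * deriv U (y + s * z) * exp (x * U (y + s * z))))) (gaussianReal 0 1) := by
      simpa using (iD 1 s y).const_mul d₁
    have l1 : Integrable
        (fun z => a₀ * exp (x * U (y + s * z)) + a₁ * (z * exp (x * U (y + s * z)))) (gaussianReal 0 1) := j0.add j1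
    have l2 : Integrable (fun z => a₀ * exp (x * U (y + s * z))
        + a₁ * (z * exp (x * U (y + s * z))) + a₂ * (z ^ 2 * exp (x * U (y + s * z)))) (gaussianReal 0 1) :=
      l1.add j2
    have l3 : Integrable (fun z => a₀ * exp (x * U (y + s * z))
        + a₁ * (z * exp (x * U (y + s * z))) + a₂ * (z ^ 2 * exp (x * U (y + s * z)))
        + d₀ * (x * deriv U (y + s * z) * exp (x * U (y + s * z)))) (gaussianReal 0 1) := l2.add k0
    rw [integral_add l3 k1, integral_add l2 k0, integral_add l1 j2, integral_add j0 j1]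
    simp only [integral_const_mul, H, Hd, pow_zero, pow_one, one_mul]
  have A1 : A (fun w => s * w) = y * H U x 0 s y + s * H U x 1 s y := by
    have h := hlin y s 0 0 0
    simp only [zero_mul, add_zero] at h
    simp only [hA, hev, hv, ← h]
    exact integral_congr_ae (.of_forall fun z => by simp; ring)
  have A2 : A (fun w => (s * w) ^ 2) =
      y ^ 2 * H U x 0 s y + 2 * y * s * H U x 1 s y + s ^ 2 * H U x 2 s y := by
    have h := hlin (y ^ 2) (2 * y * s) (s ^ 2) 0 0
    simp only [zero_mul, add_zero] at h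
    simp only [hA, hev, hv, ← h]
    exact integral_congr_ae (.of_forall fun z => by simp; ring)
  have hPv : ∀ z, P (z + η) = (y + s * z) / s ^ 2 - x * deriv U (y + s * z) := fun z => by
    simp only [hP, hv]; rw [← hv z]; field_simp
  have A3 : A P = (y * H U x 0 s y + s * H U x 1 s y) / s ^ 2 - Hd U x 0 s y := by
    rw [show (y * H U x 0 s y + s * H U x 1 s y) / s ^ 2 - Hd U x 0 s y =
      y / s ^ 2 * H U x 0 s y + s / s ^ 2 * H U x 1 s y + 0 * H U x 2 s y + -1 * Hd U x 0 s y
        + 0 * Hd U x 1 s y by ring, ← hlin]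
    simp only [hA, hev, hPv]
    exact integral_congr_ae (.of_forall fun z => by simp; ring)
  have A4 : A (fun w => s * w * P w) =
      (y ^ 2 * H U x 0 s y + 2 * y * s * H U x 1 s y + s ^ 2 * H U x 2 s y) / s ^ 2
        - (y * Hd U x 0 s y + s * Hd U x 1 s y) := by
    rw [show (y ^ 2 * H U x 0 s y + 2 * y * s * H U x 1 s y + s ^ 2 * H U x 2 s y) / s ^ 2
        - (y * Hd U x 0 s y + s * Hd U x 1 s y) =
      y ^ 2 / s ^ 2 * H U x 0 s y + 2 * y * s / s ^ 2 * H U x 1 s y
        + s ^ 2 / s ^ 2 * H U x 2 s y + -y * Hd U x 0 s y + -s * Hd U x 1 s y by ring, ← hlin]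
    simp only [hA, hev, hv, hPv]
    exact integral_congr_ae (.of_forall fun z => by simp; ring)
  -- symmetrise and apply the association inequality
  set c := fun w => cosh (η * w)
  set sh := fun w => sinh (η * w)
  have hexp : ∀ w, exp (η * w) = c w + sh w := fun w => (cosh_add_sinh _).symm
  have hneg : ∀ w, c (-w) = c w ∧ sh (-w) = -sh w := fun w => by simp [c, sh]
  have hsym : ∀ (G : ℝ → ℝ) (K : ℝ → ℝ), Integrable (fun w => exp (η * w) * (G w * e w)) (gaussianReal 0 1) →
      (∀ w, (exp (η * w) * (G w * e w) + exp (η * -w) * (G (-w) * e (-w))) / 2 = K w) →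
      A G = exp (-(η ^ 2 / 2)) * ∫ w, K w ∂(gaussianReal 0 1) ∧ Integrable K (gaussianReal 0 1) := by
    intro G K hi hK
    have hm : MeasurePreserving (fun w : ℝ => -w) (gaussianReal 0 1) (gaussianReal 0 1) :=
      ⟨measurable_neg, by rw [gaussianReal_map_neg, neg_zero]⟩
    refine ⟨?_, ((hi.add (hm.integrable_comp_of_integrable hi)).div_const 2).congr
      (.of_forall fun w => ?_)⟩
    · rw [hAshift, gauss_symm hi]; simp only [hK]
    · simpa using hK w
  obtain ⟨B1, I1⟩ := hsym (fun w => s * w) (fun w => s * w * sh w * e w)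
    (hint _ s (by fun_prop) (fun w => (hwb w).trans (mul_le_mul_of_nonneg_left
      (exp_le_exp.2 (by linarith [abs_nonneg w])) hs.le)) η) fun w => by
      simp only [hexp, (hneg w).1, (hneg w).2, he' w]; ring
  obtain ⟨B2, I2⟩ := hsym (fun w => (s * w) ^ 2) (fun w => (s * w) ^ 2 * c w * e w)
    (hint _ (s ^ 2) (by fun_prop) (fun w => by
      rw [abs_pow, e2]
      nlinarith [pow_le_pow_left₀ (abs_nonneg (s * w)) (hwb w) 2]) η) fun w => by
      simp only [hexp, (hneg w).1, (hneg w).2, he' w]; ring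
  obtain ⟨B3, I3⟩ := hsym P (fun w => P w * sh w * e w)
    (hint _ (1 / s + x) hmP (fun w => (hPb w).trans (mul_le_mul_of_nonneg_left
      (exp_le_exp.2 (by linarith [abs_nonneg w])) (by positivity))) η) fun w => by
      simp only [hexp, (hneg w).1, (hneg w).2, he' w, hP']; ring
  obtain ⟨B4, I4⟩ := hsym (fun w => s * w * P w) (fun w => s * w * P w * c w * e w)
    (hint _ (s * (1 / s + x)) ((measurable_id.const_mul s).mul hmP) (fun w => by
      rw [Pi.mul_apply, id_eq, abs_mul, e2]
      calc |s * w| * |P w| ≤ (s * exp |w|) * ((1 / s + x) * exp |w|) :=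
            mul_le_mul (hwb w) (hPb w) (abs_nonneg _) (by positivity)
        _ = _ := by ring) η) fun w => by
      simp only [hexp, (hneg w).1, (hneg w).2, he' w, hP']; ring
  have hF2 : ∀ w, F w * (s * w * sh w * e w) = P w * sh w * e w := fun w => by
    rw [← hPF w]; ring
  have hF1 : ∀ w, F w * ((s * w) ^ 2 * c w * e w) = s * w * P w * c w * e w := fun w => by
    rw [← hPF w]; ring
  have hev2 : ∀ w, F (-w) = F w ∧ (s * -w) ^ 2 * c (-w) * e (-w) = (s * w) ^ 2 * c w * e w ∧
      s * -w * sh (-w) * e (-w) = s * w * sh w * e w := fun w => by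
    refine ⟨?_, ?_, ?_⟩
    · simp only [hF, hP', mul_neg, neg_div_neg_eq]
    · rw [(hneg w).1, he']; ring
    · rw [(hneg w).2, he']; ring
  have hmain := Vale.Agent.P157.RadG.cheb (μ := (gaussianReal 0 1)) (F := F)
    (w₁ := fun w => (s * w) ^ 2 * c w * e w) (w₂ := fun w => s * w * sh w * e w) I2 I1
    (I4.congr (.of_forall fun w => (hF1 w).symm)) (I3.congr (.of_forall fun w => (hF2 w).symm))
    ?_
  · simp only [hF1, hF2] at hmain
    have hcheb : A P * A (fun w => (s * w) ^ 2) ≤ A (fun w => s * w * P w) * A (fun w => s * w) := by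
      rw [B1, B2, B3, B4]
      have := mul_le_mul_of_nonneg_left hmain (sq_nonneg (exp (-(η ^ 2 / 2))))
      linarith
    have a1 := mul_Hd hL hx 0 s y
    have a2 := mul_Hd hL hx 1 s y
    simp only [zero_add, Nat.cast_zero, zero_mul, sub_zero, Nat.cast_one, one_mul, Nat.sub_self,
      Nat.reduceAdd] at a1 a2
    have r1 : H U x 1 s y = s * Hd U x 0 s y := by linarith
    have r2 : H U x 2 s y = s * Hd U x 1 s y + H U x 0 s y := by linarith
    rw [A1, A2, A3, A4, r1, r2] at hcheb
    have hp := H_zero_pos hL hx s y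
    simp only [D1, D2, Mo, r1, r2]
    set h0 := H U x 0 s y
    set d0 := Hd U x 0 s y
    set d1 := Hd U x 1 s y
    have key : 0 ≤ s ^ 2 * y * d0 ^ 2 + s ^ 2 * h0 * d0 - y * s * h0 * d1 := by
      have e3 : ((y ^ 2 * h0 + 2 * y * s * (s * d0) + s ^ 2 * (s * d1 + h0)) / s ^ 2
            - (y * d0 + s * d1)) * (y * h0 + s * (s * d0))
          - ((y * h0 + s * (s * d0)) / s ^ 2 - d0)
            * (y ^ 2 * h0 + 2 * y * s * (s * d0) + s ^ 2 * (s * d1 + h0))
          = s ^ 2 * y * d0 ^ 2 + s ^ 2 * h0 * d0 - y * s * h0 * d1 := by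
        field_simp; ring
      linarith
    rw [← sub_nonneg]
    have e4 : s * d0 / h0 / s - y * (((s * d1 + h0) / h0 - 1 - (s * d0 / h0) ^ 2) / s ^ 2)
        = (s ^ 2 * y * d0 ^ 2 + s ^ 2 * h0 * d0 - y * s * h0 * d1) / (s ^ 2 * h0 ^ 2) := by
      field_simp; ring
    rw [e4]
    exact div_nonneg key (by positivity)
  · -- the pointwise condition
    have habs : ∀ w, F w = F |w| ∧ (s * w) ^ 2 * c w * e w = (s * |w|) ^ 2 * c |w| * e |w| ∧
        s * w * sh w * e w = s * |w| * sh |w| * e |w| := fun w => by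
      rcases abs_choice w with h | h <;> rw [h]
      · exact ⟨rfl, rfl, rfl⟩
      · exact ⟨(hev2 w).1.symm, (hev2 w).2.1.symm, (hev2 w).2.2.symm⟩
    intro a b
    rw [(habs a).1, (habs a).2.1, (habs a).2.2, (habs b).1, (habs b).2.1, (habs b).2.2]
    suffices h : ∀ p q : ℝ, 0 ≤ p → p ≤ q → 0 ≤ (F p - F q) *
        ((s * p) ^ 2 * c p * e p * (s * q * sh q * e q) -
          (s * q) ^ 2 * c q * e q * (s * p * sh p * e p)) by
      rcases le_total |a| |b| with hab | hab
      · exact h _ _ (abs_nonneg _) hab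
      · have := h _ _ (abs_nonneg b) hab
        linarith
    intro p q hp hpq
    rcases hp.eq_or_lt with rfl | hp'
    · simp
    have hq := hp'.trans_le hpq
    refine mul_nonneg_of_nonpos_of_nonpos ?_ ?_
    · rw [sub_nonpos]
      simp only [hF, hP]
      rw [div_le_div_iff₀ (mul_pos hs hp') (mul_pos hs hq)]
      have h := hU.star (s * p) (s * q) (mul_pos hs hp') (mul_le_mul_of_nonneg_left hpq hs.le)
      have h2 := mul_le_mul_of_nonneg_left h hx
      have e5 : p / s * (s * q) = q / s * (s * p) := by field_simp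
      nlinarith
    · have h := sinh_mul_le (mul_nonneg hη0 hp'.le) (mul_le_mul_of_nonneg_left hpq hη0)
      rw [sub_nonpos]
      rcases hη0.eq_or_lt with h0 | h0
      · simp [sh, ← h0]
      have h' : p * (sinh (η * q) * cosh (η * p)) ≤ q * (sinh (η * p) * cosh (η * q)) :=
        le_of_mul_le_mul_left (by linarith) h0
      have h3 := mul_le_mul_of_nonneg_left h'
        (show 0 ≤ s ^ 3 * p * q * (e p * e q) by simp only [he]; positivity)
      simp only [c, sh]
      linarith

/-- Log cosh satisfies the hypotheses. -/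
lemma prof_logcosh : Prof fun v => log (cosh v) := by
  have hd : ∀ v, HasDerivAt (fun v => log (cosh v)) (sinh v / cosh v) v := fun v =>
    (hasDerivAt_cosh v).log (cosh_pos v).ne'
  have he : deriv (fun v => log (cosh v)) = fun v => sinh v / cosh v := funext fun v => (hd v).deriv
  refine ⟨⟨fun v => (hd v).differentiableAt, fun v => ?_⟩, fun v => by simp, ?_, ?_⟩
  · rw [he, abs_div, abs_of_pos (cosh_pos v), div_le_one (cosh_pos v)]
    exact abs_le.2 ⟨by linarith [cosh_add_sinh v, exp_pos v],
      by linarith [cosh_sub_sinh v, exp_pos (-v)]⟩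
  · rw [he]
    refine monotone_of_hasDerivAt_nonneg
      (fun v => (hasDerivAt_sinh v).div (hasDerivAt_cosh v) (cosh_pos v).ne') fun v => ?_
    simp only [Pi.zero_apply]
    rw [← sq, ← sq, cosh_sq_sub_sinh_sq]
    positivity
  · intro a b ha hab
    rw [he]
    have := sinh_mul_le ha.le hab
    rw [div_mul_eq_mul_div, div_mul_eq_mul_div, div_le_div_iff₀ (cosh_pos b) (cosh_pos a)]
    linarith

end Vale.Agent.P146.Gap
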